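/-
P043: states that agree with the classes of enough directions are affine.
-/
import Mathlib

namespace Vale.Agent.P043.Z3

open Function

variable {D : Type*} [AddCommGroup D]

theorem inv_closure {K : Type*} {g : D → K} {S : Set D} (hS : AddSubgroup.closure S = ⊤)
    (h : ∀ v ∈ S, ∀ y, g (y + v) = g y) (y v : D) : g (y + v) = g y := by
  have hv : v ∈ AddSubgroup.closure S := hS ▸ AddSubgroup.mem_top v
  induction hv using AddSubgroup.closure_induction generalizing y with
  | mem v hv => exact h v hv y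
  | zero => simp
  | add v w _ _ ihv ihw => rw [← add_assoc, ihw, ihv]
  | neg v _ ih =>
    have := ih (y + -v)
    rw [neg_add_cancel_right] at this
    exact this.symm

/-- States on `ZMod M × ZMod M × ZMod q` that move within the classes of `e₁`, `e₂`, `g`, `e₁+e₂`,
`e₁+g` and are fixed by the rest are affine in the position. -/
theorem affine_of_classes {M q : ℕ} (hq : q ∣ M) (π : D →+ ZMod M × ZMod M × ZMod q)
    (e1 e2 g : D) (Z : Set D) (h1 : π e1 = (1, 0, 0)) (h2 : π e2 = (0, 1, 0))
    (hg : π g = (0, 0, 1)) (hZ : ∀ v ∈ Z, π v = 0)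
    (hgen : AddSubgroup.closure ({e1, e2, g} ∪ Z) = ⊤)
    (s : D → ZMod M × ZMod M × ZMod q)
    (hs : ∀ v ∈ ({e1, e2, g, e1 + e2, e1 + g} ∪ Z : Set D), ∀ y,
      s (y + v) - s y ∈ AddSubgroup.zmultiples (π v)) :
    ∃ (l : ℤ) (c : ZMod M × ZMod M × ZMod q), ∀ y, s y = l • π y + c := by
  have step : ∀ v ∈ ({e1, e2, g, e1 + e2, e1 + g} ∪ Z : Set D), ∀ y,
      ∃ k : ℤ, s (y + v) = s y + k • π v := by
    intro v hv y
    obtain ⟨k, hk⟩ := AddSubgroup.mem_zmultiples_iff.mp (hs v hv y)
    exact ⟨k, by rw [hk]; abel⟩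
  -- the three components are invariant along the other generators
  have A : ∀ y, (s (y + e1)).2 = (s y).2 := fun y => by
    obtain ⟨k, hk⟩ := step e1 (by simp) y
    rw [hk, h1]; simp
  have B : ∀ y, (s (y + e2)).1 = (s y).1 ∧ (s (y + e2)).2.2 = (s y).2.2 := fun y => by
    obtain ⟨k, hk⟩ := step e2 (by simp) y
    rw [hk, h2]; simp
  have G : ∀ y, (s (y + g)).1 = (s y).1 ∧ (s (y + g)).2.1 = (s y).2.1 := fun y => by
    obtain ⟨k, hk⟩ := step g (by simp) y
    rw [hk, hg]; simp
  have Zi : ∀ v ∈ Z, ∀ y, s (y + v) = s y := fun v hv y => by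
    obtain ⟨k, hk⟩ := step v (Or.inr hv) y
    rw [hk, hZ v hv, smul_zero, add_zero]
  -- the three increments
  set a : D → ZMod M := fun y => (s (y + e1)).1 - (s y).1 with ha
  set b : D → ZMod M := fun y => (s (y + e2)).2.1 - (s y).2.1 with hb
  set c : D → ZMod q := fun y => (s (y + g)).2.2 - (s y).2.2 with hc
  have hab : ∀ y, a y = b y := by
    intro y
    obtain ⟨k, hk⟩ := step (e1 + e2) (by simp) y
    rw [map_add, h1, h2] at hk
    have p : (s (y + (e1 + e2))).1 = (s (y + e1)).1 := by rw [← add_assoc]; exact (B _).1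
    have r : (s (y + (e1 + e2))).2.1 = (s (y + e2)).2.1 := by
      rw [add_comm e1, ← add_assoc, A]
    rw [hk] at p r
    simp only [Prod.fst_add, Prod.snd_add, Prod.smul_fst, Prod.smul_snd, add_zero, zero_add,
      zsmul_one] at p r
    simp only [ha, hb, ← p, ← r]
    abel
  have hac : ∀ y, c y = ZMod.castHom hq (ZMod q) (a y) := by
    intro y
    obtain ⟨k, hk⟩ := step (e1 + g) (by simp) y
    rw [map_add, h1, hg] at hk
    have p : (s (y + (e1 + g))).1 = (s (y + e1)).1 := by rw [← add_assoc]; exact (G _).1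
    have r : (s (y + (e1 + g))).2.2 = (s (y + g)).2.2 := by
      rw [add_comm e1, ← add_assoc, A]
    rw [hk] at p r
    simp only [Prod.fst_add, Prod.snd_add, Prod.smul_fst, Prod.smul_snd, add_zero, zero_add,
      zsmul_one] at p r
    simp only [ha, hc, ← p, ← r, add_sub_cancel_left, map_intCast]
  have a2 : ∀ y, a (y + e2) = a y := fun y => by
    simp only [ha]
    rw [add_right_comm, (B _).1, (B _).1]
  have ag : ∀ y, a (y + g) = a y := fun y => by
    simp only [ha]
    rw [add_right_comm, (G _).1, (G _).1]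
  have az : ∀ v ∈ Z, ∀ y, a (y + v) = a y := fun v hv y => by
    simp only [ha]
    rw [add_right_comm, Zi v hv, Zi v hv]
  have a1 : ∀ y, a (y + e1) = a y := fun y => by
    rw [hab, hab]
    simp only [hb]
    rw [add_right_comm, A, A]
  have aconst : ∀ y, a y = a 0 := fun y => by
    have := inv_closure hgen (g := a) (by
      rintro v ((e | e | e) | hv) y
      exacts [e ▸ a1 y, e ▸ a2 y, e ▸ ag y, az v hv y]) 0 y
    rwa [zero_add] at this
  obtain ⟨l, hl⟩ := ZMod.intCast_surjective (a 0)
  refine ⟨l, s 0 - l • π 0, fun y => ?_⟩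
  have hinv := inv_closure hgen (g := fun y => s y - l • π y) (by
    rintro v ((h | h | h) | hv) y
    · rw [h]
      have e : s (y + e1) = s y + l • ((1, 0, 0) : ZMod M × ZMod M × ZMod q) := by
        refine Prod.ext ?_ (by simp [A])
        have la : (l : ZMod M) = a y := by rw [hl, aconst y]
        simp [la, ha]
      rw [e, map_add, h1, smul_add]
      abel
    · rw [h]
      have e : s (y + e2) = s y + l • ((0, 1, 0) : ZMod M × ZMod M × ZMod q) := by
        refine Prod.ext (by simp [(B y).1]) (Prod.ext ?_ (by simp [(B y).2]))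
        have la : (l : ZMod M) = b y := by rw [← hab, hl, aconst y]
        simp [la, hb]
      rw [e, map_add, h2, smul_add]
      abel
    · rw [show v = g from h]
      have e : s (y + g) = s y + l • ((0, 0, 1) : ZMod M × ZMod M × ZMod q) := by
        refine Prod.ext (by simp [(G y).1]) (Prod.ext (by simp [(G y).2]) ?_)
        have : (l : ZMod q) = c y := by rw [hac, aconst y, ← hl, map_intCast]
        simp [this, hc]
      rw [e, map_add, hg, smul_add]
      abel
    · rw [Zi v hv, map_add, hZ v hv, add_zero]) 0 y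
  simp only [zero_add] at hinv
  rw [← hinv]
  abel

end Vale.Agent.P043.Z3
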