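/-
P043: window tiles, split tiles and list tiles on `sites × colours`.
-/
import Vale.Agent.P043.Lift
import Vale.Agent.P043.Gadget

namespace Vale.Agent.P043.Z3

open Function Finset

variable {W K T U V : Type*} [AddCommGroup W] [AddCommGroup K] [AddCommGroup T] [AddCommGroup U]
  [AddCommGroup V]

theorem tiles_iff {G : Type*} [AddCommGroup G] (A : Set G) (F : Finset G) :
    Tiles A F ↔ ∀ g, ∃! a, a ∈ A ∧ g - a ∈ F := by
  refine forall_congr' fun g => ⟨?_, ?_⟩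
  · rintro ⟨⟨a, f⟩, ⟨ha, hf, e⟩, hu⟩
    refine ⟨a, ⟨ha, ?_⟩, fun b ⟨hb, hb'⟩ => ?_⟩
    · rwa [← e, add_sub_cancel_left]
    · exact congrArg Prod.fst (hu (b, g - b) ⟨hb, hb', add_sub_cancel b g⟩)
  · rintro ⟨a, ⟨ha, hf⟩, hu⟩
    refine ⟨(a, g - a), ⟨ha, hf, add_sub_cancel a g⟩, ?_⟩
    rintro ⟨b, f⟩ ⟨hb, hf', e⟩
    have hf2 : f = g - b := by rw [← e, add_sub_cancel_left]
    subst hf2
    obtain rfl := hu b ⟨hb, hf'⟩
    rfl

/-- Every translate of the window holds each key exactly once. -/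
def KeyWin (A : Set (W × K)) (Δ : Finset W) (key : K →+ V) : Prop :=
  ∀ z c, ∃! p, p ∈ A ∧ p.1 - z ∈ Δ ∧ key p.2 = c

/-- The key sets of the part of value `t` move by `k` along `v`. -/
def SplitRule (A : Set (W × K)) (Δ : Finset W) (key : K →+ V) (X : K →+ U) (v : W) (k : V) : Prop :=
  ∀ z t c, (∃ p, p ∈ A ∧ p.1 - (z + v) ∈ Δ ∧ key p.2 = c ∧ X p.2 = t) ↔
    ∃ p, p ∈ A ∧ p.1 - z ∈ Δ ∧ key p.2 = c + k ∧ X p.2 = t

section Finite

variable [Fintype K]

open Classical in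
noncomputable def keyTile (Δ : Finset W) (key : K →+ V) : Finset (W × K) :=
  (Δ.image fun d => -d) ×ˢ univ.filter fun c => key c = 0

theorem mem_keyTile {Δ : Finset W} {key : K →+ V} {x : W × K} :
    x ∈ keyTile Δ key ↔ -x.1 ∈ Δ ∧ key x.2 = 0 := by
  classical
  simp [keyTile, neg_eq_iff_eq_neg]

theorem tiles_keyTile_iff {A : Set (W × K)} {Δ : Finset W} {key : K →+ V}
    (hkey : Surjective key) : Tiles A (keyTile Δ key) ↔ KeyWin A Δ key := by
  have key_iff : ∀ (g p : W × K), g - p ∈ keyTile Δ key ↔ p.1 - g.1 ∈ Δ ∧ key p.2 = key g.2 := by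
    intro g p
    rw [mem_keyTile, Prod.fst_sub, Prod.snd_sub, neg_sub, map_sub, sub_eq_zero,
      eq_comm (a := key g.2)]
  simp only [tiles_iff, key_iff]
  refine ⟨fun h z c => ?_, fun h g => h g.1 (key g.2)⟩
  obtain ⟨c', rfl⟩ := hkey c
  exact h (z, c')

open Classical in
/-- The pieces of value zero sit one step `v` away with key shifted by `k`. -/
noncomputable def splitTile (Δ : Finset W) (key : K →+ V) (X : K →+ U) (v : W) (k : V) :
    Finset (W × K) :=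
  ((Δ.image fun d => -d) ×ˢ univ.filter fun c => key c = 0 ∧ X c ≠ 0) ∪
    ((Δ.image fun d => -d - v) ×ˢ univ.filter fun c => key c = k ∧ X c = 0)

theorem mem_splitTile {Δ : Finset W} {key : K →+ V} {X : K →+ U} {v : W} {k : V} {x : W × K} :
    x ∈ splitTile Δ key X v k ↔ (-x.1 ∈ Δ ∧ key x.2 = 0 ∧ X x.2 ≠ 0) ∨
      (-x.1 - v ∈ Δ ∧ key x.2 = k ∧ X x.2 = 0) := by
  classical
  simp only [splitTile, mem_union, mem_product, mem_image, mem_filter, mem_univ, true_and]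
  refine or_congr (and_congr ?_ Iff.rfl) (and_congr ?_ Iff.rfl)
  · exact ⟨fun ⟨d, hd, e⟩ => by rwa [← e, neg_neg], fun h => ⟨_, h, neg_neg _⟩⟩
  · exact ⟨fun ⟨d, hd, e⟩ => by rwa [← e, neg_sub, sub_neg_eq_add, add_sub_cancel_left],
      fun h => ⟨_, h, by abel⟩⟩

theorem tiles_splitTile_iff {A : Set (W × K)} {Δ : Finset W} {key : K →+ V} {X : K →+ U}
    (hkX : ∀ c t, ∃ x, key x = c ∧ X x = t) (hw : KeyWin A Δ key) (v : W) (k : V) :
    Tiles A (splitTile Δ key X v k) ↔ SplitRule A Δ key X v k := by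
  have cov : ∀ (g p : W × K), g - p ∈ splitTile Δ key X v k ↔
      (p.1 - g.1 ∈ Δ ∧ key p.2 = key g.2 ∧ X p.2 ≠ X g.2) ∨
      (p.1 - (g.1 + v) ∈ Δ ∧ key p.2 + k = key g.2 ∧ X p.2 = X g.2) := by
    intro g p
    rw [mem_splitTile, Prod.fst_sub, Prod.snd_sub, neg_sub, map_sub, map_sub,
      show p.1 - g.1 - v = p.1 - (g.1 + v) by abel]
    simp only [sub_eq_iff_eq_add, ne_eq, zero_add, add_comm k, eq_comm (a := key g.2),
      eq_comm (a := X g.2)]
  simp only [tiles_iff, cov]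
  constructor
  · intro h z t c
    obtain ⟨g, hg, ht⟩ := hkX (c + k) t
    obtain ⟨q, ⟨hqA, hqΔ, hqk⟩, hqu⟩ := hw z (c + k)
    obtain ⟨r, ⟨hrA, hr⟩, hru⟩ := h (z, g)
    simp only [hg, ht] at hr hru
    constructor
    · rintro ⟨p, hpA, hpΔ, hpk, hpX⟩
      have e := hru p ⟨hpA, Or.inr ⟨hpΔ, by rw [hpk], hpX⟩⟩
      refine ⟨q, hqA, hqΔ, hqk, ?_⟩
      by_contra hne
      have e' := hru q ⟨hqA, Or.inl ⟨hqΔ, hqk, hne⟩⟩
      exact hne (by rw [e', ← e, hpX])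
    · rintro ⟨p, hpA, hpΔ, hpk, hpX⟩
      rcases hr with ⟨h1, h2, h3⟩ | ⟨h1, h2, h3⟩
      · exact absurd (by rw [hqu r ⟨hrA, h1, h2⟩, ← hqu p ⟨hpA, hpΔ, hpk⟩, hpX]) h3
      · exact ⟨r, hrA, h1, add_right_cancel h2, h3⟩
  · intro h g
    obtain ⟨q, ⟨hqA, hqΔ, hqk⟩, hqu⟩ := hw g.1 (key g.2)
    by_cases hX : X q.2 = X g.2
    · obtain ⟨p, hpA, hpΔ, hpk, hpX⟩ := (h g.1 (X g.2) (key g.2 - k)).mpr
        ⟨q, hqA, hqΔ, by rw [hqk, sub_add_cancel], hX⟩
      refine ⟨p, ⟨hpA, Or.inr ⟨hpΔ, by rw [hpk, sub_add_cancel], hpX⟩⟩, ?_⟩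
      rintro r ⟨hrA, hr | ⟨h1, h2, h3⟩⟩
      · exact absurd (by rw [hqu r ⟨hrA, hr.1, hr.2.1⟩, hX]) hr.2.2
      · exact (hw _ _).unique ⟨hrA, h1, eq_sub_of_add_eq h2⟩ ⟨hpA, hpΔ, hpk⟩
    · refine ⟨q, ⟨hqA, Or.inl ⟨hqΔ, hqk, hX⟩⟩, ?_⟩
      rintro r ⟨hrA, hr | ⟨h1, h2, h3⟩⟩
      · exact hqu r ⟨hrA, hr.1, hr.2.1⟩
      · obtain ⟨p, hpA, hpΔ, hpk, hpX⟩ := (h g.1 (X g.2) (key r.2)).mp ⟨r, hrA, h1, rfl, h3⟩
        exact absurd (by rw [← hqu p ⟨hpA, hpΔ, by rw [hpk, h2]⟩, hpX]) hX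

end Finite

/-! ### Moving part of a window -/

section Moved

variable [DecidableEq W]

def moved (Δ R : Finset W) (v : W) : Finset W := (Δ \ R) ∪ R.image fun r => r + v

theorem keyWin_moved_iff {A : Set (W × K)} {Δ R : Finset W} {key : K →+ V} {v : W}
    (hR : R ⊆ Δ) (hd : ∀ r ∈ R, r + v ∈ Δ → r + v ∈ R) (hw : KeyWin A Δ key) :
    KeyWin A (moved Δ R v) key ↔ ∀ z c, (∃ p, p ∈ A ∧ p.1 - z ∈ R ∧ key p.2 = c) ↔
      ∃ p, p ∈ A ∧ p.1 - (z + v) ∈ R ∧ key p.2 = c := by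
  have hm : ∀ (z : W) (p : W × K), p.1 - z ∈ moved Δ R v ↔
      (p.1 - z ∈ Δ ∧ p.1 - z ∉ R) ∨ p.1 - (z + v) ∈ R := by
    intro z p
    simp only [moved, mem_union, mem_sdiff, mem_image]
    refine or_congr Iff.rfl ⟨fun ⟨r, hr, e⟩ => ?_, fun h => ⟨_, h, by abel⟩⟩
    rwa [show p.1 - (z + v) = r by rw [← sub_sub, ← e, add_sub_cancel_right]]
  have excl : ∀ (z : W) (p : W × K), p.1 - z ∈ Δ → p.1 - z ∉ R → ¬ p.1 - (z + v) ∈ R := by
    intro z p h1 h2 h3
    have e : p.1 - (z + v) + v = p.1 - z := by abel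
    exact h2 (e ▸ hd _ h3 (e.symm ▸ h1))
  constructor
  · intro h z c
    obtain ⟨q, ⟨hqA, hqΔ, hqk⟩, hqu⟩ := hw z c
    obtain ⟨r, ⟨hrA, hr, hrk⟩, hru⟩ := h z c
    constructor
    · rintro ⟨p, hpA, hpR, hpk⟩
      obtain rfl := hqu p ⟨hpA, hR hpR, hpk⟩
      rcases (hm z r).mp hr with ⟨h1, h2⟩ | h1
      · exact absurd hpR (hqu r ⟨hrA, h1, hrk⟩ ▸ h2)
      · exact ⟨r, hrA, h1, hrk⟩
    · rintro ⟨p, hpA, hpR, hpk⟩
      refine ⟨q, hqA, ?_, hqk⟩
      by_contra hqR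
      have e1 := hru p ⟨hpA, (hm z p).mpr (Or.inr hpR), hpk⟩
      have e2 := hru q ⟨hqA, (hm z q).mpr (Or.inl ⟨hqΔ, hqR⟩), hqk⟩
      exact excl z q hqΔ hqR (by rw [e2, ← e1]; exact hpR)
  · intro h z c
    obtain ⟨q, ⟨hqA, hqΔ, hqk⟩, hqu⟩ := hw z c
    by_cases hqR : q.1 - z ∈ R
    · obtain ⟨p, hpA, hpR, hpk⟩ := (h z c).mp ⟨q, hqA, hqR, hqk⟩
      refine ⟨p, ⟨hpA, (hm z p).mpr (Or.inr hpR), hpk⟩, ?_⟩
      rintro r ⟨hrA, hr, hrk⟩
      rcases (hm z r).mp hr with ⟨h1, h2⟩ | h1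
      · exact absurd hqR (hqu r ⟨hrA, h1, hrk⟩ ▸ h2)
      · exact (hw _ _).unique ⟨hrA, hR h1, hrk⟩ ⟨hpA, hR hpR, hpk⟩
    · refine ⟨q, ⟨hqA, (hm z q).mpr (Or.inl ⟨hqΔ, hqR⟩), hqk⟩, ?_⟩
      rintro r ⟨hrA, hr, hrk⟩
      rcases (hm z r).mp hr with ⟨h1, -⟩ | h1
      · exact hqu r ⟨hrA, h1, hrk⟩
      · obtain ⟨p, hpA, hpR, hpk⟩ := (h z c).mpr ⟨r, hrA, h1, hrk⟩
        exact absurd (hqu p ⟨hpA, hR hpR, hpk⟩ ▸ hpR) hqR

end Moved

/-! ### The chain window: positions and marks -/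

section Chain

variable (S : W) (Q : ℕ) [NeZero Q]

open Classical in
noncomputable def chain : Finset W := (range Q).image fun k => k • S

variable {S Q}

/-- A point of tag `y.2` sits at `y.1`. -/
def HasPt (A : Set (W × K)) (τ : K →+ T) (y : W × T) : Prop :=
  ∃ p, p ∈ A ∧ p.1 = y.1 ∧ τ p.2 = y.2

omit [NeZero Q] in
theorem mem_chain {x : W} : x ∈ chain S Q ↔ ∃ k < Q, k • S = x := by
  classical
  simp [chain]

variable {A : Set (W × K)} {τ : K →+ T} (hw : KeyWin A (chain S Q) τ)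
include hw

omit [NeZero Q] in
theorem exists_pos (y : W × T) :
    ∃ k : ZMod Q, HasPt A τ (y.1 + k.val • S, y.2) := by
  obtain ⟨p, ⟨hp, hk, ht⟩, -⟩ := hw y.1 y.2
  obtain ⟨k, hk', e⟩ := mem_chain.mp hk
  refine ⟨(k : ZMod Q), p, hp, ?_, ht⟩
  rw [ZMod.val_natCast_of_lt hk', e]; abel_nf

/-- The place in the chain of the point with the given tag. -/
noncomputable def pos (y : W × T) : ZMod Q := (exists_pos hw y).choose

/-- That point. -/
noncomputable def pt (y : W × T) : W × K := (exists_pos hw y).choose_spec.choose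

omit [NeZero Q] in
theorem pt_spec (y : W × T) :
    pt hw y ∈ A ∧ (pt hw y).1 = y.1 + (pos hw y).val • S ∧ τ (pt hw y).2 = y.2 :=
  (exists_pos hw y).choose_spec.choose_spec

theorem pt_eq {y : W × T} {p : W × K} {k : ℕ} (hp : p ∈ A) (hk : k < Q)
    (e : p.1 = y.1 + k • S) (ht : τ p.2 = y.2) : p = pt hw y := by
  obtain ⟨h1, h2, h3⟩ := pt_spec hw y
  exact (hw y.1 y.2).unique ⟨hp, mem_chain.mpr ⟨k, hk, by rw [e, add_sub_cancel_left]⟩, ht⟩
    ⟨h1, mem_chain.mpr ⟨_, ZMod.val_lt _, by rw [h2, add_sub_cancel_left]⟩, h3⟩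

theorem pt_unique {p q : W × K} (hp : p ∈ A) (hq : q ∈ A) (e : p.1 = q.1) (ht : τ p.2 = τ q.2) :
    p = q :=
  (pt_eq hw (y := (q.1, τ q.2)) hp (NeZero.pos Q) (by simp [e]) ht).trans
    (pt_eq hw (y := (q.1, τ q.2)) hq (NeZero.pos Q) (by simp) rfl).symm

variable (hS : Injective fun n : ℤ => n • S)
include hS

theorem pos_eq {y : W × T} {k : ℕ} (hk : k < Q) (h : HasPt A τ (y.1 + k • S, y.2)) :
    pos hw y = k := by
  obtain ⟨p, hp, e, ht⟩ := h
  have e' := congrArg Prod.fst (pt_eq hw hp hk e ht)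
  rw [e, (pt_spec hw y).2.1] at e'
  have e'' : ((k : ℤ)) • S = ((pos hw y).val : ℤ) • S := by
    rw [natCast_zsmul, natCast_zsmul]; exact add_left_cancel e'
  rw [Nat.cast_injective (hS e''), ZMod.natCast_zmod_val]

theorem hasPt_iff (y : W × T) : HasPt A τ y ↔ pos hw y = 0 := by
  constructor
  · intro h
    simpa using pos_eq hw hS (y := y) (NeZero.pos Q) (by simpa using h)
  · intro h
    obtain ⟨h1, h2, h3⟩ := pt_spec hw y
    exact ⟨_, h1, by simpa [h] using h2, h3⟩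

theorem pos_step (z : W) (g : T) : pos hw (z + S, g) = pos hw (z, g) - 1 := by
  obtain ⟨h1, h2, h3⟩ := pt_spec hw (z + S, g)
  set k := (pos hw (z + S, g)).val with hk
  have hp : HasPt A τ (z + (k + 1) • S, g) :=
    ⟨_, h1, h2.trans (by simp only [succ_nsmul', add_assoc]), h3⟩
  rcases Nat.lt_or_eq_of_le (Nat.succ_le_of_lt (ZMod.val_lt (pos hw (z + S, g)))) with h | h
  · have := pos_eq hw hS (y := (z, g)) h hp
    rw [this, Nat.cast_succ, ZMod.natCast_zmod_val, add_sub_cancel_right]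
  · -- the last place: the point of the earlier window is at its start
    obtain ⟨q1, q2, q3⟩ := pt_spec hw (z, g)
    have hq : (pos hw (z, g)).val = 0 := by
      by_contra hne
      obtain ⟨m, hm⟩ := Nat.exists_eq_succ_of_ne_zero hne
      have hmQ : m < Q := by
        have := ZMod.val_lt (pos hw (z, g)); omega
      have e := pos_eq hw hS (y := (z + S, g)) hmQ
        ⟨_, q1, q2.trans (by simp only [hm, Nat.succ_eq_add_one, succ_nsmul', add_assoc]), q3⟩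
      have := congrArg ZMod.val e
      rw [ZMod.val_natCast_of_lt hmQ, ← hk] at this
      have := ZMod.val_lt (pos hw (z, g))
      omega
    rw [← ZMod.natCast_zmod_val (pos hw (z + S, g)), ← hk, (ZMod.val_eq_zero _).mp hq, zero_sub,
      eq_neg_iff_add_eq_zero, ← Nat.cast_succ, h, ZMod.natCast_self]

theorem pos_zsmul (z : W) (g : T) (n : ℤ) : pos hw (z + n • S, g) = pos hw (z, g) - n := by
  induction n using Int.induction_on with
  | zero => simp
  | succ n ih => rw [add_smul, one_smul, ← add_assoc, pos_step hw hS, ih]; push_cast; abel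
  | pred n ih =>
    have := pos_step hw hS (z + (-(n : ℤ) - 1) • S) g
    rw [sub_smul, one_smul, add_assoc, sub_add_cancel, ih] at this
    rw [sub_smul, one_smul]
    push_cast at this ⊢
    linear_combination (norm := abel) -this

theorem hasPt_zsmul_iff (z : W) (g : T) (n : ℤ) :
    HasPt A τ (z + n • S, g) ↔ pos hw (z, g) = n := by
  rw [hasPt_iff hw hS, pos_zsmul hw hS, sub_eq_zero]

omit hS

/-- The mark of the point with the given tag. -/
noncomputable def mark (μ : K →+ U) (y : W × T) : U := μ (pt hw y).2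

theorem splitRule_chain_iff (μ : K →+ U) :
    SplitRule A (chain S Q) τ μ S 0 ↔ ∀ z g, mark hw μ (z + S, g) = mark hw μ (z, g) := by
  have inW : ∀ (z : W) (g : T), (pt hw (z, g)).1 - z ∈ chain S Q := fun z g =>
    mem_chain.mpr ⟨_, ZMod.val_lt _, by rw [(pt_spec hw (z, g)).2.1]; exact (add_sub_cancel_left _ _).symm⟩
  have eqp : ∀ (z : W) (g : T) (p : W × K), p ∈ A → p.1 - z ∈ chain S Q → τ p.2 = g →
      p = pt hw (z, g) := by
    intro z g p hp hc ht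
    obtain ⟨k, hk, e⟩ := mem_chain.mp hc
    exact pt_eq hw hp hk (by rw [e]; exact (add_sub_cancel z p.1).symm) ht
  constructor
  · intro h z g
    obtain ⟨p, hp, hc, ht, hμ⟩ := (h z (mark hw μ (z + S, g)) g).mp
      ⟨_, (pt_spec hw _).1, inW _ _, (pt_spec hw _).2.2, rfl⟩
    rw [← hμ, eqp z g p hp hc (by simpa using ht)]; rfl
  · intro h z t c
    simp only [add_zero]
    constructor
    · rintro ⟨p, hp, hc, ht, hμ⟩
      refine ⟨_, (pt_spec hw (z, c)).1, inW _ _, (pt_spec hw _).2.2, ?_⟩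
      show mark hw μ (z, c) = t
      rw [← h, mark, ← eqp _ _ p hp hc ht, hμ]
    · rintro ⟨p, hp, hc, ht, hμ⟩
      refine ⟨_, (pt_spec hw (z + S, c)).1, inW _ _, (pt_spec hw _).2.2, ?_⟩
      show mark hw μ (z + S, c) = t
      rw [h, mark, ← eqp _ _ p hp hc ht, hμ]

omit [NeZero Q] in
theorem mark_zsmul {μ : K →+ U} (hμ : ∀ z g, mark hw μ (z + S, g) = mark hw μ (z, g))
    (z : W) (g : T) (n : ℤ) : mark hw μ (z + n • S, g) = mark hw μ (z, g) := by
  induction n using Int.induction_on with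
  | zero => simp
  | succ n ih => rw [add_smul, one_smul, ← add_assoc, hμ, ih]
  | pred n ih => rw [← hμ, add_assoc, sub_smul, one_smul, sub_add_cancel, ih]

/-- The function read by the lists. -/
noncomputable def reading (μ : K →+ U) (y : W × T) : U × ZMod Q := (mark hw μ y, pos hw y)

end Chain

/-! ### List tiles -/

section List

variable [Fintype K] [Fintype U] {S : W} {Q : ℕ} [NeZero Q]

open Classical in
noncomputable def listTile (S : W) (τ : K →+ T) (μ : K →+ U) (L : Eqn (W × T) (U × ZMod Q)) :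
    Finset (W × K) :=
  univ.biUnion fun j =>
    {(L.e j).2.val • S - (L.δ j).1} ×ˢ univ.filter fun c => τ c = -(L.δ j).2 ∧ μ c = (L.e j).1

theorem mem_listTile {τ : K →+ T} {μ : K →+ U} {L : Eqn (W × T) (U × ZMod Q)} {x : W × K} :
    x ∈ listTile S τ μ L ↔ ∃ j, x.1 = (L.e j).2.val • S - (L.δ j).1 ∧ τ x.2 = -(L.δ j).2 ∧
      μ x.2 = (L.e j).1 := by
  classical
  simp only [listTile, mem_biUnion, mem_univ, true_and, mem_product, mem_singleton, mem_filter]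

theorem tiles_listTile_iff {A : Set (W × K)} {τ : K →+ T} {μ : K →+ U}
    (hS : Injective fun n : ℤ => n • S) (hτμ : ∀ g κ, ∃ c, τ c = g ∧ μ c = κ)
    (hw : KeyWin A (chain S Q) τ) (hμ : ∀ z g, mark hw μ (z + S, g) = mark hw μ (z, g))
    (L : Eqn (W × T) (U × ZMod Q)) :
    Tiles A (listTile S τ μ L) ↔ Holds L (reading hw μ) := by
  set f := reading hw μ with hf
  -- covering by piece `j` is one value of the list
  have cov : ∀ (g p : W × K), p ∈ A → ∀ j,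
      ((g - p).1 = (L.e j).2.val • S - (L.δ j).1 ∧ τ (g - p).2 = -(L.δ j).2 ∧
        μ (g - p).2 = (L.e j).1) →
      f ((g.1, τ g.2) + L.δ j) + L.e j = (μ g.2, 0) ∧
        p.1 = g.1 + (L.δ j).1 - (L.e j).2.val • S ∧ τ p.2 = τ g.2 + (L.δ j).2 := by
    rintro g p hp j ⟨e1, e2, e3⟩
    have h1 : p.1 = g.1 + (L.δ j).1 + (-((L.e j).2.val : ℤ)) • S := by
      rw [neg_smul, natCast_zsmul, ← sub_eq_add_neg]
      calc p.1 = g.1 - (g - p).1 := by rw [Prod.fst_sub, sub_sub_cancel]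
        _ = _ := by rw [e1]; abel
    have h2 : τ p.2 = τ g.2 + (L.δ j).2 := by
      calc τ p.2 = τ g.2 - τ (g - p).2 := by rw [Prod.snd_sub, map_sub, sub_sub_cancel]
        _ = _ := by rw [e2]; abel
    refine ⟨?_, by rw [h1, neg_smul, natCast_zsmul]; abel, h2⟩
    have hp' : HasPt A τ (g.1 + (L.δ j).1 + (-((L.e j).2.val : ℤ)) • S, τ g.2 + (L.δ j).2) :=
      ⟨p, hp, h1, h2⟩
    have hpos := (hasPt_zsmul_iff hw hS _ _ _).mp hp'
    refine Prod.ext ?_ ?_
    · show mark hw μ (g.1 + (L.δ j).1, τ g.2 + (L.δ j).2) + (L.e j).1 = μ g.2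
      rw [← mark_zsmul hw hμ _ _ (-((L.e j).2.val : ℤ)), mark,
        ← pt_eq hw hp (NeZero.pos Q) (by simpa using h1) h2, ← e3, Prod.snd_sub, map_sub,
        add_sub_cancel]
    · show pos hw (g.1 + (L.δ j).1, τ g.2 + (L.δ j).2) + (L.e j).2 = 0
      rw [hpos]; push_cast; rw [ZMod.natCast_zmod_val, neg_add_cancel]
  rw [tiles_iff]
  simp only [mem_listTile]
  constructor
  · intro h y
    refine (Finite.surjective_iff_bijective).mp fun v => ?_
    obtain ⟨c, hc1, hc2⟩ := hτμ y.2 v.1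
    obtain ⟨p, ⟨hp, j, hj⟩, -⟩ := h (y.1 + (v.2.val : ℤ) • S, c)
    obtain ⟨e, -, -⟩ := cov _ p hp j hj
    refine ⟨j, ?_⟩
    rw [hc1, hc2, hf, show ((y.1 + (v.2.val : ℤ) • S, y.2) : W × T) + L.δ j
      = ((y + L.δ j).1 + (v.2.val : ℤ) • S, (y + L.δ j).2) from
        Prod.ext (add_right_comm _ _ _) rfl] at e
    have e1 := congrArg Prod.fst e
    have e2 := congrArg Prod.snd e
    simp only [reading, Prod.fst_add, Prod.snd_add] at e1 e2
    rw [mark_zsmul hw hμ] at e1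
    rw [pos_zsmul hw hS] at e2
    refine Prod.ext e1 ?_
    show pos hw (y + L.δ j) + (L.e j).2 = v.2
    rw [Int.cast_natCast, ZMod.natCast_zmod_val, sub_add_eq_add_sub, sub_eq_zero] at e2
    exact e2
  · intro h g
    obtain ⟨j, hj⟩ := (h (g.1, τ g.2)).surjective (μ g.2, 0)
    have e1 := congrArg Prod.fst hj
    have e2 := congrArg Prod.snd hj
    simp only [hf, reading, Prod.fst_add, Prod.snd_add] at e1 e2
    obtain ⟨p, hp, hp1, hp2⟩ := (hasPt_zsmul_iff hw hS (g.1 + (L.δ j).1) (τ g.2 + (L.δ j).2)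
      (-((L.e j).2.val : ℤ))).mpr (by
        push_cast; rw [ZMod.natCast_zmod_val]; exact eq_neg_of_add_eq_zero_left e2)
    dsimp only at hp1 hp2
    refine ⟨p, ⟨hp, j, ?_, ?_, ?_⟩, ?_⟩
    · rw [Prod.fst_sub, hp1, neg_smul, natCast_zsmul]; abel
    · rw [Prod.snd_sub, map_sub, hp2]; abel
    · rw [Prod.snd_sub, map_sub, ← e1, ← mark_zsmul hw hμ _ _ (-((L.e j).2.val : ℤ)), mark,
        ← pt_eq hw hp (NeZero.pos Q) (by simpa using hp1) hp2, add_sub_cancel_left]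
    · rintro q ⟨hq, j', hj'⟩
      obtain ⟨e', q1, q2⟩ := cov g q hq j' hj'
      obtain rfl : j' = j := (h _).injective (e'.trans hj.symm)
      refine pt_unique hw hq hp ?_ (q2.trans hp2.symm)
      rw [q1, hp1, neg_smul, natCast_zsmul]; abel

end List

/-! ### Point sets from functions -/

section Graph

variable {S : W} {Q : ℕ} [NeZero Q] (τ : K →+ T) (ps : W × T → ZMod Q) (col : W × T → K)

/-- One point of each tag where the position is zero. -/
def pointSet : Set (W × K) := {p | ps (p.1, τ p.2) = 0 ∧ p.2 = col (p.1, τ p.2)}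

variable {τ ps col} (hcol : ∀ y, τ (col y) = y.2)
  (hps : ∀ z g, ps (z + S, g) = ps (z, g) - 1)
include hcol hps

theorem pointSet_keyWin : KeyWin (pointSet τ ps col) (chain S Q) τ := by
  have hk : ∀ (k : ℕ) z g, ps (z + k • S, g) = ps (z, g) - k := by
    intro k z g
    induction k with
    | zero => simp
    | succ k ih => rw [succ_nsmul, ← add_assoc, hps, ih, Nat.cast_succ]; abel
  intro z g
  refine ⟨(z + (ps (z, g)).val • S, col (z + (ps (z, g)).val • S, g)), ⟨⟨?_, ?_⟩, ?_, hcol _⟩, ?_⟩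
  · simp [hcol, hk]
  · simp [hcol]
  · exact mem_chain.mpr ⟨_, ZMod.val_lt _, (add_sub_cancel_left _ _).symm⟩
  · rintro ⟨w, c⟩ ⟨⟨h1, h2⟩, h3, h4⟩
    obtain ⟨k, hk', e⟩ := mem_chain.mp h3
    dsimp only at h1 h2 e h4
    rw [h4] at h1 h2
    have hw' : w = z + k • S := by rw [e]; abel
    rw [hw', hk, sub_eq_zero] at h1
    rw [h1, ZMod.val_natCast_of_lt hk', ← hw', ← h2]

theorem pointSet_pos (hS : Injective fun n : ℤ => n • S) (y : W × T) :
    pos (pointSet_keyWin hcol hps) y = ps y := by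
  obtain ⟨⟨h1, -⟩, h2, h3⟩ := pt_spec (pointSet_keyWin hcol hps) y
  have e := pos_zsmul (pointSet_keyWin hcol hps) hS y.1 y.2 ((ps y).val : ℤ)
  have hk : ∀ (k : ℕ) z g, ps (z + k • S, g) = ps (z, g) - k := by
    intro k z g
    induction k with
    | zero => simp
    | succ k ih => rw [succ_nsmul, ← add_assoc, hps, ih, Nat.cast_succ]; abel
  rw [h2, h3, hk, ZMod.natCast_zmod_val, sub_eq_zero] at h1
  exact h1.symm

theorem pointSet_mark {μ : K →+ U} (hμ : ∀ z g, μ (col (z + S, g)) = μ (col (z, g))) (y : W × T) :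
    mark (pointSet_keyWin hcol hps) μ y = μ (col y) := by
  have hk : ∀ (k : ℕ) z g, μ (col (z + k • S, g)) = μ (col (z, g)) := by
    intro k z g
    induction k with
    | zero => simp
    | succ k ih => rw [succ_nsmul, ← add_assoc, hμ, ih]
  obtain ⟨⟨-, h1⟩, h2, h3⟩ := pt_spec (pointSet_keyWin hcol hps) y
  rw [mark, h1, h2, h3, hk]

end Graph

end Vale.Agent.P043.Z3
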