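/-
P043: the gadget of the third seed slice (zero line sums, a product never divisible by seven).
-/
import Mathlib

namespace Vale.Agent.P043.Z3

open Function Finset

/-- The two sign functions on positions `0, 1, …`. -/
def sgn : Bool → ℕ → ℤ
  | false, v => if v = 1 then 0 else if v = 2 then -1 else if v = 0 ∨ v % 2 = 1 then 1 else -1
  | true, v => if v = 1 then 1 else if v = 2 then -1 else 0

theorem sgn_le (b : Bool) (v : ℕ) : -1 ≤ sgn b v ∧ sgn b v ≤ 1 := by
  cases b <;> simp only [sgn] <;> split_ifs <;> omega

theorem sgn_add (v : ℕ) :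
    sgn false v + sgn true v = 1 ∨ sgn false v + sgn true v = -1 ∨
      sgn false v + sgn true v = -2 := by
  simp only [sgn]
  split_ifs <;> omega

theorem sgn_sum_range (b : Bool) (m : ℕ) :
    ∑ v ∈ range (2 * m + 3), sgn b v = 0 := by
  induction m with
  | zero => cases b <;> decide
  | succ m ih =>
    rw [show 2 * (m + 1) + 3 = 2 * m + 3 + 1 + 1 by omega, sum_range_succ, sum_range_succ, ih]
    have h1 : (2 * m + 3) % 2 = 1 := by omega
    have h2 : (2 * m + 4) % 2 = 0 := by omega
    cases b <;> simp [sgn, h1, h2]

theorem sgn_sum (b : Bool) {L : ℕ} [NeZero L] (h3 : 3 ≤ L) (hodd : L % 2 = 1) :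
    ∑ x : ZMod L, sgn b x.val = 0 := by
  have e : ∑ x : ZMod L, sgn b x.val = ∑ v ∈ range L, sgn b v := by
    refine sum_bij' (fun x _ => x.val) (fun v _ => (v : ZMod L))
      (fun x _ => mem_range.mpr x.val_lt) (fun v _ => mem_univ _)
      (fun x _ => ZMod.natCast_zmod_val x)
      (fun v hv => ZMod.val_cast_of_lt (mem_range.mp hv)) (fun x _ => rfl)
  obtain ⟨m, rfl⟩ : ∃ m, L = 2 * m + 3 := ⟨(L - 3) / 2, by omega⟩
  rw [e, sgn_sum_range]

section Terms

variable {ι : Type} [Fintype ι] {L : ι → ℕ}

/-- One signed term at `u`. -/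
def term (k : ι → Bool) (u : ∀ i, ZMod (L i)) : ℤ := ∏ i, sgn (k i) (u i).val

theorem term_le (k : ι → Bool) (u : ∀ i, ZMod (L i)) : term k u = -1 ∨ term k u = 0 ∨ term k u = 1 := by
  unfold term
  refine prod_induction _ (fun z : ℤ => z = -1 ∨ z = 0 ∨ z = 1) ?_ (by simp) fun i _ => ?_
  · rintro a b (rfl | rfl | rfl) (rfl | rfl | rfl) <;> norm_num
  · have := sgn_le (k i) (u i).val; omega

/-- Every term sums to zero on every line. -/
theorem term_line [DecidableEq ι] [∀ i, NeZero (L i)] {i : ι} (h3 : 3 ≤ L i) (hodd : L i % 2 = 1)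
    (k : ι → Bool) (u : ∀ i, ZMod (L i)) : ∑ x : ZMod (L i), term k (update u i x) = 0 := by
  have key : ∀ x : ZMod (L i), term k (update u i x) =
      sgn (k i) x.val * ∏ t ∈ univ.erase i, sgn (k t) (u t).val := by
    intro x
    unfold term
    rw [← mul_prod_erase univ _ (mem_univ i), update_self]
    congr 1
    refine prod_congr rfl fun t ht => ?_
    rw [update_of_ne (mem_erase.mp ht).1]
  simp only [key, ← sum_mul, sgn_sum (k i) h3 hodd, zero_mul]

/-- The terms together are never divisible by seven. -/
theorem term_total [DecidableEq ι] (u : ∀ i, ZMod (L i)) : ¬ (7 : ℤ) ∣ ∑ k : ι → Bool, term k u := by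
  have e : ∑ k : ι → Bool, term k u = ∏ i, (sgn false (u i).val + sgn true (u i).val) := by
    unfold term
    rw [← Fintype.prod_sum (fun i b => sgn b (u i).val)]
    exact prod_congr rfl fun i _ => by rw [Fintype.sum_bool, add_comm]
  rw [e]
  intro h
  obtain ⟨i, _, hi⟩ := (Int.prime_iff_natAbs_prime.mpr (by norm_num)).exists_mem_finset_dvd h
  rcases sgn_add (u i).val with e | e | e <;> rw [e] at hi <;> norm_num at hi

end Terms

/-! One block of eight rows: seven spikes and one spread row, corrected by the sign `t`. -/

/-- Whether row `a` of a block of sign `t` is a spike. -/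
def blockF (t : ℤ) (a : Fin 8) : Bool :=
  if a = 7 then decide (t = 1) else !decide (a = 0 ∧ t = -1)

/-- The column of point `g` of row `a`. -/
def blockCol (t : ℤ) (a : Fin 8) (g : Fin 7) : Fin 7 :=
  if blockF t a then (if h : a.val < 7 then ⟨a.val, h⟩ else 0) else g

/-- The label of point `g` of row `a`. -/
def blockLab (t : ℤ) (a : Fin 8) (g : Fin 7) : Fin 8 :=
  if blockF t a then g.castSucc else 7

theorem blockF_card {t : ℤ} (h : t = -1 ∨ t = 0 ∨ t = 1) :
    ((univ.filter fun a => blockF t a).card : ℤ) = 7 + t := by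
  rcases h with rfl | rfl | rfl <;> decide

/-- Each label is hit once per column, up to a multiple of the sign. -/
theorem block_count {t : ℤ} (h : t = -1 ∨ t = 0 ∨ t = 1) (c : Fin 7) (e : Fin 8) :
    ((univ.filter fun p : Fin 8 × Fin 7 => blockCol t p.1 p.2 = c ∧ blockLab t p.1 p.2 = e).card : ℤ)
      = 1 + t * (if e = 7 then -1 else if c = 0 then 1 else 0) := by
  rcases h with rfl | rfl | rfl <;> revert e <;> revert c <;> decide

section Rows

variable {ι : Type} [Fintype ι] [DecidableEq ι] {L : ι → ℕ} {E : ℕ}

/-- The number of blocks. -/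
noncomputable def nTerm (ι : Type) [Fintype ι] [DecidableEq ι] : ℕ := Fintype.card (ι → Bool)

/-- The block and the place of a row, if it lies in a block. -/
noncomputable def rowBlock (ι : Type) [Fintype ι] [DecidableEq ι] (η : ℕ) :
    Option ((ι → Bool) × Fin 8) :=
  if h : η / 8 < nTerm ι then
    some ((Fintype.equivFin (ι → Bool)).symm ⟨η / 8, h⟩, ⟨η % 8, Nat.mod_lt _ (by norm_num)⟩)
  else none

/-- The row number of a place in a block. -/
noncomputable def blockRow (p : (ι → Bool) × Fin 8) : ℕ :=
  8 * (Fintype.equivFin (ι → Bool) p.1).val + p.2.val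

theorem blockRow_lt (p : (ι → Bool) × Fin 8) : blockRow p < 8 * nTerm ι := by
  have := (Fintype.equivFin (ι → Bool) p.1).isLt
  unfold blockRow nTerm
  omega

theorem rowBlock_blockRow (p : (ι → Bool) × Fin 8) : rowBlock ι (blockRow p) = some p := by
  have h1 := (Fintype.equivFin (ι → Bool) p.1).isLt
  have h2 := p.2.isLt
  unfold rowBlock
  rw [dif_pos (show blockRow p / 8 < nTerm ι by unfold blockRow nTerm; omega)]
  refine congrArg some (Prod.ext ?_ (Fin.ext ?_))
  · rw [Equiv.symm_apply_eq]
    exact Fin.ext (show blockRow p / 8 = _ by unfold blockRow; omega)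
  · show blockRow p % 8 = _
    unfold blockRow
    omega

theorem blockRow_rowBlock {η : ℕ} {p : (ι → Bool) × Fin 8} (h : rowBlock ι η = some p) :
    blockRow p = η := by
  unfold rowBlock at h
  split_ifs at h with hη
  obtain rfl := Option.some.inj h
  simp only [blockRow, Equiv.apply_symm_apply]
  omega

theorem rowBlock_none {η : ℕ} : rowBlock ι η = none ↔ 8 * nTerm ι ≤ η := by
  unfold rowBlock
  split_ifs with h <;> simp <;> omega

/-- The spike rows of the slice. -/
noncomputable def seedF (η : ZMod E) (u : ∀ i, ZMod (L i)) : Bool :=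
  ((rowBlock ι η.val).map fun p => blockF (term p.1 u) p.2).getD false

theorem seedF_some {η : ZMod E} {u : ∀ i, ZMod (L i)} {p : (ι → Bool) × Fin 8}
    (h : rowBlock ι η.val = some p) : seedF η u = blockF (term p.1 u) p.2 := by
  simp [seedF, h]

theorem seedF_none {η : ZMod E} {u : ∀ i, ZMod (L i)}
    (h : rowBlock ι η.val = none) : seedF η u = false := by
  simp [seedF, h]

/-- The number of spike rows is seven per block plus the signs. -/
theorem seedF_card [NeZero E] (hE : 8 * nTerm ι ≤ E) (u : ∀ i, ZMod (L i)) :
    ((univ.filter fun η : ZMod E => seedF η u).card : ℤ) =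
      7 * nTerm ι + ∑ k : ι → Bool, term k u := by
  have e : (univ.filter fun η : ZMod E => seedF η u).card =
      (univ.filter fun p : (ι → Bool) × Fin 8 => blockF (term p.1 u) p.2).card := by
    symm
    refine card_bij (fun p _ => (blockRow p : ZMod E)) ?_ ?_ ?_
    · intro p hp
      have hv : ((blockRow p : ℕ) : ZMod E).val = blockRow p :=
        ZMod.val_cast_of_lt (lt_of_lt_of_le (blockRow_lt p) hE)
      simp only [mem_filter, mem_univ, true_and] at hp ⊢
      rw [seedF_some (p := p) (by rw [hv, rowBlock_blockRow])]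
      exact hp
    · intro p _ p' _ h
      have := congrArg ZMod.val h
      rw [ZMod.val_cast_of_lt (lt_of_lt_of_le (blockRow_lt p) hE),
        ZMod.val_cast_of_lt (lt_of_lt_of_le (blockRow_lt p') hE)] at this
      have := congrArg (rowBlock ι) this
      rw [rowBlock_blockRow, rowBlock_blockRow] at this
      exact Option.some.inj this
    · intro η hη
      simp only [mem_filter, mem_univ, true_and] at hη ⊢
      cases h : rowBlock ι η.val with
      | none => rw [seedF_none h] at hη; exact absurd hη (by simp)
      | some p =>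
        refine ⟨p, by rw [← seedF_some h]; exact hη, ?_⟩
        rw [blockRow_rowBlock h, ZMod.natCast_zmod_val]
  rw [e, card_filter, Fintype.sum_prod_type, Nat.cast_sum]
  simp only [Nat.cast_sum, Nat.cast_ite, Nat.cast_one, Nat.cast_zero]
  have hb : ∀ k : ι → Bool, (∑ a : Fin 8, if blockF (term k u) a then (1 : ℤ) else 0) =
      7 + term k u := by
    intro k
    rw [sum_boole, blockF_card (term_le k u)]
  rw [sum_congr rfl fun k _ => hb k, sum_add_distrib, sum_const, card_univ, nsmul_eq_mul, nTerm]
  ring

/-- The number of spike rows at fixed `u` is not divisible by seven. -/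
theorem seedF_not_dvd [NeZero E] (hE : 8 * nTerm ι ≤ E) (u : ∀ i, ZMod (L i)) :
    ¬ 7 ∣ (univ.filter fun η : ZMod E => seedF η u).card := by
  intro h
  apply term_total u
  have h' : (7 : ℤ) ∣ ((univ.filter fun η : ZMod E => seedF η u).card : ℤ) := by exact_mod_cast h
  rw [seedF_card hE] at h'
  exact (dvd_add_right (dvd_mul_right 7 _)).mp h'

/-- The column of point `g` of a row. -/
noncomputable def seedCol (η : ZMod E) (u : ∀ i, ZMod (L i)) (g : Fin 7) : Fin 7 :=
  ((rowBlock ι η.val).map fun p => blockCol (term p.1 u) p.2 g).getD g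

/-- The label of point `g` of a row. -/
noncomputable def seedLab (η : ZMod E) (u : ∀ i, ZMod (L i)) (g : Fin 7) : ZMod E :=
  ((rowBlock ι η.val).map fun p => (blockRow (p.1, blockLab (term p.1 u) p.2 g) : ZMod E)).getD η

/-- The deviation from one of the number of points with given column and label. -/
noncomputable def seedDev (u : ∀ i, ZMod (L i)) (c : Fin 7) (e : ZMod E) : ℤ :=
  ((rowBlock ι e.val).map fun p =>
    term p.1 u * (if p.2 = 7 then -1 else if c = 0 then 1 else 0)).getD 0

theorem seed_col_of_spike {η : ZMod E} {u : ∀ i, ZMod (L i)} (h : seedF η u = true) (g g' : Fin 7) :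
    seedCol η u g = seedCol η u g' := by
  cases hb : rowBlock ι η.val with
  | none => rw [seedF_none hb] at h; exact absurd h (by simp)
  | some p =>
    rw [seedF_some hb] at h
    simp [seedCol, hb, blockCol, h]

theorem seed_col_of_spread {η : ZMod E} {u : ∀ i, ZMod (L i)} (h : seedF η u = false) (g : Fin 7) :
    seedCol η u g = g := by
  cases hb : rowBlock ι η.val with
  | none => simp [seedCol, hb]
  | some p =>
    rw [seedF_some hb] at h
    simp [seedCol, hb, blockCol, h]

/-- The number of points with a given column and label. -/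
theorem seed_count [NeZero E] (hE : 8 * nTerm ι ≤ E) (u : ∀ i, ZMod (L i)) (c : Fin 7)
    (e : ZMod E) :
    ((univ.filter fun p : ZMod E × Fin 7 => seedCol p.1 u p.2 = c ∧ seedLab p.1 u p.2 = e).card : ℤ)
      = 1 + seedDev u c e := by
  have hv : ∀ p : (ι → Bool) × Fin 8, ((blockRow p : ℕ) : ZMod E).val = blockRow p := fun p =>
    ZMod.val_cast_of_lt (lt_of_lt_of_le (blockRow_lt p) hE)
  cases hb : rowBlock ι e.val with
  | none =>
    have : (univ.filter fun p : ZMod E × Fin 7 => seedCol p.1 u p.2 = c ∧ seedLab p.1 u p.2 = e) =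
        {(e, c)} := by
      ext ⟨η, g⟩
      simp only [mem_filter, mem_univ, true_and, mem_singleton, Prod.mk.injEq]
      constructor
      · rintro ⟨h1, h2⟩
        cases h : rowBlock ι η.val with
        | none => simp [seedCol, seedLab, h] at h1 h2; exact ⟨h2, h1⟩
        | some p =>
          simp [seedLab, h] at h2
          rw [← h2, hv, rowBlock_blockRow] at hb
          simp at hb
      · rintro ⟨rfl, rfl⟩
        simp [seedCol, seedLab, hb]
    rw [this, card_singleton]
    simp [seedDev, hb]
  | some q =>
    have : (univ.filter fun p : ZMod E × Fin 7 => seedCol p.1 u p.2 = c ∧ seedLab p.1 u p.2 = e).card =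
        (univ.filter fun p : Fin 8 × Fin 7 =>
          blockCol (term q.1 u) p.1 p.2 = c ∧ blockLab (term q.1 u) p.1 p.2 = q.2).card := by
      symm
      refine card_bij (fun p _ => ((blockRow (q.1, p.1) : ZMod E), p.2)) ?_ ?_ ?_
      · intro p hp
        simp only [mem_filter, mem_univ, true_and] at hp ⊢
        simp only [seedCol, seedLab, hv, rowBlock_blockRow, Option.map_some, Option.getD_some]
        exact ⟨hp.1, by rw [hp.2, blockRow_rowBlock hb, ZMod.natCast_zmod_val]⟩
      · intro p _ p' _ h
        simp only [Prod.mk.injEq] at h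
        have := congrArg ZMod.val h.1
        rw [hv, hv] at this
        have := congrArg (rowBlock ι) this
        rw [rowBlock_blockRow, rowBlock_blockRow] at this
        simp only [Option.some.injEq, Prod.mk.injEq, true_and] at this
        exact Prod.ext this h.2
      · rintro ⟨η, g⟩ hp
        simp only [mem_filter, mem_univ, true_and] at hp ⊢
        cases h : rowBlock ι η.val with
        | none =>
          simp [seedLab, h] at hp
          rw [← hp.2, h] at hb
          simp at hb
        | some p =>
          simp [seedCol, seedLab, h] at hp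
          have hq : q = (p.1, blockLab (term p.1 u) p.2 g) := by
            rw [← hp.2, hv, rowBlock_blockRow] at hb
            exact (Option.some.inj hb).symm
          subst hq
          exact ⟨(p.2, g), ⟨hp.1, rfl⟩, Prod.ext (by
            show (blockRow p : ZMod E) = η
            rw [blockRow_rowBlock h, ZMod.natCast_zmod_val]) rfl⟩
    rw [this, block_count (term_le q.1 u)]
    simp [seedDev, hb]

/-- On a line every column and label are hit exactly as often as there are rows. -/
theorem seed_line [NeZero E] [∀ i, NeZero (L i)] (hE : 8 * nTerm ι ≤ E) {i : ι} (h3 : 3 ≤ L i)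
    (hodd : L i % 2 = 1) (u : ∀ i, ZMod (L i)) (c : Fin 7) (e : ZMod E) :
    (∑ x : ZMod (L i), (univ.filter fun p : ZMod E × Fin 7 =>
      seedCol p.1 (update u i x) p.2 = c ∧ seedLab p.1 (update u i x) p.2 = e).card) = L i := by
  apply Nat.cast_injective (R := ℤ)
  rw [Nat.cast_sum, sum_congr rfl fun x _ => seed_count hE (update u i x) c e, sum_add_distrib,
    sum_const, card_univ, ZMod.card]
  have : ∑ x : ZMod (L i), seedDev (update u i x) c e = 0 := by
    cases hb : rowBlock ι e.val with
    | none => simp [seedDev, hb]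
    | some p =>
      simp only [seedDev, hb, Option.map_some, Option.getD_some]
      rw [← sum_mul, term_line h3 hodd, zero_mul]
  rw [this]
  simp

end Rows

end Vale.Agent.P043.Z3
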