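/-
P043, dimension three: parameters, colours and the tiles of the system.
-/
import Vale.Agent.P043.System
import Vale.Agent.P043.Lift
import Vale.Agent.P043.Z3.USeed
import Vale.Agent.P043.Z3.Tile

namespace Vale.Agent.P043.Z3

open Function Finset

noncomputable section

abbrev Z2 := ℤ × ℤ

/-- Readout attributes: digits, clocks, two parity readouts. -/
abbrev Att := Fin 4096 ⊕ Fin 3 ⊕ Fin 2

/-- The parity of the first clock of a state. -/
def par0 (s : P043.St) : ZMod 2 := par2 s.1.1

/-- The free parameters. -/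
structure Par where
  q0 : ℕ
  E : ℕ
  L : Att → ℕ
  q0_prime : q0.Prime
  q0_mod : q0 % 17 = 13
  E_prime : E.Prime
  E_mod : E % 11 = 7
  q0_big : 17 < q0
  E_big : 8 * 2 ^ Fintype.card Att < E
  q0_E : q0 < E
  L_prime : ∀ n, (L n).Prime
  L_mod : ∀ n, L n % 77 = 1
  L_big : ∀ n, q0 < L n
  L_inj : Injective L
  E_L : ∀ n, E ≠ L n
  table : ZMod q0 → P043.St
  d : Fin 2 → ZMod q0
  table_surj : ∀ t, ∃ g, table g = t ∧ ∀ i, g ≠ d i
  d_ne : d 0 ≠ d 1
  d_table : table (d 0) = table (d 1)
  balanced : ∀ i, ∀ b : ZMod 2,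
    2 * Nat.card {g : ZMod q0 // g ≠ d i ∧ par0 (table g) = b} + 1 = q0

variable (K : Par)

instance : NeZero K.q0 := ⟨K.q0_prime.ne_zero⟩
instance : NeZero K.E := ⟨K.E_prime.ne_zero⟩
instance (n : Att) : NeZero (K.L n) := ⟨(K.L_prime n).ne_zero⟩

/-- The moduli of the six small seed tags. -/
def tm : Fin 6 → ℕ := ![3, 5, 7, 11, 13, 17]

instance (i : Fin 6) : NeZero (tm i) := ⟨by fin_cases i <;> simp [tm]⟩

/-- A tag: one big component and six small ones. -/
abbrev Tag := ZMod K.q0 × (∀ i : Fin 6, ZMod (tm i))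

abbrev D := Z2 × Tag K

def gS : Tag K := (1, 0)
def gT (i : Fin 6) : Tag K := (0, Pi.single i 1)

/-- The number of tags. -/
def Q : ℕ := (⟨_, rfl⟩ : ∃ m : ℕ, m = K.q0 * ∏ i, tm i).choose

lemma Q_eq : Q K = K.q0 * ∏ i, tm i :=
  (⟨_, rfl⟩ : ∃ m : ℕ, m = K.q0 * ∏ i, tm i).choose_spec

/-- The modulus recognised by the states. -/
def M : ℕ := (⟨_, rfl⟩ : ∃ m : ℕ, m = 16 * K.q0 * K.E * ∏ n, K.L n).choose

lemma M_eq : M K = 16 * K.q0 * K.E * ∏ n, K.L n :=
  (⟨_, rfl⟩ : ∃ m : ℕ, m = 16 * K.q0 * K.E * ∏ n, K.L n).choose_spec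

instance : NeZero (M K) := ⟨by
  have h : ∏ n, K.L n ≠ 0 := prod_ne_zero_iff.mpr fun n _ => (K.L_prime n).ne_zero
  rw [M_eq]
  exact mul_ne_zero (mul_ne_zero (mul_ne_zero (by norm_num) K.q0_prime.ne_zero) K.E_prime.ne_zero) h⟩

/-- A state: both residues of the site and the big tag. -/
abbrev St := ZMod (M K) × ZMod (M K) × ZMod K.q0

def proj : D K →+ St K where
  toFun y := ((y.1.1 : ZMod (M K)), (y.1.2 : ZMod (M K)), y.2.1)
  map_zero' := by simp
  map_add' a b := by simp

/-- The five directions along which classes of states are constant, as residues. -/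
def dirSt : Fin 5 → St K :=
  ![(1, 0, 0), (0, 1, 0), (1, 1, 0), (0, 0, 1), (1, 0, 1)]

abbrev Cls (k : Fin 5) := St K ⧸ AddSubgroup.zmultiples (dirSt K k)

abbrev Opt := St K ⊕ (Σ k : Fin 5, Cls K k)

noncomputable instance : Fintype (Opt K) := Fintype.ofFinite _
noncomputable instance : DecidableEq (Opt K) := Classical.decEq _

/-- Readout colours and the three label colours of each attribute. -/
abbrev XI := Att ⊕ Att × Fin 3

/-- A lower bound for the large primes. -/
def bound : ℕ := (⟨_, rfl⟩ : ∃ m : ℕ, m = (M K * M K * Q K * Q K + M K + Q K + 100) ^ 2).choose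

lemma bound_eq : bound K = (M K * M K * Q K * Q K + M K + Q K + 100) ^ 2 :=
  (⟨_, rfl⟩ : ∃ m : ℕ, m = (M K * M K * Q K * Q K + M K + Q K + 100) ^ 2).choose_spec

@[irreducible] noncomputable def pX (x : XI) : ℕ :=
  Nat.nth Nat.Prime (bound K + (Fintype.equivFin XI x : ℕ))

@[irreducible] noncomputable def pO (o : Opt K) : ℕ :=
  Nat.nth Nat.Prime (bound K + Fintype.card XI + (Fintype.equivFin (Opt K) o : ℕ))

lemma pX_prime (x : XI) : (pX K x).Prime := by
  unfold pX; exact Nat.nth_mem_of_infinite Nat.infinite_setOf_prime _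

lemma pO_prime (o : Opt K) : (pO K o).Prime := by
  unfold pO; exact Nat.nth_mem_of_infinite Nat.infinite_setOf_prime _

instance (x : XI) : NeZero (pX K x) := ⟨(pX_prime K x).ne_zero⟩
instance (o : Opt K) : NeZero (pO K o) := ⟨(pO_prime K o).ne_zero⟩

/-- The product of the large primes. -/
noncomputable def big : ℕ := (∏ x, pX K x) * ∏ o, pO K o

/-- The period of all marking colours, and the step between two columns. -/
def S : ℕ := (⟨_, rfl⟩ : ∃ m : ℕ, m = M K * big K).choose

lemma S_eq : S K = M K * big K :=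
  (⟨_, rfl⟩ : ∃ m : ℕ, m = M K * big K).choose_spec

/-- An integer `≡ 1` mod `m` and `≡ 0` mod `S / m`. -/
noncomputable def idem (m : ℕ) : ℤ :=
  if h : Nat.Coprime m (S K / m) then ((Nat.chineseRemainder h 1 0 : ℕ) : ℤ) else 0

/-- Marking colours: options and readout or label colours. -/
abbrev Mu := (∀ o, ZMod (pO K o)) × (∀ x, ZMod (pX K x))

/-- Data colours. -/
abbrev Dat := ZMod 16 × ZMod K.E × (∀ n, ZMod (K.L n))

abbrev Col := Tag K × Mu K × Dat K

abbrev G := Z2 × Col K

/-- The colours of the lists: marking colours and position. -/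
abbrev C := Mu K × Tag K

/-! ### Vectors -/

/-- The option axes. -/
noncomputable def axO (o : Opt K) : D K := ((idem K (pO K o), 0), 0)
noncomputable def eX (x : XI) : D K := ((idem K (pX K x), 0), 0)
noncomputable def perI : D K := ((((S K : ℕ) : ℤ), 0), 0)
noncomputable def perJ : D K := ((0, ((S K : ℕ) : ℤ)), 0)
def site (z : Z2) : D K := (z, 0)

/-- The lifts of the five class directions. -/
noncomputable def dir : Fin 5 → D K :=
  ![((idem K (M K), 0), 0), ((0, idem K (M K)), 0), ((idem K (M K), idem K (M K)), 0),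
    (0, gS K), ((idem K (M K), 0), gS K)]

noncomputable def mn (n : Att) : ℕ := K.E * K.L n

/-- The three label directions of an attribute, and their key shifts. -/
noncomputable def labV (n : Att) : Fin 3 → Z2 :=
  ![(idem K (mn K n), idem K (mn K n)), (0, idem K (mn K n)), (4 * idem K 16, 0)]

/-- The two macro steps. -/
noncomputable def step1 : Z2 := (((S K / 2 : ℕ) : ℤ), 0)
noncomputable def step2 : Z2 := (0, ((Q K * S K : ℕ) : ℤ))

noncomputable def macroV (x : Z2) : Z2 := x.1 • step1 K + x.2 • step2 K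

/-- The Sudoku directions of the readouts. -/
def rdDir : Att → Finset Z2
  | .inl n => {(-(n.val : ℤ), 1)}
  | .inr (.inl w) => {kdir w}
  | .inr (.inr _) => {(1, 0), (0, 1)}

/-! ### Functions of a state -/

def h16 (s : St K) : ℕ := s.1.val % 16
def slice (s : St K) : ℕ := s.1.val % 8
def cPart (s : St K) : ℕ := s.1.val % K.q0
def etaP (s : St K) : ℕ := s.1.val % K.E
def uPart (s : St K) (n : Att) : ℕ := s.1.val % K.L n

/-- The selection rows. -/
def Omega (s : St K) : Prop :=
  (∀ n, uPart K s n < K.q0) ∧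
    etaP K s = if (∑ n, uPart K s n) % K.q0 = 0 then 1 else 0

/-- The spike rows of the third seed slice. -/
def uSpike (s : St K) : Prop :=
  seedF (L := K.L) (s.1.val : ZMod K.E) (fun n => (s.1.val : ZMod (K.L n))) = true

open Classical in
/-- Whether the rows of state `s` are spikes in the small tag `i`. -/
noncomputable def spikeT (s : St K) : Fin 6 → Prop :=
  ![slice K s < 3, ¬ slice K s < 3,
    (slice K s = 1 ∧ etaP K s < 7) ∨ (slice K s = 2 ∧ uSpike K s),
    slice K s = 1 ∧ ¬ etaP K s < 7,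
    slice K s = 3 ∧ cPart K s < 13,
    slice K s = 3 ∧ ¬ cPart K s < 13]

def spikeS (s : St K) : Prop := slice K s = 0 ∧ Omega K s

open Classical in
noncomputable def slopeT (s : St K) (i : Fin 6) : ZMod (tm i) := if spikeT K s i then 0 else 1

open Classical in
noncomputable def slopeS (s : St K) : ZMod K.q0 := if spikeS K s then 0 else 1

/-- Label classes forget the tag. -/
abbrev LCls (n : Att) (j : Fin 3) :=
  (ZMod (M K) × ZMod (M K)) ⧸ AddSubgroup.zmultiples
    ((((labV K n j).1 : ZMod (M K)), ((labV K n j).2 : ZMod (M K))) : ZMod (M K) × ZMod (M K))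

noncomputable instance (n : Att) (j : Fin 3) : Fintype (LCls K n j) := Fintype.ofFinite _

def labOn (s : St K) (j : Fin 3) : Prop :=
  if j = 2 then (slice K s = 0 ∨ slice K s = 4) ∧ ¬ Omega K s else slice K s = 4

/-- The value read from a tag by an attribute at a spike row. -/
def rdVal (s : St K) : Att → ℕ
  | .inl n => ((K.table s.2.2).1.2.2 n).val + 1
  | .inr (.inl w) => (kval (K.table s.2.2) w).val + 1
  | .inr (.inr i) =>
      if s.2.2 = K.d i then 3
      else (par0 (K.table s.2.2) + if h16 K s < 8 then 0 else 1).val + 1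

open Classical in
noncomputable def psi (s : St K) : XI → ℕ
  | .inl n => if spikeS K s then rdVal K s n else 0
  | .inr (n, j) =>
      if labOn K s j then
        (Fintype.equivFin (LCls K n j) (QuotientAddGroup.mk (s.1, s.2.1)) : ℕ) + 1 else 0

/-! ### Colour projections -/

noncomputable def prO (o : Opt K) : C K →+ ZMod (pO K o) :=
  (Pi.evalAddMonoidHom (fun o => ZMod (pO K o)) o).comp
    ((AddMonoidHom.fst _ _).comp (AddMonoidHom.fst _ _))
noncomputable def inO (o : Opt K) : ZMod (pO K o) →+ C K :=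
  (AddMonoidHom.inl _ _).comp
    ((AddMonoidHom.inl _ _).comp (AddMonoidHom.single (fun o => ZMod (pO K o)) o))
noncomputable def prX (x : XI) : C K →+ ZMod (pX K x) :=
  (Pi.evalAddMonoidHom (fun x => ZMod (pX K x)) x).comp
    ((AddMonoidHom.snd _ _).comp (AddMonoidHom.fst _ _))
noncomputable def inX (x : XI) : ZMod (pX K x) →+ C K :=
  (AddMonoidHom.inl _ _).comp
    ((AddMonoidHom.inr _ _).comp (AddMonoidHom.single (fun x => ZMod (pX K x)) x))
noncomputable def prS : C K →+ ZMod K.q0 := (AddMonoidHom.fst _ _).comp (AddMonoidHom.snd _ _)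
noncomputable def inS : ZMod K.q0 →+ C K :=
  (AddMonoidHom.inr _ _).comp (AddMonoidHom.inl _ _)
noncomputable def prT (i : Fin 6) : C K →+ ZMod (tm i) :=
  (Pi.evalAddMonoidHom (fun i => ZMod (tm i)) i).comp
    ((AddMonoidHom.snd _ _).comp (AddMonoidHom.snd _ _))
noncomputable def inT (i : Fin 6) : ZMod (tm i) →+ C K :=
  (AddMonoidHom.inr _ _).comp
    ((AddMonoidHom.inr _ _).comp (AddMonoidHom.single (fun i => ZMod (tm i)) i))

/-! ### Windows -/

/-- The column multiples with vanishing fixed components. -/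
noncomputable def cols (fixS : Bool) (F : Finset (Fin 6)) : Finset Z2 :=
  ((range (Q K)).filter fun k : ℕ =>
      (fixS = true → (k : ZMod K.q0) = 0) ∧ ∀ i ∈ F, (k : ZMod (tm i)) = 0).image
    fun k : ℕ => ((0, (k : ℤ) * (S K : ℤ)) : Z2)

noncomputable def rows (m : ℕ) : Finset Z2 :=
  (range m).image fun t : ℕ => (((t : ℤ) * idem K m, 0) : Z2)

noncomputable def window (m : ℕ) (fixS : Bool) (F : Finset (Fin 6)) : Finset Z2 :=
  (rows K m ×ˢ cols K fixS F).image fun p => p.1 + p.2

abbrev KeyT (F : Finset (Fin 6)) := ∀ i : {i // i ∉ F}, ZMod (tm i.1)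

def keyT (F : Finset (Fin 6)) : Tag K →+ KeyT F where
  toFun g i := g.2 i.1
  map_zero' := rfl
  map_add' _ _ := rfl

def FH : Finset (Fin 6) := {0, 1}
def FC : Finset (Fin 6) := {4, 5}
def FN : Finset (Fin 6) := {2, 3}

def keyH : Col K →+ ZMod 16 × ZMod K.q0 × KeyT FH where
  toFun c := (c.2.2.1, c.1.1, keyT K FH c.1)
  map_zero' := by ext <;> simp
  map_add' a b := by ext <;> simp

def keyC : Col K →+ ZMod K.q0 × KeyT FC where
  toFun c := (c.1.1, keyT K FC c.1)
  map_zero' := by ext <;> simp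
  map_add' a b := by ext <;> simp

def keyN (n : Att) : Col K →+ (ZMod K.E × ZMod (K.L n)) × KeyT FN where
  toFun c := ((c.2.2.2.1, c.2.2.2.2 n), keyT K FN c.1)
  map_zero' := by ext <;> simp
  map_add' a b := by ext <;> simp

def keyTag : Col K →+ Tag K := AddMonoidHom.fst _ _

def colX (x : XI) : Col K →+ ZMod (pX K x) :=
  (Pi.evalAddMonoidHom (fun x => ZMod (pX K x)) x).comp
    ((AddMonoidHom.snd _ _).comp ((AddMonoidHom.fst _ _).comp (AddMonoidHom.snd _ _)))

variable {K}

variable (K)

lemma q0_coprime (i : Fin 6) : Nat.Coprime K.q0 (tm i) :=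
  (Nat.coprime_primes K.q0_prime (by fin_cases i <;> norm_num [tm])).mpr
    (by have := K.q0_big; fin_cases i <;> simp [tm] <;> omega)

lemma tm_coprime {i j : Fin 6} (h : i ≠ j) : Nat.Coprime (tm i) (tm j) := by
  revert h; revert i j; decide

instance : NeZero (Q K) := ⟨by
  rw [Q_eq]
  exact mul_ne_zero K.q0_prime.ne_zero (by decide)⟩

/-- Reduction of an integer to a tag. -/
def tagHom : ZMod (Q K) →+ Tag K :=
  (AddMonoidHom.prod
    (ZMod.castHom (show K.q0 ∣ Q K by rw [Q_eq]; exact dvd_mul_right _ _) (ZMod K.q0)).toAddMonoidHom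
    (Pi.addMonoidHom fun i => (ZMod.castHom
      (show tm i ∣ Q K by rw [Q_eq]; exact (dvd_prod_of_mem tm (mem_univ i)).mul_left _)
      (ZMod (tm i))).toAddMonoidHom))

lemma tagHom_natCast (k : ℕ) :
    tagHom K (k : ZMod (Q K)) = ((k : ZMod K.q0), fun i => (k : ZMod (tm i))) := by
  refine Prod.ext ?_ (funext fun i => ?_)
  · simp [tagHom]
  · exact map_natCast (ZMod.castHom (show tm i ∣ Q K by rw [Q_eq]; exact (dvd_prod_of_mem tm (mem_univ i)).mul_left _) (ZMod (tm i))) k

lemma tagHom_bijective : Bijective (tagHom K) := by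
  refine (Fintype.bijective_iff_injective_and_card _).mpr ⟨?_, ?_⟩
  · rw [injective_iff_map_eq_zero]
    intro k hk
    obtain ⟨n, rfl⟩ := ZMod.natCast_zmod_surjective (n := Q K) k
    rw [tagHom_natCast, Prod.ext_iff] at hk
    rw [ZMod.natCast_eq_zero_iff, Q_eq]
    refine Nat.Coprime.mul_dvd_of_dvd_of_dvd (Nat.Coprime.prod_right fun i _ => q0_coprime K i)
      ((ZMod.natCast_eq_zero_iff _ _).mp hk.1) ?_
    exact Fintype.prod_dvd_of_isRelPrime (fun i j h => Nat.coprime_iff_isRelPrime.mp (tm_coprime h))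
      fun i => (ZMod.natCast_eq_zero_iff _ _).mp (congrFun hk.2 i)
  · simp [Q_eq, Fintype.card_pi]

def tagEquiv : ZMod (Q K) ≃+ Tag K := AddEquiv.ofBijective (tagHom K) (tagHom_bijective K)

/-- The marking colour of a colour. -/
def colMu : Col K →+ Mu K := (AddMonoidHom.fst _ _).comp (AddMonoidHom.snd _ _)

/-- The step between two columns. -/
def colStep (K : Par) : Z2 := (0, (S K : ℤ))

/-- A list on marking colours and tags, read on marking colours and residues modulo `Q`. -/
def toRes (L : Eqn (D K) (C K)) : Eqn (D K) (Mu K × ZMod (Q K)) :=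
  ⟨fun j => L.δ (j.1, tagEquiv K j.2),
    fun j => ((L.e (j.1, tagEquiv K j.2)).1, (tagEquiv K).symm (L.e (j.1, tagEquiv K j.2)).2)⟩

/-- The tile of a list on marking colours and positions. -/
def eqnTile (L : Eqn (D K) (C K)) : Finset (G K) :=
  listTile (colStep K) (keyTag K) (colMu K) (toRes K L)

end

end Vale.Agent.P043.Z3
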