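/-
P043: primes in prescribed residue classes for the parameters of the system on `ℤ² × cyclic`.
-/
import Mathlib

namespace Vale.Agent.P043.Z3

open Function

theorem infinite_prime_mod {r q : ℕ} (hq : q ≠ 0) (h : r.Coprime q) (n : ℕ) :
    {p : ℕ | n < p ∧ p.Prime ∧ p % q = r % q}.Infinite := by
  refine Set.infinite_of_forall_exists_gt fun m => ?_
  have : NeZero q := ⟨hq⟩
  obtain ⟨p, hp, hpp, he⟩ := Nat.forall_exists_prime_gt_and_eq_mod (a := (r : ZMod q))
    ((ZMod.isUnit_iff_coprime r q).mpr h) (max n m)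
  exact ⟨p, ⟨lt_of_le_of_lt (le_max_left _ _) hp, hpp,
    (ZMod.natCast_eq_natCast_iff' p r q).mp he⟩, lt_of_le_of_lt (le_max_right _ _) hp⟩

/-- A large prime in a given class. -/
theorem exists_prime_mod {r q : ℕ} (hr : r < q) (h : r.Coprime q) (n : ℕ) :
    ∃ p, n < p ∧ p.Prime ∧ p % q = r := by
  obtain ⟨p, hp⟩ := (infinite_prime_mod (Nat.ne_zero_of_lt hr) h n).nonempty
  exact ⟨p, hp.1, hp.2.1, hp.2.2.trans (Nat.mod_eq_of_lt hr)⟩

/-- Distinct large primes in a given class. -/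
theorem exists_primes_mod (ι : Type*) [Finite ι] {r q : ℕ} (hr : r < q) (h : r.Coprime q)
    (n : ℕ) : ∃ P : ι → ℕ, Injective P ∧ ∀ i, n < P i ∧ (P i).Prime ∧ P i % q = r := by
  obtain ⟨k, ⟨e⟩⟩ := Finite.exists_equiv_fin ι
  have hi := infinite_prime_mod (Nat.ne_zero_of_lt hr) h n
  refine ⟨fun i => (hi.natEmbedding _ (e i).val : ℕ), fun a b hab => ?_, fun i => ?_⟩
  · exact e.injective (Fin.ext ((hi.natEmbedding _).injective (Subtype.ext hab)))
  · obtain ⟨h1, h2, h3⟩ := (hi.natEmbedding _ (e i).val).property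
    exact ⟨h1, h2, h3.trans (Nat.mod_eq_of_lt hr)⟩

/-- Distinct large primes. -/
theorem exists_primes (ι : Type*) [Finite ι] (n : ℕ) :
    ∃ P : ι → ℕ, Injective P ∧ ∀ i, n < P i ∧ (P i).Prime := by
  obtain ⟨P, hi, hP⟩ := exists_primes_mod ι (r := 1) (q := 2) (by norm_num) (by norm_num) n
  exact ⟨P, hi, fun i => ⟨(hP i).1, (hP i).2.1⟩⟩

end Vale.Agent.P043.Z3
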