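/-
P043, dimension three: number facts about the moduli, and the existence of parameters.
-/
import Vale.Agent.P043.Z3.Defs
import Vale.Agent.P043.Z3.Params

namespace Vale.Agent.P043.Z3

open Function Finset

noncomputable section

lemma coprime_of_lt_prime {n p : ℕ} (hp : p.Prime) (h0 : 0 < n) (h : n < p) : Nat.Coprime n p :=
  (hp.coprime_iff_not_dvd.mpr (Nat.not_dvd_of_pos_of_lt h0 h)).symm

lemma coprime_sixteen {p : ℕ} (hp : p.Prime) (h : 2 < p) : Nat.Coprime 16 p := by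
  have h2 : Nat.Coprime 2 p := (Nat.coprime_primes Nat.prime_two hp).mpr h.ne
  simpa using h2.pow_left 4

/-- A residue `1` passes to every divisor of the modulus. -/
lemma cast_one_of_dvd {a : ℤ} {m d : ℕ} (hd : d ∣ m) (h : (a : ZMod m) = 1) :
    (a : ZMod d) = 1 := by
  have := congrArg (ZMod.castHom hd (ZMod d)) h
  rwa [map_intCast, map_one] at this

/-- A divisor gives residue `0`. -/
lemma cast_zero_of_dvd {a : ℤ} {d : ℕ} (h : (d : ℤ) ∣ a) : (a : ZMod d) = 0 :=
  (ZMod.intCast_zmod_eq_zero_iff_dvd a d).mpr h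

/-- One factor of a product of pairwise coprime numbers is coprime to the rest. -/
lemma exists_cofactor {ι : Type*} [Fintype ι] (f : ι → ℕ) (x : ι)
    (h : ∀ t, t ≠ x → Nat.Coprime (f x) (f t)) :
    ∃ r, ∏ t, f t = f x * r ∧ Nat.Coprime (f x) r := by
  classical
  exact ⟨_, (mul_prod_erase univ f (mem_univ x)).symm,
    Nat.Coprime.prod_right fun t ht => h t (mem_erase.mp ht).1⟩

variable (K : Par)

/-! ### The parameters -/

lemma two_lt_q0 : 2 < K.q0 := by have := K.q0_big; omega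
lemma two_lt_E : 2 < K.E := by have := K.q0_big; have := K.q0_E; omega
lemma two_lt_L (n : Att) : 2 < K.L n := by have := K.q0_big; have := K.L_big n; omega

lemma coprime_16_q0 : Nat.Coprime 16 K.q0 := coprime_sixteen K.q0_prime (two_lt_q0 K)
lemma coprime_16_E : Nat.Coprime 16 K.E := coprime_sixteen K.E_prime (two_lt_E K)
lemma coprime_16_L (n : Att) : Nat.Coprime 16 (K.L n) :=
  coprime_sixteen (K.L_prime n) (two_lt_L K n)
lemma coprime_q0_E : Nat.Coprime K.q0 K.E :=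
  (Nat.coprime_primes K.q0_prime K.E_prime).mpr K.q0_E.ne
lemma coprime_q0_L (n : Att) : Nat.Coprime K.q0 (K.L n) :=
  (Nat.coprime_primes K.q0_prime (K.L_prime n)).mpr (K.L_big n).ne
lemma coprime_E_L (n : Att) : Nat.Coprime K.E (K.L n) :=
  (Nat.coprime_primes K.E_prime (K.L_prime n)).mpr (K.E_L n)
lemma coprime_L_L {n n' : Att} (h : n ≠ n') : Nat.Coprime (K.L n) (K.L n') :=
  (Nat.coprime_primes (K.L_prime n) (K.L_prime n')).mpr fun e => h (K.L_inj e)

lemma coprime_mn_16 (n : Att) : Nat.Coprime 16 (mn K n) :=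
  Nat.Coprime.mul_right (coprime_16_E K) (coprime_16_L K n)
lemma coprime_mn_q0 (n : Att) : Nat.Coprime K.q0 (mn K n) :=
  Nat.Coprime.mul_right (coprime_q0_E K) (coprime_q0_L K n)

lemma sixteen_dvd_M : 16 ∣ M K := by
  rw [M_eq, mul_assoc, mul_assoc]; exact dvd_mul_right _ _
lemma two_dvd_M : 2 ∣ M K := (show 2 ∣ 16 by norm_num).trans (sixteen_dvd_M K)
lemma q0_dvd_M : K.q0 ∣ M K := by
  rw [M_eq]; exact ((dvd_mul_left _ _).mul_right _).mul_right _
lemma E_dvd_M : K.E ∣ M K := by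
  rw [M_eq]; exact (dvd_mul_left _ _).mul_right _
lemma L_dvd_M (n : Att) : K.L n ∣ M K := by
  rw [M_eq]; exact (dvd_prod_of_mem K.L (mem_univ n)).mul_left _
lemma mn_dvd_M (n : Att) : mn K n ∣ M K := by
  rw [M_eq, mn]; exact mul_dvd_mul (dvd_mul_left _ _) (dvd_prod_of_mem K.L (mem_univ n))
lemma tm_dvd_Q (i : Fin 6) : tm i ∣ Q K := by
  rw [Q_eq]; exact (dvd_prod_of_mem tm (mem_univ i)).mul_left _
lemma q0_dvd_Q : K.q0 ∣ Q K := by rw [Q_eq]; exact dvd_mul_right _ _

lemma M_pos : 0 < M K := Nat.pos_of_ne_zero (NeZero.ne _)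
lemma Q_pos : 0 < Q K := Nat.pos_of_ne_zero (NeZero.ne _)
lemma mn_pos (n : Att) : 0 < mn K n := Nat.mul_pos K.E_prime.pos (K.L_prime n).pos

/-! ### The large primes -/

lemma bound_lt_pX (x : XI) : bound K < pX K x := by
  rw [pX]
  have := Nat.add_two_le_nth_prime (bound K + (Fintype.equivFin XI x : ℕ))
  omega

lemma bound_lt_pO (o : Opt K) : bound K < pO K o := by
  rw [pO]
  have := Nat.add_two_le_nth_prime
    (bound K + Fintype.card XI + (Fintype.equivFin (Opt K) o : ℕ))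
  omega

lemma M_lt_bound : M K < bound K := by
  rw [bound_eq]
  exact lt_of_lt_of_le (by omega) (Nat.le_self_pow two_ne_zero _)

lemma Q_lt_bound : Q K < bound K := by
  rw [bound_eq]
  exact lt_of_lt_of_le (by omega) (Nat.le_self_pow two_ne_zero _)

lemma hundred_lt_bound : 100 < bound K := by
  rw [bound_eq]
  exact lt_of_lt_of_le (by have := M_pos K; omega) (Nat.le_self_pow two_ne_zero _)

lemma M_lt_pX (x : XI) : M K < pX K x := (M_lt_bound K).trans (bound_lt_pX K x)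
lemma M_lt_pO (o : Opt K) : M K < pO K o := (M_lt_bound K).trans (bound_lt_pO K o)

/-- The number of pairs of cells is below every label prime. -/
lemma cells_sq_lt_pX (x : XI) : (M K * M K * Q K) ^ 2 < pX K x := by
  refine lt_of_le_of_lt ?_ (bound_lt_pX K x)
  rw [bound_eq]
  refine Nat.pow_le_pow_left ?_ 2
  have := Nat.le_mul_of_pos_right (M K * M K * Q K) (Q_pos K)
  omega

lemma three_le_pO (o : Opt K) : 3 ≤ pO K o := by
  have := hundred_lt_bound K; have := bound_lt_pO K o; omega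
lemma three_le_pX (x : XI) : 3 ≤ pX K x := by
  have := hundred_lt_bound K; have := bound_lt_pX K x; omega

lemma pX_injective : Injective (pX K) := by
  intro x y h
  rw [pX, pX] at h
  have := Nat.nth_injective Nat.infinite_setOfPred_prime h
  exact (Fintype.equivFin XI).injective (Fin.ext (by omega))

lemma pO_injective : Injective (pO K) := by
  intro x y h
  rw [pO, pO] at h
  have := Nat.nth_injective Nat.infinite_setOfPred_prime h
  exact (Fintype.equivFin (Opt K)).injective (Fin.ext (by omega))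

lemma pX_ne_pO (x : XI) (o : Opt K) : pX K x ≠ pO K o := by
  intro h
  rw [pX, pO] at h
  have := Nat.nth_injective Nat.infinite_setOfPred_prime h
  have := (Fintype.equivFin XI x).isLt
  omega

lemma coprime_pX_pX {x y : XI} (h : x ≠ y) : Nat.Coprime (pX K x) (pX K y) :=
  (Nat.coprime_primes (pX_prime K x) (pX_prime K y)).mpr fun e => h (pX_injective K e)
lemma coprime_pO_pO {o t : Opt K} (h : o ≠ t) : Nat.Coprime (pO K o) (pO K t) :=
  (Nat.coprime_primes (pO_prime K o) (pO_prime K t)).mpr fun e => h (pO_injective K e)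
lemma coprime_pX_pO (x : XI) (o : Opt K) : Nat.Coprime (pX K x) (pO K o) :=
  (Nat.coprime_primes (pX_prime K x) (pO_prime K o)).mpr (pX_ne_pO K x o)

lemma coprime_M_pX (x : XI) : Nat.Coprime (M K) (pX K x) :=
  coprime_of_lt_prime (pX_prime K x) (M_pos K) (M_lt_pX K x)
lemma coprime_M_pO (o : Opt K) : Nat.Coprime (M K) (pO K o) :=
  coprime_of_lt_prime (pO_prime K o) (M_pos K) (M_lt_pO K o)
lemma coprime_Q_pX (x : XI) : Nat.Coprime (Q K) (pX K x) :=
  coprime_of_lt_prime (pX_prime K x) (Q_pos K) ((Q_lt_bound K).trans (bound_lt_pX K x))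
lemma coprime_Q_pO (o : Opt K) : Nat.Coprime (Q K) (pO K o) :=
  coprime_of_lt_prime (pO_prime K o) (Q_pos K) ((Q_lt_bound K).trans (bound_lt_pO K o))

/-- Coprime to every large prime means coprime to their product. -/
lemma coprime_big {a : ℕ} (hX : ∀ x, Nat.Coprime a (pX K x)) (hO : ∀ o, Nat.Coprime a (pO K o)) :
    Nat.Coprime a (big K) :=
  Nat.Coprime.mul_right (Nat.Coprime.prod_right fun x _ => hX x)
    (Nat.Coprime.prod_right fun o _ => hO o)

lemma coprime_M_big : Nat.Coprime (M K) (big K) :=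
  coprime_big K (coprime_M_pX K) (coprime_M_pO K)
lemma coprime_Q_big : Nat.Coprime (Q K) (big K) :=
  coprime_big K (coprime_Q_pX K) (coprime_Q_pO K)

lemma coprime_big_of_dvd_M {a : ℕ} (h : a ∣ M K) : Nat.Coprime a (big K) :=
  (coprime_M_big K).coprime_dvd_left h

lemma big_pos : 0 < big K :=
  Nat.mul_pos (prod_pos fun x _ => (pX_prime K x).pos) (prod_pos fun o _ => (pO_prime K o).pos)
lemma S_pos : 0 < S K := by rw [S_eq]; exact Nat.mul_pos (M_pos K) (big_pos K)

lemma pX_dvd_big (x : XI) : pX K x ∣ big K :=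
  (dvd_prod_of_mem (pX K) (mem_univ x)).mul_right _
lemma pO_dvd_big (o : Opt K) : pO K o ∣ big K :=
  (dvd_prod_of_mem (pO K) (mem_univ o)).mul_left _
lemma M_dvd_S : M K ∣ S K := by rw [S_eq]; exact dvd_mul_right _ _
lemma big_dvd_S : big K ∣ S K := by rw [S_eq]; exact dvd_mul_left _ _
lemma pX_dvd_S (x : XI) : pX K x ∣ S K := (pX_dvd_big K x).trans (big_dvd_S K)
lemma pO_dvd_S (o : Opt K) : pO K o ∣ S K := (pO_dvd_big K o).trans (big_dvd_S K)
lemma S_dvd_of {a : ℤ} (h1 : (M K : ℤ) ∣ a) (h2 : (big K : ℤ) ∣ a) : (S K : ℤ) ∣ a := by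
  rw [S_eq, Nat.cast_mul]
  exact (Nat.isCoprime_iff_coprime.mpr (coprime_M_big K)).mul_dvd h1 h2

/-! ### The idempotents -/

lemma split_spec {m r : ℕ} (h : S K = m * r) (hc : Nat.Coprime m r) :
    m ∣ S K ∧ Nat.Coprime m (S K / m) := by
  refine ⟨⟨r, h⟩, ?_⟩
  have hm : 0 < m := by
    rcases Nat.eq_zero_or_pos m with rfl | hm
    · exact absurd (S_pos K) (by simp [h])
    · exact hm
  rwa [h, Nat.mul_div_cancel_left r hm]

lemma idem_one {m : ℕ} (h : m ∣ S K ∧ Nat.Coprime m (S K / m)) : (idem K m : ZMod m) = 1 := by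
  rw [idem, dif_pos h.2, Int.cast_natCast]
  have := (Nat.chineseRemainder h.2 1 0).2.1
  simpa using (ZMod.natCast_eq_natCast_iff _ _ _).mpr this

lemma idem_div {m : ℕ} (h : m ∣ S K ∧ Nat.Coprime m (S K / m)) :
    ((S K / m : ℕ) : ℤ) ∣ idem K m := by
  rw [idem, dif_pos h.2]
  exact Int.natCast_dvd_natCast.mpr (Nat.modEq_zero_iff_dvd.mp (Nat.chineseRemainder h.2 1 0).2.2)

lemma idem_dvd {m d : ℕ} (h : m ∣ S K ∧ Nat.Coprime m (S K / m)) (hd : d ∣ S K)
    (hc : Nat.Coprime d m) : (d : ℤ) ∣ idem K m := by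
  refine (Int.natCast_dvd_natCast.mpr ?_).trans (idem_div K h)
  exact hc.dvd_of_dvd_mul_left (by rwa [Nat.mul_div_cancel' h.1])

lemma S_dvd_mul_idem {m : ℕ} (h : m ∣ S K ∧ Nat.Coprime m (S K / m)) :
    (S K : ℤ) ∣ (m : ℤ) * idem K m := by
  have e := Nat.mul_div_cancel' h.1
  have := mul_dvd_mul_left (m : ℤ) (idem_div K h)
  rwa [← Nat.cast_mul, e] at this

lemma M_spec : M K ∣ S K ∧ Nat.Coprime (M K) (S K / M K) :=
  split_spec K (S_eq K) (coprime_M_big K)

lemma sixteen_spec : 16 ∣ S K ∧ Nat.Coprime 16 (S K / 16) := by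
  refine split_spec K (r := K.q0 * K.E * (∏ n, K.L n) * big K) (by rw [S_eq, M_eq]; ring) ?_
  exact ((Nat.Coprime.mul_right (coprime_16_q0 K) (coprime_16_E K)).mul_right
    (Nat.Coprime.prod_right fun n _ => coprime_16_L K n)).mul_right
      (coprime_big_of_dvd_M K (sixteen_dvd_M K))

lemma q0_spec : K.q0 ∣ S K ∧ Nat.Coprime K.q0 (S K / K.q0) := by
  refine split_spec K (r := 16 * K.E * (∏ n, K.L n) * big K) (by rw [S_eq, M_eq]; ring) ?_
  exact ((Nat.Coprime.mul_right (coprime_16_q0 K).symm (coprime_q0_E K)).mul_right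
    (Nat.Coprime.prod_right fun n _ => coprime_q0_L K n)).mul_right
      (coprime_big_of_dvd_M K (q0_dvd_M K))

lemma mn_spec (n : Att) : mn K n ∣ S K ∧ Nat.Coprime (mn K n) (S K / mn K n) := by
  obtain ⟨r, hr, hc⟩ := exists_cofactor K.L n fun t ht => coprime_L_L K ht.symm
  have hEr : Nat.Coprime K.E r := (Nat.Coprime.prod_right fun t _ => coprime_E_L K t :
    Nat.Coprime K.E (∏ t, K.L t)).coprime_dvd_right ⟨K.L n, by rw [hr, mul_comm]⟩
  refine split_spec K (r := 16 * K.q0 * r * big K) ?_ ?_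
  · rw [S_eq, M_eq, hr, mn]; ring
  · exact ((Nat.Coprime.mul_right (coprime_mn_16 K n).symm (coprime_mn_q0 K n).symm).mul_right
      (Nat.Coprime.mul_left hEr hc)).mul_right (coprime_big_of_dvd_M K (mn_dvd_M K n))

lemma pX_spec (x : XI) : pX K x ∣ S K ∧ Nat.Coprime (pX K x) (S K / pX K x) := by
  obtain ⟨r, hr, hc⟩ := exists_cofactor (pX K) x fun t ht => coprime_pX_pX K ht.symm
  refine split_spec K (r := M K * (r * ∏ o, pO K o)) ?_ ?_
  · rw [S_eq, big, hr]; ring
  · exact (coprime_M_pX K x).symm.mul_right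
      (hc.mul_right (Nat.Coprime.prod_right fun o _ => coprime_pX_pO K x o))

lemma pO_spec (o : Opt K) : pO K o ∣ S K ∧ Nat.Coprime (pO K o) (S K / pO K o) := by
  obtain ⟨r, hr, hc⟩ := exists_cofactor (pO K) o fun t ht => coprime_pO_pO K ht.symm
  refine split_spec K (r := M K * ((∏ x, pX K x) * r)) ?_ ?_
  · rw [S_eq, big, hr]; ring
  · exact (coprime_M_pO K o).symm.mul_right
      ((Nat.Coprime.prod_right fun x _ => (coprime_pX_pO K x o).symm).mul_right hc)

/-! #### `idem M` -/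

lemma idem_M : (idem K (M K) : ZMod (M K)) = 1 := idem_one K (M_spec K)
lemma idem_M_of_dvd {d : ℕ} (h : d ∣ M K) : (idem K (M K) : ZMod d) = 1 :=
  cast_one_of_dvd h (idem_M K)
lemma big_dvd_idem_M : (big K : ℤ) ∣ idem K (M K) :=
  idem_dvd K (M_spec K) (big_dvd_S K) (coprime_M_big K).symm
lemma pX_dvd_idem_M (x : XI) : (pX K x : ℤ) ∣ idem K (M K) :=
  idem_dvd K (M_spec K) (pX_dvd_S K x) (coprime_M_pX K x).symm
lemma pO_dvd_idem_M (o : Opt K) : (pO K o : ℤ) ∣ idem K (M K) :=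
  idem_dvd K (M_spec K) (pO_dvd_S K o) (coprime_M_pO K o).symm

/-! #### `idem 16` -/

lemma idem_16 : (idem K 16 : ZMod 16) = 1 := idem_one K (sixteen_spec K)
lemma q0_dvd_idem_16 : (K.q0 : ℤ) ∣ idem K 16 :=
  idem_dvd K (sixteen_spec K) ((q0_dvd_M K).trans (M_dvd_S K)) (coprime_16_q0 K).symm
lemma E_dvd_idem_16 : (K.E : ℤ) ∣ idem K 16 :=
  idem_dvd K (sixteen_spec K) ((E_dvd_M K).trans (M_dvd_S K)) (coprime_16_E K).symm
lemma L_dvd_idem_16 (n : Att) : (K.L n : ℤ) ∣ idem K 16 :=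
  idem_dvd K (sixteen_spec K) ((L_dvd_M K n).trans (M_dvd_S K)) (coprime_16_L K n).symm
lemma big_dvd_idem_16 : (big K : ℤ) ∣ idem K 16 :=
  idem_dvd K (sixteen_spec K) (big_dvd_S K) (coprime_big_of_dvd_M K (sixteen_dvd_M K)).symm

/-! #### `idem q0` -/

lemma idem_q0 : (idem K K.q0 : ZMod K.q0) = 1 := idem_one K (q0_spec K)
lemma sixteen_dvd_idem_q0 : (16 : ℤ) ∣ idem K K.q0 := by
  exact_mod_cast idem_dvd K (q0_spec K) ((sixteen_dvd_M K).trans (M_dvd_S K)) (coprime_16_q0 K)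
lemma E_dvd_idem_q0 : (K.E : ℤ) ∣ idem K K.q0 :=
  idem_dvd K (q0_spec K) ((E_dvd_M K).trans (M_dvd_S K)) (coprime_q0_E K).symm
lemma L_dvd_idem_q0 (n : Att) : (K.L n : ℤ) ∣ idem K K.q0 :=
  idem_dvd K (q0_spec K) ((L_dvd_M K n).trans (M_dvd_S K)) (coprime_q0_L K n).symm
lemma big_dvd_idem_q0 : (big K : ℤ) ∣ idem K K.q0 :=
  idem_dvd K (q0_spec K) (big_dvd_S K) (coprime_big_of_dvd_M K (q0_dvd_M K)).symm

/-! #### `idem (mn n)` -/

lemma idem_mn (n : Att) : (idem K (mn K n) : ZMod (mn K n)) = 1 := idem_one K (mn_spec K n)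
lemma idem_mn_E (n : Att) : (idem K (mn K n) : ZMod K.E) = 1 :=
  cast_one_of_dvd (dvd_mul_right _ _) (idem_mn K n)
lemma idem_mn_L (n : Att) : (idem K (mn K n) : ZMod (K.L n)) = 1 :=
  cast_one_of_dvd (dvd_mul_left _ _) (idem_mn K n)
lemma sixteen_dvd_idem_mn (n : Att) : (16 : ℤ) ∣ idem K (mn K n) := by
  exact_mod_cast idem_dvd K (mn_spec K n) ((sixteen_dvd_M K).trans (M_dvd_S K)) (coprime_mn_16 K n)
lemma q0_dvd_idem_mn (n : Att) : (K.q0 : ℤ) ∣ idem K (mn K n) :=
  idem_dvd K (mn_spec K n) ((q0_dvd_M K).trans (M_dvd_S K)) (coprime_mn_q0 K n)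
lemma L_dvd_idem_mn {n n' : Att} (h : n' ≠ n) : (K.L n' : ℤ) ∣ idem K (mn K n) :=
  idem_dvd K (mn_spec K n) ((L_dvd_M K n').trans (M_dvd_S K))
    (Nat.Coprime.mul_right (coprime_E_L K n').symm (coprime_L_L K h))
lemma big_dvd_idem_mn (n : Att) : (big K : ℤ) ∣ idem K (mn K n) :=
  idem_dvd K (mn_spec K n) (big_dvd_S K) (coprime_big_of_dvd_M K (mn_dvd_M K n)).symm

/-! #### `idem` of a large prime -/

lemma idem_pX (x : XI) : (idem K (pX K x) : ZMod (pX K x)) = 1 := idem_one K (pX_spec K x)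
lemma M_dvd_idem_pX (x : XI) : (M K : ℤ) ∣ idem K (pX K x) :=
  idem_dvd K (pX_spec K x) (M_dvd_S K) (coprime_M_pX K x)
lemma pX_dvd_idem_pX {x y : XI} (h : y ≠ x) : (pX K y : ℤ) ∣ idem K (pX K x) :=
  idem_dvd K (pX_spec K x) (pX_dvd_S K y) (coprime_pX_pX K h)
lemma pO_dvd_idem_pX (x : XI) (o : Opt K) : (pO K o : ℤ) ∣ idem K (pX K x) :=
  idem_dvd K (pX_spec K x) (pO_dvd_S K o) (coprime_pX_pO K x o).symm

lemma idem_pO (o : Opt K) : (idem K (pO K o) : ZMod (pO K o)) = 1 := idem_one K (pO_spec K o)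
lemma M_dvd_idem_pO (o : Opt K) : (M K : ℤ) ∣ idem K (pO K o) :=
  idem_dvd K (pO_spec K o) (M_dvd_S K) (coprime_M_pO K o)
lemma pO_dvd_idem_pO {o t : Opt K} (h : t ≠ o) : (pO K t : ℤ) ∣ idem K (pO K o) :=
  idem_dvd K (pO_spec K o) (pO_dvd_S K t) (coprime_pO_pO K h)
lemma pX_dvd_idem_pO (o : Opt K) (x : XI) : (pX K x : ℤ) ∣ idem K (pO K o) :=
  idem_dvd K (pO_spec K o) (pX_dvd_S K x) (coprime_pX_pO K x o)

/-! ### Half of the period -/

lemma big_odd : big K % 2 = 1 := by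
  have h := coprime_big_of_dvd_M K (two_dvd_M K)
  rcases Nat.mod_two_eq_zero_or_one (big K) with e | e
  · exact absurd (Nat.dvd_of_mod_eq_zero e) (Nat.prime_two.coprime_iff_not_dvd.mp h)
  · exact e

lemma half_eq : S K / 2 = M K / 2 * big K := by
  obtain ⟨r, hr⟩ := two_dvd_M K
  rw [S_eq, hr, mul_assoc, Nat.mul_div_cancel_left _ two_pos, Nat.mul_div_cancel_left _ two_pos]

lemma two_mul_half : 2 * (S K / 2) = S K :=
  Nat.mul_div_cancel' ((two_dvd_M K).trans (M_dvd_S K))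

lemma big_dvd_half : big K ∣ S K / 2 := by rw [half_eq]; exact dvd_mul_left _ _
lemma pX_dvd_half (x : XI) : pX K x ∣ S K / 2 := (pX_dvd_big K x).trans (big_dvd_half K)
lemma pO_dvd_half (o : Opt K) : pO K o ∣ S K / 2 := (pO_dvd_big K o).trans (big_dvd_half K)

lemma odd_dvd_half {d : ℕ} (hd : d ∣ S K) (h2 : Nat.Coprime d 2) : d ∣ S K / 2 :=
  h2.dvd_of_dvd_mul_left (by rwa [two_mul_half])

lemma q0_dvd_half : K.q0 ∣ S K / 2 :=
  odd_dvd_half K ((q0_dvd_M K).trans (M_dvd_S K))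
    ((coprime_16_q0 K).symm.coprime_dvd_right (by norm_num))
lemma E_dvd_half : K.E ∣ S K / 2 :=
  odd_dvd_half K ((E_dvd_M K).trans (M_dvd_S K))
    ((coprime_16_E K).symm.coprime_dvd_right (by norm_num))
lemma L_dvd_half (n : Att) : K.L n ∣ S K / 2 :=
  odd_dvd_half K ((L_dvd_M K n).trans (M_dvd_S K))
    ((coprime_16_L K n).symm.coprime_dvd_right (by norm_num))
lemma mn_dvd_half (n : Att) : mn K n ∣ S K / 2 :=
  (coprime_E_L K n).mul_dvd_of_dvd_of_dvd (E_dvd_half K) (L_dvd_half K n)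

lemma half_mod_M : ((S K / 2 : ℕ) : ZMod (M K)) = ((M K / 2 : ℕ) : ZMod (M K)) := by
  obtain ⟨t, ht⟩ : ∃ t, big K = 2 * t + 1 := ⟨big K / 2, by have := big_odd K; omega⟩
  rw [half_eq, ht, mul_add, mul_one, ← mul_assoc, Nat.div_mul_cancel (two_dvd_M K), Nat.cast_add,
    Nat.cast_mul, ZMod.natCast_self, zero_mul, zero_add]

lemma half_mod_16 : (S K / 2) % 16 = 8 := by
  obtain ⟨r, hr⟩ := (sixteen_spec K).1
  have hc := (sixteen_spec K).2
  rw [hr, Nat.mul_div_cancel_left r (by norm_num)] at hc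
  have hodd : r % 2 = 1 := by
    rcases Nat.mod_two_eq_zero_or_one r with e | e
    · exact absurd (Nat.dvd_of_mod_eq_zero e)
        (Nat.prime_two.coprime_iff_not_dvd.mp (hc.coprime_dvd_left (by norm_num)))
    · exact e
  omega

/-! ### The colours are cyclic -/

theorem exists_col_equiv : ∃ n : ℕ, Nonempty (ZMod n ≃+ Col K) := by
  classical
  have hX : Pairwise (Function.onFun Nat.Coprime (pX K)) := fun a b h => coprime_pX_pX K h
  have hO : Pairwise (Function.onFun Nat.Coprime (pO K)) := fun a b h => coprime_pO_pO K h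
  have hL : Pairwise (Function.onFun Nat.Coprime K.L) := fun a b h => coprime_L_L K h
  have hOX : Nat.Coprime (∏ o, pO K o) (∏ x, pX K x) :=
    Nat.Coprime.prod_left fun o _ => Nat.Coprime.prod_right fun x _ => (coprime_pX_pO K x o).symm
  have hEL : Nat.Coprime K.E (∏ n, K.L n) := Nat.Coprime.prod_right fun n _ => coprime_E_L K n
  have h16 : Nat.Coprime 16 (K.E * ∏ n, K.L n) :=
    (coprime_16_E K).mul_right (Nat.Coprime.prod_right fun n _ => coprime_16_L K n)
  -- marking and data colours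
  let eMu : ZMod ((∏ o, pO K o) * ∏ x, pX K x) ≃+ Mu K :=
    (ZMod.chineseRemainder hOX).toAddEquiv.trans
      ((ZMod.prodEquivPi _ hO).toAddEquiv.prodCongr (ZMod.prodEquivPi _ hX).toAddEquiv)
  let eDat : ZMod (16 * (K.E * ∏ n, K.L n)) ≃+ Dat K :=
    (ZMod.chineseRemainder h16).toAddEquiv.trans ((AddEquiv.refl _).prodCongr
      ((ZMod.chineseRemainder hEL).toAddEquiv.trans
        ((AddEquiv.refl _).prodCongr (ZMod.prodEquivPi _ hL).toAddEquiv)))
  have hdat : 16 * (K.E * ∏ n, K.L n) ∣ M K := ⟨K.q0, by rw [M_eq]; ring⟩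
  have hMD : Nat.Coprime ((∏ o, pO K o) * ∏ x, pX K x) (16 * (K.E * ∏ n, K.L n)) := by
    rw [mul_comm]; exact (coprime_big_of_dvd_M K hdat).symm
  have hQD : Nat.Coprime (Q K) (16 * (K.E * ∏ n, K.L n)) := by
    rw [Q_eq]
    refine Nat.Coprime.mul_left ((coprime_16_q0 K).symm.mul_right ((coprime_q0_E K).mul_right
      (Nat.Coprime.prod_right fun n _ => coprime_q0_L K n))) (Nat.Coprime.prod_left fun i _ => ?_)
    have h17 : tm i ≤ 17 ∧ 0 < tm i ∧ Nat.Coprime (tm i) 16 := by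
      fin_cases i <;> simp [tm] <;> decide
    refine h17.2.2.mul_right ((coprime_of_lt_prime K.E_prime h17.2.1 ?_).mul_right
      (Nat.Coprime.prod_right fun n _ => coprime_of_lt_prime (K.L_prime n) h17.2.1 ?_))
    · have := K.q0_big; have := K.q0_E; omega
    · have := K.q0_big; have := K.L_big n; omega
  have hQM : Nat.Coprime (Q K) ((∏ o, pO K o) * ∏ x, pX K x) := by
    rw [mul_comm]; exact coprime_Q_big K
  exact ⟨_, ⟨(ZMod.chineseRemainder (hQM.mul_right hQD)).toAddEquiv.trans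
    ((tagEquiv K).prodCongr ((ZMod.chineseRemainder hMD).toAddEquiv.trans
      (eMu.prodCongr eDat)))⟩⟩

theorem col_isAddCyclic : IsAddCyclic (Col K) := by
  obtain ⟨n, ⟨e⟩⟩ := exists_col_equiv K
  exact isAddCyclic_of_surjective e.toAddMonoidHom e.surjective

/-! ### Parameters exist -/

/-- Both parities of the first clock occur. -/
lemma exists_par0 (b : ZMod 2) : ∃ s : P043.St, par0 s = b := by
  obtain ⟨a, h1, h2⟩ : ∃ a : ℕ, (a = 1 ∨ a = 2) ∧ par2 (a : R64) = b := by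
    rcases (show b = 0 ∨ b = 1 by revert b; decide) with rfl | rfl
    · exact ⟨2, Or.inr rfl, by unfold par2; decide⟩
    · exact ⟨1, Or.inl rfl, by unfold par2; decide⟩
  refine ⟨⟨((a : R64), (1 : R64), fun n => digit ((a : ℤ) + n.val)), (a : ℤ), 1, ?_, ?_, ?_⟩, h2⟩
  · unfold Prim
    rcases h1 with rfl | rfl <;> norm_num
  · intro n _
    simp
  · intro _
    simp

lemma exists_surjective_fin {X : Type*} [Fintype X] [Nonempty X] {m : ℕ}
    (h : Fintype.card X ≤ m) : ∃ f : Fin m → X, Surjective f := by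
  obtain ⟨e⟩ := Function.Embedding.nonempty_of_card_le (α := X) (β := Fin m) (by simpa using h)
  exact ⟨Function.invFun e, Function.invFun_surjective e.injective⟩

/-- A table of states with two equal marked tags and balanced parities. -/
lemma exists_table (q N : ℕ) [NeZero q] (hq : q = 2 * N + 1)
    (hN : Fintype.card P043.St < N) :
    ∃ (table : ZMod q → P043.St) (d : Fin 2 → ZMod q),
      (∀ t, ∃ g, table g = t ∧ ∀ i, g ≠ d i) ∧ d 0 ≠ d 1 ∧ table (d 0) = table (d 1) ∧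
      ∀ i, ∀ b : ZMod 2,
        2 * Nat.card {g : ZMod q // g ≠ d i ∧ par0 (table g) = b} + 1 = q := by
  classical
  obtain ⟨s0, hs0⟩ := exists_par0 0
  obtain ⟨s1, hs1⟩ := exists_par0 1
  have : Nonempty {s : P043.St // par0 s = 0} := ⟨⟨s0, hs0⟩⟩
  have : Nonempty {s : P043.St // par0 s = 1} := ⟨⟨s1, hs1⟩⟩
  have c0 := Fintype.card_subtype_le (fun s : P043.St => par0 s = 0)
  have c1 := Fintype.card_subtype_le (fun s : P043.St => par0 s = 1)
  obtain ⟨f0, hf0⟩ :=
    exists_surjective_fin (X := {s : P043.St // par0 s = 0}) (m := N - 1) (by omega)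
  obtain ⟨f1, hf1⟩ :=
    exists_surjective_fin (X := {s : P043.St // par0 s = 1}) (m := N) (by omega)
  let T : Fin 2 ⊕ Fin (N - 1) ⊕ Fin N → P043.St :=
    Sum.elim (fun _ => s0) (Sum.elim (fun i => (f0 i).1) (fun i => (f1 i).1))
  obtain ⟨e⟩ : Nonempty (ZMod q ≃ Fin 2 ⊕ Fin (N - 1) ⊕ Fin N) :=
    ⟨Fintype.equivOfCardEq (by simp; omega)⟩
  refine ⟨fun g => T (e g), fun i => e.symm (Sum.inl i), fun t => ?_, ?_, by simp [T],
    fun i b => ?_⟩
  · rcases (show par0 t = 0 ∨ par0 t = 1 by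
      generalize par0 t = x; revert x; decide) with h | h
    · obtain ⟨j, hj⟩ := hf0 ⟨t, h⟩
      exact ⟨e.symm (Sum.inr (Sum.inl j)), by simp [T, hj], by simp⟩
    · obtain ⟨j, hj⟩ := hf1 ⟨t, h⟩
      exact ⟨e.symm (Sum.inr (Sum.inr j)), by simp [T, hj], by simp⟩
  · simp
  · have key : Nat.card {g : ZMod q // g ≠ e.symm (Sum.inl i) ∧ par0 (T (e g)) = b} =
        (univ.filter fun y => y ≠ Sum.inl i ∧ par0 (T y) = b).card := by
      rw [Nat.card_congr (Equiv.subtypeEquiv e (q := fun y => y ≠ Sum.inl i ∧ par0 (T y) = b)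
        fun g => by rw [Ne, Equiv.eq_symm_apply]), Nat.card_eq_fintype_card, Fintype.card_subtype]
    have e0 : ∀ j, par0 (f0 j).1 = 0 := fun j => (f0 j).2
    have e1 : ∀ j, par0 (f1 j).1 = 1 := fun j => (f1 j).2
    rw [key, card_filter, Fintype.sum_sum_type, Fintype.sum_sum_type]
    simp only [T, Sum.elim_inl, Sum.elim_inr, e0, e1, hs0, ne_eq, Sum.inl.injEq,
      reduceCtorEq, not_false_eq_true, true_and]
    rcases (show ∀ x : ZMod 2, x = 0 ∨ x = 1 by decide) b with rfl | rfl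
    · fin_cases i <;> simp [Fin.sum_univ_two] <;> omega
    · simp
      omega

theorem exists_par : Nonempty Par := by
  classical
  obtain ⟨q0, hq, hqp, hqm⟩ := exists_prime_mod (r := 13) (q := 17) (by norm_num) (by norm_num)
    (2 * Fintype.card P043.St + 20)
  obtain ⟨E, hE, hEp, hEm⟩ := exists_prime_mod (r := 7) (q := 11) (by norm_num) (by norm_num)
    (q0 + 8 * 2 ^ Fintype.card Att)
  obtain ⟨L, hLi, hL⟩ := exists_primes_mod Att (r := 1) (q := 77) (by norm_num) (by norm_num) q0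
  have : NeZero q0 := ⟨hqp.ne_zero⟩
  have hodd : q0 % 2 = 1 := hqp.eq_two_or_odd.resolve_left (by omega)
  obtain ⟨table, d, h1, h2, h3, h4⟩ :=
    exists_table q0 (q0 / 2) (by omega) (by omega)
  exact ⟨{
    q0 := q0
    E := E
    L := L
    q0_prime := hqp
    q0_mod := hqm
    E_prime := hEp
    E_mod := hEm
    q0_big := by omega
    E_big := by omega
    q0_E := by omega
    L_prime := fun n => (hL n).2.1
    L_mod := fun n => (hL n).2.2
    L_big := fun n => (hL n).1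
    L_inj := hLi
    E_L := fun n h => by
      have := (hL n).2.2
      rw [← h] at this
      omega
    table := table
    d := d
    table_surj := h1
    d_ne := h2
    d_table := h3
    balanced := h4 }⟩

end

end Vale.Agent.P043.Z3
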