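/-
P043: rows cut into blocks of two moduli, as used in the two-tag seed slices.
-/
import Mathlib

namespace Vale.Agent.P043.Z3

open Function Finset

variable {n a b : ℕ} [NeZero n] [NeZero a] [NeZero b]

/-- Position in the first modulus: the row number below `a`, the tag otherwise. -/
def blkA (c : ZMod n) (g : ZMod a) : ZMod a := if c.val < a then (c.val : ZMod a) else g

/-- Position in the second modulus: the tag below `a`, the row number in its block otherwise. -/
def blkB (a : ℕ) (c : ZMod n) (h : ZMod b) : ZMod b :=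
  if c.val < a then h else ((c.val - a : ℕ) : ZMod b)

/-- The label: the free tag, shifted to its block. -/
def blkLab (c : ZMod n) (g : ZMod a) (h : ZMod b) : ZMod n :=
  if c.val < a then (g.val : ZMod n) else ((a + b * ((c.val - a) / b) + h.val : ℕ) : ZMod n)

theorem blk_bijective (han : a ≤ n) (hb : b ∣ n - a) :
    Bijective fun p : ZMod n × ZMod a × ZMod b =>
      (blkA p.1 p.2.1, blkB a p.1 p.2.2, blkLab p.1 p.2.1 p.2.2) := by
  have : NeZero n := inferInstance
  refine (Fintype.bijective_iff_surjective_and_card _).mpr ⟨?_, by simp; ring⟩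
  rintro ⟨A, B, l⟩
  by_cases hl : l.val < a
  · have hA : ((A.val : ℕ) : ZMod n).val = A.val :=
      ZMod.val_cast_of_lt (lt_of_lt_of_le A.val_lt han)
    refine ⟨((A.val : ℕ), ((l.val : ℕ) : ZMod a), B), ?_⟩
    have hc : ((A.val : ℕ) : ZMod n).val < a := hA.trans_lt A.val_lt
    simp only [blkA, blkB, blkLab, if_pos hc]
    rw [hA, ZMod.val_cast_of_lt hl, ZMod.natCast_zmod_val, ZMod.natCast_zmod_val]
  · obtain ⟨k, hk⟩ := hb
    have hk' : n = a + b * k := by omega
    set q := (l.val - a) / b with hq
    have hbp : 0 < b := Nat.pos_of_ne_zero (NeZero.ne b)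
    have hmod : (l.val - a) % b + b * q = l.val - a := Nat.mod_add_div (l.val - a) b
    have hqk : q < k := by
      rw [hq, Nat.div_lt_iff_lt_mul hbp]
      have := l.val_lt
      rw [Nat.mul_comm]
      omega
    have hcn : a + b * q + B.val < n := by
      have h1 : b * (q + 1) ≤ b * k := Nat.mul_le_mul_left b hqk
      rw [mul_add, mul_one] at h1
      have := B.val_lt
      omega
    have hdiv : (b * q + B.val) / b = q := by
      rw [Nat.mul_add_div hbp, Nat.div_eq_of_lt B.val_lt, add_zero]
    refine ⟨((a + b * q + B.val : ℕ), A, (((l.val - a) % b : ℕ) : ZMod b)), ?_⟩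
    have hc : ¬ ((a + b * q + B.val : ℕ) : ZMod n).val < a := by
      rw [ZMod.val_cast_of_lt hcn]; omega
    have e1 : a + b * q + B.val - a = b * q + B.val := by omega
    simp only [blkA, blkB, blkLab, hc, if_false, Prod.mk.injEq, true_and]
    rw [ZMod.val_cast_of_lt hcn, e1, hdiv, ZMod.val_cast_of_lt (Nat.mod_lt _ hbp)]
    refine ⟨by simp, ?_⟩
    rw [show a + b * q + (l.val - a) % b = l.val by omega, ZMod.natCast_zmod_val]

end Vale.Agent.P043.Z3
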