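/-
P043: counting lemmas for the seed windows and for the solution.
-/
import Mathlib

namespace Vale.Agent.P043.Z3

open Function Finset

/-- A function of slope `k` along a cycle. -/
theorem slope_line {T : ℕ} [NeZero T] {p : ZMod T → ZMod T} {k : ZMod T}
    (h : ∀ g, p (g + 1) = p g + k) (g : ZMod T) : p g = p 0 + k * g := by
  have : ∀ n : ℕ, p (n : ZMod T) = p 0 + k * n := by
    intro n
    induction n with
    | zero => simp
    | succ n ih => push_cast; rw [h, ih]; ring
  simpa using this g.val

/-- If rows have slope `0` (spikes) or `1` and every value is taken equally often, then the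
number of spikes is a multiple of the modulus. -/
theorem seed_dvd {R : Type*} [Fintype R] {T : ℕ} [NeZero T] (spike : R → Bool)
    (p : R → ZMod T → ZMod T)
    (hp : ∀ r g, p r (g + 1) = p r g + if spike r then 0 else 1) {N : ℕ}
    (hN : ∀ a : ZMod T, (univ.filter fun x : R × ZMod T => p x.1 x.2 = a).card = N) :
    T ∣ (univ.filter fun r => spike r).card := by
  classical
  have row : ∀ r a, (univ.filter fun g => p r g = a).card =
      if spike r then (if p r 0 = a then T else 0) else 1 := by
    intro r a
    have hl := slope_line (hp r)
    by_cases hs : spike r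
    · simp only [hs, if_true]
      by_cases ha : p r 0 = a
      · rw [if_pos ha, filter_true_of_mem (fun g _ => ?_), card_univ, ZMod.card]
        rw [hl g]; simp [hs, ha]
      · rw [if_neg ha, card_eq_zero, filter_eq_empty_iff]
        intro g _
        rw [hl g]; simpa [hs] using ha
    · have : (univ.filter fun g => p r g = a) = {a - p r 0} := by
        ext g
        simp only [mem_filter, mem_univ, true_and, mem_singleton, hl g, if_neg hs]
        constructor <;> intro h
        · rw [← h]; ring
        · rw [h]; ring
      rw [this, card_singleton, if_neg hs]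
  set n : ZMod T → ℕ := fun a => (univ.filter fun r => spike r ∧ p r 0 = a).card with hn
  have key : ∀ a, T * n a + (univ.filter fun r => ¬ spike r).card = N := by
    intro a
    simp only [← hN a, hn, card_filter]
    rw [Fintype.sum_prod_type, mul_sum, ← sum_add_distrib]
    simp only [← card_filter, row]
    refine sum_congr rfl fun r _ => ?_
    by_cases hs : spike r <;> by_cases ha : p r 0 = a <;> simp [hs, ha]
  have hc : ∀ a, n a = n 0 := fun a =>
    Nat.eq_of_mul_eq_mul_left (Nat.pos_of_ne_zero (NeZero.ne T)) (by have := key a; have := key 0; omega)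
  have tot : (univ.filter fun r => spike r).card = ∑ a : ZMod T, n a := by
    rw [card_eq_sum_card_fiberwise (f := fun r => p r 0) (t := univ) (fun r _ => by simp)]
    refine sum_congr rfl fun a _ => ?_
    rw [hn, filter_filter]
  rw [tot, sum_congr rfl fun a _ => hc a, sum_const, card_univ, ZMod.card]
  exact dvd_mul_right T _

/-- Six of sixteen rows with residue below three modulo eight force an odd slope. -/
theorem odd_of_six (l c : ZMod 16)
    (h : (univ.filter fun t : ZMod 16 => (l * t + c).val % 8 < 3).card = 6) : l.val % 2 = 1 := by
  revert h; revert c; revert l; decide +kernel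

/-- The two congruences of the first seed. -/
theorem six_of_dvd {n : ℕ} (hn : n ≤ 16) (h3 : 3 ∣ n) (h5 : 5 ∣ 16 - n) : n = 6 := by
  omega

/-- For a prime modulus a zero slope gives none or all rows. -/
theorem filter_of_zero_slope {q : ℕ} [NeZero q] {l : ZMod q} (hl : l = 0) (c : ZMod q)
    (f : ZMod q → Bool) :
    (univ.filter fun t : ZMod q => f (l * t + c)).card = if f c then q else 0 := by
  subst hl
  cases h : f c <;> simp [h, filter_true_of_mem, filter_false_of_mem, ZMod.card]

/-- Equal fibre sizes allow a second coordinate making the pair bijective. -/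
theorem exists_second {X A : Type*} [Fintype X] [DecidableEq A] {n : ℕ} [NeZero n] (e : X → A)
    (h : ∀ a, (univ.filter fun x => e x = a).card = n) :
    ∃ l : X → ZMod n, Bijective fun x => (e x, l x) := by
  have hc : ∀ a, Fintype.card {x // e x = a} = Fintype.card (ZMod n) := fun a => by
    rw [Fintype.card_subtype, h, ZMod.card]
  let σ := fun a => Fintype.equivOfCardEq (hc a)
  let F : X ≃ A × ZMod n := ((Equiv.sigmaFiberEquiv e).symm.trans
    (Equiv.sigmaCongrRight σ)).trans (Equiv.sigmaEquivProd A (ZMod n))
  refine ⟨fun x => (F x).2, ?_⟩
  have he : ∀ x, (F x).1 = e x := fun x => rfl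
  have : (fun x => (e x, (F x).2)) = F := funext fun x => Prod.ext (he x).symm rfl
  rw [this]
  exact F.bijective

/-- Two maps with the same number of preimages of every value differ by a bijection. -/
theorem exists_equiv_of_fibres {X Y V : Type*} [Fintype X] [Fintype Y] [DecidableEq V]
    (f : X → V) (g : Y → V)
    (h : ∀ v, (univ.filter fun x => f x = v).card = (univ.filter fun y => g y = v).card) :
    ∃ σ : X ≃ Y, ∀ x, g (σ x) = f x := by
  have hc : ∀ v, Fintype.card {x // f x = v} = Fintype.card {y // g y = v} := fun v => by
    rw [Fintype.card_subtype, Fintype.card_subtype, h]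
  let σ : X ≃ Y := ((Equiv.sigmaFiberEquiv f).symm.trans
    (Equiv.sigmaCongrRight fun v => Fintype.equivOfCardEq (hc v))).trans (Equiv.sigmaFiberEquiv g)
  exact ⟨σ, fun x => ((Fintype.equivOfCardEq (hc (f x))) ⟨x, rfl⟩).property⟩

end Vale.Agent.P043.Z3
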