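/-
P043: the list forcing that one of several options varies along its own axis, on any group.
-/
import Vale.Agent.P043.Or

namespace Vale.Agent.P043.Z3

open Function Finset

variable {D C O : Type} [AddCommGroup D] [AddCommGroup C] [Fintype O] [DecidableEq O]
  (P : O → ℕ) (u : O → D) (prO : ∀ o, C →+ ZMod (P o)) (inO : ∀ o, ZMod (P o) →+ C)

/-- The option digits of a colour, kept on `G` only. -/
def digits (G : Finset O) (j : C) : Row P := fun o => if o ∈ G then prO o j else 0

/-- The common point read by colour `j`. -/
noncomputable def orShift (G : Finset O) (o0 : O) (j : C) : D :=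
  ∑ o ∈ G, (goalMap P G o0 o (digits P prO G j) o - colMap P G o0 (digits P prO G j) o).val • u o

/-- The colour correction of colour `j`. -/
noncomputable def orColour (G : Finset O) (o0 : O) (j : C) : C :=
  j + ∑ o ∈ G, inO o (colMap P G o0 (digits P prO G j) o - digits P prO G j o)

/-- The list forcing that some option in `G` varies along its own axis. -/
noncomputable def orEqn (G : Finset O) (o0 : O) : Eqn D C :=
  ⟨orShift P u prO G o0, orColour P prO inO G o0⟩

variable {P u prO inO}

theorem inv_nsmul {K : Type*} {g : D → K} {v : D} (h : ∀ y, g (y + v) = g y) (n : ℕ) (y : D) :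
    g (y + n • v) = g y := by
  induction n with
  | zero => simp
  | succ n ih => rw [succ_nsmul, ← add_assoc, h, ih]

theorem inv_sum {K : Type*} {g : D → K} (S : Finset O) (h : ∀ o ∈ S, ∀ y, g (y + u o) = g y)
    (n : O → ℕ) (y : D) : g (y + ∑ o ∈ S, n o • u o) = g y := by
  induction S using Finset.induction generalizing y with
  | empty => simp
  | @insert o S ho ih =>
    rw [sum_insert ho, ← add_assoc, ih (fun t ht => h t (mem_insert_of_mem ht)),
      inv_nsmul (h o (mem_insert_self o S))]

section Proj

variable (hpi : ∀ o x, prO o (inO o x) = x) (hne : ∀ o t, o ≠ t → ∀ x, prO o (inO t x) = 0)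
include hpi hne

theorem prO_orColour {G : Finset O} (o0 : O) (j : C) {o : O} (ho : o ∈ G) :
    prO o (orColour P prO inO G o0 j) = colMap P G o0 (digits P prO G j) o := by
  rw [orColour, map_add, map_sum, sum_eq_single o]
  · simp [hpi, digits, ho]
  · intro t _ ht
    exact hne o t (Ne.symm ht) _
  · exact fun h => absurd ho h

/-- With the other axes invisible, a component sees only its own step count. -/
theorem prO_orShift {f : D → C} {G : Finset O}
    (hinv : ∀ o ∈ G, ∀ t ∈ G, t ≠ o → ∀ y, prO o (f (y + u t)) = prO o (f y))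
    (o0 : O) (j : C) (y : D) {o : O} (ho : o ∈ G) :
    prO o (f (y + orShift P u prO G o0 j)) = prO o (f (y +
      (goalMap P G o0 o (digits P prO G j) o - colMap P G o0 (digits P prO G j) o).val • u o)) := by
  rw [orShift, ← add_sum_erase _ _ ho, ← add_assoc]
  exact inv_sum (g := fun z => prO o (f z)) _ (fun t ht => hinv o ho t (mem_erase.mp ht).2
    (mem_erase.mp ht).1) _ _

/-- Some option varies along its own axis at every point. -/
theorem or_forces (hP : ∀ o, 3 ≤ P o) {G : Finset O} {o0 : O} (h0 : o0 ∈ G) {f : D → C}
    (hinv : ∀ o ∈ G, ∀ t ∈ G, t ≠ o → ∀ y, prO o (f (y + u t)) = prO o (f y))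
    (h : Holds (orEqn P u prO inO G o0) f) (y : D) :
    ∃ o ∈ G, ∃ m : ℕ, prO o (f (y + (m + 1) • u o)) ≠ prO o (f (y + m • u o)) := by
  by_contra hno
  push Not at hno
  have hconst : ∀ o ∈ G, ∀ m : ℕ, prO o (f (y + m • u o)) = prO o (f y) := by
    intro o ho m
    induction m with
    | zero => simp
    | succ m ih => rw [hno o ho m, ih]
  have : Fact (1 < P o0) := ⟨by have := hP o0; omega⟩
  set ε : Row P := Pi.single o0 1 with hε
  have hodd : IsOdd P G ε := by
    refine ⟨fun o _ => ?_, ?_⟩
    · by_cases e : o = o0
      · subst e; simp [hε]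
      · simp [hε, e]
    · unfold par
      rw [sum_eq_single o0]
      · simp [hε]
      · intro o _ hne'
        have : Fact (1 < P o) := ⟨by have := hP o; omega⟩
        simp [hε, hne']
      · exact fun h => absurd h0 h
  obtain ⟨j, hj⟩ := (h y).surjective (f y + inO o0 1)
  have hval : ∀ o ∈ G, colMap P G o0 (digits P prO G j) o = ε o := by
    intro o ho
    have := congrArg (prO o) hj
    simp only [orEqn, map_add, prO_orShift hpi hne hinv o0 j y ho,
      prO_orColour hpi hne o0 j ho, hconst o ho] at this
    rw [add_left_cancel this]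
    by_cases e : o = o0
    · subst e; simp [hε, hpi]
    · simp [hε, e, hne o o0 e]
  -- no row is mapped to an odd one
  have hcol : IsOdd P G (colMap P G o0 (digits P prO G j)) := by
    refine ⟨fun o ho => by rw [hval o ho]; exact hodd.1 o ho, ?_⟩
    rw [← hodd.2]
    exact sum_congr rfl fun o ho => by rw [hval o ho]
  by_cases hd : IsOdd P G (digits P prO G j)
  · rw [colMap, if_pos hd] at hcol
    have h2 := (flipAt_cube P hP h0 hd.1).2
    rw [hd.2, hcol.2] at h2
    exact absurd h2 (by decide)
  · rw [colMap, if_neg hd] at hcol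
    exact hd hcol

/-- One option with slope one and the others constant solve the list. -/
theorem or_holds [Finite C] (hP : ∀ o, 3 ≤ P o) {G : Finset O} {o0 : O} (h0 : o0 ∈ G) {f : D → C}
    (hinv : ∀ o ∈ G, ∀ t ∈ G, t ≠ o → ∀ y, prO o (f (y + u t)) = prO o (f y))
    (h : ∀ y, ∃ s ∈ G, (∀ m : ℕ, prO s (f (y + m • u s)) = prO s (f y) + m) ∧
      ∀ o ∈ G, o ≠ s → ∀ m : ℕ, prO o (f (y + m • u o)) = prO o (f y)) :
    Holds (orEqn P u prO inO G o0) f := by
  intro y
  obtain ⟨s, hs, hslope, hconst⟩ := h y
  have : ∀ o, NeZero (P o) := fun o => ⟨by have := hP o; omega⟩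
  have key : ∀ (j : C), ∀ o ∈ G,
      prO o (f (y + orShift P u prO G o0 j) + orColour P prO inO G o0 j) =
        prO o (f y) + goalMap P G o0 s (digits P prO G j) o := by
    intro j o ho
    rw [map_add, prO_orShift hpi hne hinv o0 j y ho, prO_orColour hpi hne o0 j ho]
    by_cases e : o = s
    · subst e
      rw [hslope, ZMod.natCast_val, ZMod.cast_id]
      ring
    · rw [hconst o ho e]
      congr 1
      unfold colMap goalMap
      split_ifs
      · rw [flipAt_ne P e]
      · rfl
  refine Finite.injective_iff_bijective.mp fun j j' e => ?_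
  simp only [orEqn] at e
  have hout : ∀ (j : C) (o : O), o ∉ G → goalMap P G o0 s (digits P prO G j) o = 0 := by
    intro j o ho
    have h1 : o ≠ o0 := fun e => ho (e ▸ h0)
    have h2 : o ≠ s := fun e => ho (e ▸ hs)
    unfold goalMap
    split_ifs <;> simp [flipAt_ne P h1, flipAt_ne P h2, digits, ho]
  have hgoal : goalMap P G o0 s (digits P prO G j) = goalMap P G o0 s (digits P prO G j') := by
    funext o
    by_cases ho : o ∈ G
    · have := congrArg (prO o) e
      rw [key j o ho, key j' o ho] at this
      exact add_left_cancel this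
    · rw [hout j o ho, hout j' o ho]
  have hd := goalMap_injective P hP h0 hs hgoal
  have he : orShift P u prO G o0 j = orShift P u prO G o0 j' := by simp only [orShift, hd]
  rw [he] at e
  have e2 := add_left_cancel e
  simp only [orColour, hd] at e2
  exact add_right_cancel e2

end Proj

end Vale.Agent.P043.Z3
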