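/-
P043, dimension three: all lists and all tiles of the system.
-/
import Vale.Agent.P043.Z3.Defs
import Vale.Agent.P043.Z3.Or

namespace Vale.Agent.P043.Z3

open Function Finset

noncomputable section

variable (K : Par)

abbrev E3 := Eqn (D K) (C K)

/-- The vectors forgotten by the states. -/
def freeVec : Set (D K) := Set.range (eX K) ∪ Set.range (fun i => ((0, gT K i) : D K))

def Opt.cls (k : Fin 5) (c : Cls K k) : Opt K := Sum.inr ⟨k, c⟩

/-- Invariance of the option components. -/
inductive OptInv : Opt K → D K → Prop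
  | other {o t : Opt K} : t ≠ o → OptInv o (axO K t)
  | period (o : Opt K) : OptInv o (pO K o • axO K o)
  | perI (o : Opt K) : OptInv o (perI K)
  | free (o : Opt K) {v : D K} : v ∈ freeVec K → OptInv o v
  | line (k : Fin 5) (c : Cls K k) : OptInv (Opt.cls K k c) (dir K k)

/-- Invariance of the readout and label colours. -/
inductive XInv : XI → D K → Prop
  | perI (x : XI) : XInv x (perI K)
  | axis (x : XI) (o : Opt K) : XInv x (axO K o)
  | other {x x' : XI} : x' ≠ x → XInv x (eX K x')
  | tagS (n : Att) (j : Fin 3) : XInv (.inr (n, j)) (0, gS K)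
  | tagT (n : Att) (j : Fin 3) (i : Fin 6) : XInv (.inr (n, j)) (0, gT K i)
  | line (n : Att) (j : Fin 3) : XInv (.inr (n, j)) (site K (labV K n j))

/-- Invariance of every position component. -/
inductive PosInv : D K → Prop
  | perI : PosInv (perI K)
  | half : PosInv (site K (step1 K))
  | axis (o : Opt K) : PosInv (axO K o)
  | ex (x : XI) : PosInv (eX K x)

/-- Invariance of the big position component. -/
inductive SInv : D K → Prop
  | all {v : D K} : PosInv K v → SInv v
  | tag {i : Fin 6} : i.val < 4 → SInv (0, gT K i)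

/-- Invariance of a small position component. -/
inductive TInv : Fin 6 → D K → Prop
  | all {v : D K} (i : Fin 6) : PosInv K v → TInv i v
  | tagS (i : Fin 6) : TInv i (0, gS K)
  | tag {i i' : Fin 6} : i' ≠ i → TInv i (0, gT K i')

/-- The lists on marking colours and positions. -/
inductive IsEqn : E3 K → Prop
  | optInv {o : Opt K} {v : D K} : OptInv K o v → IsEqn (twist (prO K o) (inO K o) v 0)
  | xInv {x : XI} {v : D K} : XInv K x v → IsEqn (twist (prX K x) (inX K x) v 0)
  | sInv {v : D K} : SInv K v → IsEqn (twist (prS K) (inS K) v 0)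
  | tInv {i : Fin 6} {v : D K} : TInv K i v → IsEqn (twist (prT K i) (inT K i) v 0)
  | orSt : IsEqn (orEqn (pO K) (axO K) (prO K) (inO K) (univ.image Sum.inl) (Sum.inl 0))
  | orCls (k : Fin 5) : IsEqn
      (orEqn (pO K) (axO K) (prO K) (inO K)
        ((Set.range (Opt.cls K k)).toFinite.toFinset) (Opt.cls K k 0))
  | excl {s : St K} {k : Fin 5} {c : Cls K k} : c ≠ QuotientAddGroup.mk s →
      IsEqn (cond (prO K (Sum.inl s)) (prO K (Opt.cls K k c)) (inO K (Opt.cls K k c))
        (axO K (Sum.inl s)) (axO K (Opt.cls K k c)) 0)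
  | slopeS (c : Cls K 3) : IsEqn
      (cond (prO K (Opt.cls K 3 c)) (prS K) (inS K) (axO K (Opt.cls K 3 c)) (0, gS K)
        (slopeS K (Quotient.out c)))
  | slopeT (s : St K) (i : Fin 6) : IsEqn
      (cond (prO K (Sum.inl s)) (prT K i) (inT K i) (axO K (Sum.inl s)) (0, gT K i)
        (slopeT K s i))
  | slopeX (s : St K) (x : XI) : IsEqn
      (cond (prO K (Sum.inl s)) (prX K x) (inX K x) (axO K (Sum.inl s)) (eX K x)
        (psi K s x : ZMod (pX K x)))

/-- The key shifts of the three label rules. -/
def labShift (n : Att) (j : Fin 3) : (ZMod K.E × ZMod (K.L n)) × KeyT FN :=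
  if j = 0 then ((-1, -1), 0) else 0

/-- The windows. -/
def winT0 : Finset (G K) := keyTile (chain (colStep K) (Q K)) (keyTag K)
def winH : Finset (G K) := keyTile (window K 16 false FH) (keyH K)
def winC : Finset (G K) := keyTile (window K K.q0 true FC) (keyC K)
def winN (n : Att) : Finset (G K) := keyTile (window K (mn K n) true FN) (keyN K n)

/-- All tiles. -/
inductive IsTile : Finset (G K) → Prop
  | tag : IsTile (winT0 K)
  | mu : IsTile (splitTile (chain (colStep K) (Q K)) (keyTag K) (colMu K) (colStep K) 0)
  | eqn {L : E3 K} : IsEqn K L → IsTile (eqnTile K L)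
  | seedH : IsTile (winH K)
  | seedC : IsTile (winC K)
  | win (n : Att) : IsTile (winN K n)
  | move1 (n : Att) : IsTile (keyTile (moved (window K (mn K n) true FN) (cols K true FN) (step1 K)) (keyN K n))
  | move2 (n : Att) : IsTile (keyTile (moved (window K (mn K n) true FN) (cols K true FN) (step2 K)) (keyN K n))
  | lab (n : Att) (j : Fin 3) : IsTile
      (splitTile (window K (mn K n) true FN) (keyN K n) (colX K (.inr (n, j))) (labV K n j)
        (labShift K n j))
  | read (n : Att) {x : Z2} : x ∈ rdDir n → IsTile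
      (splitTile (window K (mn K n) true FN) (keyN K n) (colX K (.inl n)) (macroV K x) 0)

/-- `A` is tiled by every tile. -/
def Good (A : Set (G K)) : Prop := ∀ F, IsTile K F → Tiles A F

end

end Vale.Agent.P043.Z3
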