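/-
P043, dimension three: what a tiled set looks like (interfaces between the files).
-/
import Vale.Agent.P043.Z3.Eqs

namespace Vale.Agent.P043.Z3

open Function Finset

noncomputable section

variable {K : Par}

/-- Positions and colours of the tagged points of a set. -/
structure View (A : Set (G K)) where
  pos : D K → Tag K
  mu : D K → Mu K
  col : D K → Col K
  mem : ∀ y c, (y, c) ∈ A ↔ pos (y, c.1) = 0 ∧ col (y, c.1) = c
  col_tag : ∀ z, pos z = 0 → (col z).1 = z.2
  col_mu : ∀ z, pos z = 0 → (col z).2.1 = mu z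
  pos_shift : ∀ z, pos (z + perJ K) = pos z - 1
  mu_shift : ∀ z, mu (z + perJ K) = mu z
  holds : ∀ L, IsEqn K L → Holds L (fun z => (mu z, pos z))

/-- The sites that are multiples of the large primes. -/
def InL (K : Par) (y : Z2) : Prop := (big K : ℤ) ∣ y.1 ∧ (big K : ℤ) ∣ y.2

/-- The slopes forced by the states. -/
structure Slopes {A : Set (G K)} (V : View A) (s : D K → St K) : Prop where
  slopeS : ∀ z, (V.pos (z + (0, gS K))).1 = (V.pos z).1 + slopeS K (s z)
  slopeT : ∀ z i, (V.pos (z + (0, gT K i))).2 i = (V.pos z).2 i + slopeT K (s z) i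
  slopeX : ∀ z x, (V.mu (z + eX K x)).2 x = (V.mu z).2 x + (psi K (s z) x : ZMod (pX K x))

/-- The states of the sites. -/
structure States {A : Set (G K)} (V : View A) where
  s : D K → St K
  affine : ∀ y0 : Z2, ∃ (l : ℤ) (c : St K), ∀ y g, InL K y →
    s (y0 + y, g) = l • proj K (y, g) + c
  free : ∀ v ∈ freeVec K, ∀ z, s (z + v) = s z
  slopes : Slopes V s

/-- A base site near which equal colours have equal labels and states are affine bijections. -/
structure Base {A : Set (G K)} {V : View A} (T : States V) where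
  y0 : Z2
  l : ℤ
  coprime : IsCoprime l (M K : ℤ)
  eq : ∃ c : St K, ∀ y g, InL K y → T.s (y0 + y, g) = l • proj K (y, g) + c
  label : ∀ x y y' g g', InL K y → InL K y' →
    (V.mu (y0 + y, g)).2 x = (V.mu (y0 + y', g')).2 x →
    psi K (T.s (y0 + y, g)) x = psi K (T.s (y0 + y', g')) x

end

end Vale.Agent.P043.Z3
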