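/-
P043, dimension three: the states of the sites.
-/
import Vale.Agent.P043.Z3.Iface
import Vale.Agent.P043.Z3.Affine

namespace Vale.Agent.P043.Z3

open Function Finset

noncomputable section

variable {K : Par}

namespace Engine

/-- Marking colour and position at a point. -/
def colour {A : Set (G K)} (V : View A) (z : D K) : C K := (V.mu z, V.pos z)

/-- Option `o` varies along its own axis through `z`. -/
def Act {A : Set (G K)} (V : View A) (o : Opt K) (z : D K) : Prop :=
  ∃ m : ℕ, prO K o (colour V (z + (m + 1) • axO K o)) ≠ prO K o (colour V (z + m • axO K o))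

lemma bound_lt_M : M K < bound K := by
  rw [bound_eq]
  exact lt_of_lt_of_le (by omega) (Nat.le_self_pow two_ne_zero _)

lemma bound_le_pX (x : XI) : bound K ≤ pX K x := by
  unfold pX
  exact le_trans (Nat.le_add_right _ _) ((Nat.le_add_right _ 2).trans (Nat.add_two_le_nth_prime _))

lemma bound_le_pO (o : Opt K) : bound K ≤ pO K o := by
  unfold pO
  exact le_trans (Nat.le_add_right _ _) (le_trans (Nat.le_add_right _ _)
    ((Nat.le_add_right _ 2).trans (Nat.add_two_le_nth_prime _)))

lemma three_le_pO' (o : Opt K) : 3 ≤ pO K o := by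
  refine le_trans ?_ (bound_le_pO o)
  rw [bound_eq]
  exact le_trans (by omega) (Nat.le_self_pow two_ne_zero _)

lemma M_coprime_big : Nat.Coprime (M K) (big K) := by
  unfold big
  refine Nat.Coprime.mul_right (Nat.Coprime.prod_right fun x _ => ?_)
    (Nat.Coprime.prod_right fun o _ => ?_)
  · exact (Nat.coprime_of_lt_prime (NeZero.ne _) (bound_lt_M.trans_le (bound_le_pX x))
      (pX_prime K x)).symm
  · exact (Nat.coprime_of_lt_prime (NeZero.ne _) (bound_lt_M.trans_le (bound_le_pO o))
      (pO_prime K o)).symm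

lemma idem_M_one : (idem K (M K) : ZMod (M K)) = 1 ∧ (big K : ℤ) ∣ idem K (M K) := by
  have hS : S K / M K = big K := by rw [S_eq, Nat.mul_div_cancel_left _ (NeZero.pos _)]
  have h : Nat.Coprime (M K) (S K / M K) := by rw [hS]; exact M_coprime_big
  rw [idem, dif_pos h]
  obtain ⟨h1, h2⟩ := (Nat.chineseRemainder h 1 0).2
  refine ⟨?_, ?_⟩
  · rw [Int.cast_natCast]
    exact_mod_cast (ZMod.natCast_eq_natCast_iff _ _ _).mpr h1
  · exact Int.natCast_dvd_natCast.mpr ((dvd_of_eq hS.symm).trans (Nat.modEq_zero_iff_dvd.mp h2))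

lemma proj_dir (k : Fin 5) : proj K (dir K k) = dirSt K k := by
  have e : ((idem K (M K) : ℤ) : ZMod (M K)) = 1 := idem_M_one.1
  fin_cases k <;> simp [proj, dir, dirSt, gS, e]

lemma prO_inO (o : Opt K) (x : ZMod (pO K o)) : prO K o (inO K o x) = x := by
  simp [prO, inO]

lemma prO_inO_ne (o t : Opt K) (h : o ≠ t) (x : ZMod (pO K t)) : prO K o (inO K t x) = 0 := by
  simp [prO, inO, h]

lemma prX_inX (x : XI) (a : ZMod (pX K x)) : prX K x (inX K x a) = a := by simp [prX, inX]
lemma prS_inS (a : ZMod K.q0) : prS K (inS K a) = a := by simp [prS, inS]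
lemma prT_inT (i : Fin 6) (a : ZMod (tm i)) : prT K i (inT K i a) = a := by simp [prT, inT]

variable {A : Set (G K)} (V : View A)

lemma twist_step {T : Type} [AddCommGroup T] {p : C K →+ T} {i : T →+ C K}
    (hpi : ∀ x, p (i x) = x) {v : D K} (h : IsEqn K (twist p i v 0)) (z : D K) :
    p (colour V (z + v)) = p (colour V z) := by
  have := (twist_holds_iff p i hpi v 0 (colour V)).mp (V.holds _ h) z
  simpa using this

lemma opt_inv {o : Opt K} {v : D K} (h : OptInv K o v) (z : D K) :
    prO K o (colour V (z + v)) = prO K o (colour V z) :=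
  twist_step V (prO_inO o) (.optInv h) z

lemma act_inv {o : Opt K} {v : D K}
    (h : ∀ z, prO K o (colour V (z + v)) = prO K o (colour V z)) (z : D K) :
    Act V o (z + v) ↔ Act V o z := by
  refine exists_congr fun m => ?_
  rw [add_right_comm z, h, add_right_comm z, h]

lemma act_perJ (o : Opt K) (z : D K) : Act V o (z + perJ K) ↔ Act V o z :=
  act_inv V (fun y => by
    show (V.mu (y + perJ K)).1 o = (V.mu y).1 o
    rw [V.mu_shift]) z

lemma act_axis (o : Opt K) (z : D K) : Act V o (z + axO K o) ↔ Act V o z := by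
  have hp : ∀ y, prO K o (colour V (y + pO K o • axO K o)) = prO K o (colour V y) :=
    opt_inv V (.period o)
  constructor
  · rintro ⟨m, hm⟩
    refine ⟨m + 1, ?_⟩
    have e1 : z + (m + 1 + 1) • axO K o = z + axO K o + (m + 1) • axO K o := by
      rw [succ_nsmul _ (m + 1)]; abel
    have e2 : z + (m + 1) • axO K o = z + axO K o + m • axO K o := by
      rw [succ_nsmul _ m]; abel
    rwa [e1, e2]
  · rintro ⟨m, hm⟩
    obtain ⟨p, hpp⟩ : ∃ p, pO K o = p + 1 := ⟨pO K o - 1, by have := three_le_pO' o; omega⟩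
    refine ⟨m + p, ?_⟩
    have e1 : z + axO K o + (m + p + 1) • axO K o
        = z + (m + 1) • axO K o + pO K o • axO K o := by
      rw [hpp]; simp only [add_nsmul, one_nsmul]; abel
    have e2 : z + axO K o + (m + p) • axO K o = z + m • axO K o + pO K o • axO K o := by
      rw [hpp]; simp only [add_nsmul, one_nsmul]; abel
    rwa [e1, e2, hp, hp]

lemma act_axis_ne {o t : Opt K} (h : t ≠ o) (z : D K) : Act V o (z + axO K t) ↔ Act V o z :=
  act_inv V (opt_inv V (.other h)) z

/-- Two options tied by a condition are not both active. -/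
lemma exclusive {o t : Opt K} (hot : o ≠ t)
    (h : IsEqn K (cond (prO K o) (prO K t) (inO K t) (axO K o) (axO K t) 0)) (z : D K)
    (ho : Act V o z) : ¬ Act V t z := by
  have hi := opt_inv V (OptInv.other (o := o) (t := t) (Ne.symm hot))
  have hj := opt_inv V (OptInv.other (o := t) (t := o) hot)
  rintro ⟨m', hm'⟩
  obtain ⟨m, hm⟩ := ho
  have hc := (cond_holds_iff (prO K o) (prO K t) (inO K t) (prO_inO t) (prO_inO_ne o t hot)
    (axO K o) (axO K t) 0 (colour V) hi hj).mp (V.holds _ h) (z + m • axO K o + m' • axO K t)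
  have hin : ∀ (j : ℕ) y, prO K o (colour V (y + j • axO K t)) = prO K o (colour V y) := fun j y =>
    inv_nsmul (g := fun w => prO K o (colour V w)) hi j y
  have hjn : ∀ (j : ℕ) y, prO K t (colour V (y + j • axO K o)) = prO K t (colour V y) := fun j y =>
    inv_nsmul (g := fun w => prO K t (colour V w)) hj j y
  rcases hc with hc | hc
  · apply hm
    rw [add_right_comm _ (m' • axO K t), hin, hin, add_assoc, ← succ_nsmul] at hc
    exact hc
  · apply hm'
    rw [add_zero, add_assoc _ _ (axO K t), ← succ_nsmul, add_right_comm z, hjn,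
      add_right_comm z, hjn] at hc
    exact hc

lemma act_some {Gs : Finset (Opt K)} {o0 : Opt K} (h0 : o0 ∈ Gs)
    (h : IsEqn K (orEqn (pO K) (axO K) (prO K) (inO K) Gs o0)) (z : D K) :
    ∃ o ∈ Gs, Act V o z :=
  or_forces (P := pO K) (u := axO K) (prO := prO K) (inO := inO K) prO_inO prO_inO_ne
    three_le_pO' h0 (fun _ _ _ _ hne y => opt_inv V (.other hne) y) (V.holds _ h) z

lemma state_exists (z : D K) : ∃ s : St K, Act V (Sum.inl s) z := by
  obtain ⟨o, ho, h⟩ := act_some V (mem_image_of_mem _ (mem_univ (0 : St K))) .orSt z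
  obtain ⟨s, -, rfl⟩ := mem_image.mp ho
  exact ⟨s, h⟩

/-- The active state. -/
def state (z : D K) : St K := (state_exists V z).choose

lemma state_act (z : D K) : Act V (Sum.inl (state V z)) z := (state_exists V z).choose_spec

/-- A class is active exactly when it is the class of the state. -/
lemma cls_act_iff (k : Fin 5) (c : Cls K k) (z : D K) :
    Act V (Opt.cls K k c) z ↔ c = QuotientAddGroup.mk (state V z) := by
  have only : ∀ c, Act V (Opt.cls K k c) z → c = QuotientAddGroup.mk (state V z) := by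
    intro c hc
    by_contra hne
    exact exclusive V (by simp [Opt.cls]) (.excl hne) z (state_act V z) hc
  refine ⟨only c, ?_⟩
  rintro rfl
  obtain ⟨o, ho, h⟩ := act_some V
    (Gs := ((Set.range (Opt.cls K k)).toFinite.toFinset)) (o0 := Opt.cls K k 0) (by simp)
    (.orCls k) z
  simp only [Set.Finite.mem_toFinset, Set.mem_range] at ho
  obtain ⟨c, rfl⟩ := ho
  rwa [← only c h]

lemma mk_state_of_inv {v : D K} {k : Fin 5}
    (h : ∀ c z, Act V (Opt.cls K k c) (z + v) ↔ Act V (Opt.cls K k c) z) (z : D K) :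
    (QuotientAddGroup.mk (state V (z + v)) : Cls K k) = QuotientAddGroup.mk (state V z) :=
  (cls_act_iff V k _ z).mp ((h _ z).mp ((cls_act_iff V k _ (z + v)).mpr rfl))

lemma state_eq {v : D K}
    (h : ∀ k c z, Act V (Opt.cls K k c) (z + v) ↔ Act V (Opt.cls K k c) z) (z : D K) :
    state V (z + v) = state V z := by
  have h0 := (QuotientAddGroup.eq.mp (mk_state_of_inv V (h 0) z))
  have h1 := (QuotientAddGroup.eq.mp (mk_state_of_inv V (h 1) z))
  obtain ⟨a, ha⟩ := AddSubgroup.mem_zmultiples_iff.mp h0
  obtain ⟨b, hb⟩ := AddSubgroup.mem_zmultiples_iff.mp h1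
  have p := congrArg Prod.fst (ha.trans hb.symm)
  simp [dirSt] at p
  have : a • dirSt K 0 = 0 := by simp [dirSt, p]
  rw [this, eq_comm, neg_add_eq_zero] at ha
  exact ha

lemma state_dir (k : Fin 5) (z : D K) :
    state V (z + dir K k) - state V z ∈ AddSubgroup.zmultiples (proj K (dir K k)) := by
  have := QuotientAddGroup.eq.mp (mk_state_of_inv V (k := k) (v := dir K k)
    (fun c y => act_inv V (opt_inv V (.line k c)) y) z)
  rw [proj_dir]
  have h2 := AddSubgroup.neg_mem _ this
  rwa [neg_add_rev, neg_neg, ← sub_eq_neg_add] at h2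

lemma state_free {v : D K} (hv : v ∈ freeVec K) (z : D K) : state V (z + v) = state V z :=
  state_eq V (fun _ _ y => act_inv V (opt_inv V (.free _ hv)) y) z

lemma state_perI (z : D K) : state V (z + perI K) = state V z :=
  state_eq V (fun _ _ y => act_inv V (opt_inv V (.perI _)) y) z

lemma state_perJ (z : D K) : state V (z + perJ K) = state V z :=
  state_eq V (fun _ _ y => act_perJ V _ y) z

/-! ### Affinity on the sublattice -/

/-- The points whose site lies in the sublattice. -/
def lattice (K : Par) : AddSubgroup (D K) where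
  carrier := {y | InL K y.1}
  zero_mem' := by simp [InL]
  add_mem' := fun {a b} ha hb => ⟨dvd_add ha.1 hb.1, dvd_add ha.2 hb.2⟩
  neg_mem' := fun {a} ha => ⟨(dvd_neg (α := ℤ)).mpr ha.1, (dvd_neg (α := ℤ)).mpr ha.2⟩

lemma dir_mem (k : Fin 5) : dir K k ∈ lattice K := by
  have h := (idem_M_one (K := K)).2
  show InL K (dir K k).1
  fin_cases k <;> simp [InL, dir, h]

lemma perI_mem : perI K ∈ lattice K := by
  refine ⟨?_, dvd_zero _⟩
  show (big K : ℤ) ∣ ((S K : ℕ) : ℤ)
  rw [S_eq]; exact Int.natCast_dvd_natCast.mpr (dvd_mul_left _ _)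

lemma perJ_mem : perJ K ∈ lattice K := by
  refine ⟨dvd_zero _, ?_⟩
  show (big K : ℤ) ∣ ((S K : ℕ) : ℤ)
  rw [S_eq]; exact Int.natCast_dvd_natCast.mpr (dvd_mul_left _ _)

lemma proj_perI : proj K (perI K) = 0 := by
  simp [proj, perI, S_eq]

lemma proj_perJ : proj K (perJ K) = 0 := by
  simp [proj, perJ, S_eq]

/-- A multiple of the big modulus is a combination of the idempotent and the period. -/
lemma big_combination {a : ℤ} (ha : (big K : ℤ) ∣ a) :
    ∃ k t : ℤ, a = k * idem K (M K) + t * ((S K : ℕ) : ℤ) := by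
  have hM : (M K : ℤ) ∣ a - a * idem K (M K) := by
    rw [← ZMod.intCast_zmod_eq_zero_iff_dvd]
    simp [idem_M_one.1]
  have hb : (big K : ℤ) ∣ a - a * idem K (M K) := dvd_sub ha (ha.mul_right _)
  obtain ⟨t, ht⟩ := (Nat.isCoprime_iff_coprime.mpr M_coprime_big).mul_dvd hM hb
  refine ⟨a, t, ?_⟩
  rw [S_eq]; push_cast
  linear_combination ht

lemma lattice_affine (y0 : Z2) : ∃ (l : ℤ) (c : St K), ∀ y g, InL K y →
    state V (y0 + y, g) = l • proj K (y, g) + c := by
  set b : D K := (y0, 0)
  let d : Fin 5 → lattice K := fun k => ⟨dir K k, dir_mem k⟩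
  let pI : lattice K := ⟨perI K, perI_mem⟩
  let pJ : lattice K := ⟨perJ K, perJ_mem⟩
  let t : Fin 6 → lattice K := fun i => ⟨(0, gT K i), by show InL K (0 : Z2); simp [InL]⟩
  set Z : Set (lattice K) := {pI, pJ} ∪ Set.range t
  have hq : K.q0 ∣ M K := by rw [M_eq]; exact ⟨16 * K.E * ∏ n, K.L n, by ring⟩
  have hd2 : d 0 + d 1 = d 2 := by ext1; simp [d, dir]
  have hd4 : d 0 + d 3 = d 4 := by ext1; simp [d, dir]
  have hgen : AddSubgroup.closure ({d 0, d 1, d 3} ∪ Z) = ⊤ := by
    rw [eq_top_iff]
    rintro ⟨⟨⟨i, j⟩, a, bt⟩, hi, hj⟩ -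
    obtain ⟨ki, ti, hi'⟩ := big_combination hi
    obtain ⟨kj, tj, hj'⟩ := big_combination hj
    dsimp only at hi' hj'
    have e : (⟨((i, j), a, bt), hi, hj⟩ : lattice K) = ki • d 0 + ti • pI + kj • d 1 + tj • pJ
        + (a.val : ℤ) • d 3 + ∑ l, ((bt l).val : ℤ) • t l := by
      ext1
      simp only [AddSubgroup.coe_add, AddSubgroup.coe_zsmul, AddSubgroup.val_finsetSum, d, pI, pJ,
        t, dir, perI, perJ]
      refine Prod.ext (Prod.ext ?_ ?_) (Prod.ext ?_ ?_)
      · simp [Prod.fst_sum, ← hi']
      · simp [Prod.fst_sum, ← hj']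
      · simp [Prod.snd_sum, Prod.fst_sum, gS, gT]
      · funext m
        simp [Prod.snd_sum, gS, gT, Finset.sum_apply]
        rw [Finset.sum_eq_single m] <;> simp +contextual
        rw [ZMod.cast_eq_val, Pi.natCast_apply, ZMod.natCast_zmod_val]
    rw [e]
    refine add_mem (add_mem (add_mem (add_mem (add_mem ?_ ?_) ?_) ?_) ?_) (sum_mem fun l _ => ?_)
    all_goals
      refine AddSubgroup.zsmul_mem _ (AddSubgroup.subset_closure ?_) _
      simp [Z]
  obtain ⟨l, c, hc⟩ := affine_of_classes hq ((proj K).comp (lattice K).subtype) (d 0) (d 1) (d 3) Z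
    (proj_dir 0) (proj_dir 1) (proj_dir 3) (by
      rintro v ((rfl | rfl) | ⟨i, rfl⟩)
      · exact proj_perI
      · exact proj_perJ
      · simp [t, proj, gT])
    hgen (fun h => state V (b + h.1)) (by
      have hk : ∀ k (h : lattice K), state V (b + (h + d k).1) - state V (b + h.1) ∈
          AddSubgroup.zmultiples (proj K (dir K k)) := fun k h => by
        rw [AddSubgroup.coe_add, ← add_assoc]
        exact state_dir V k _
      rintro v ((h | h | h | h | h) | hv) y
      · subst h; exact hk 0 y
      · subst h; exact hk 1 y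
      · subst h; exact hk 3 y
      · subst h; rw [hd2]; exact hk 2 y
      · have : v = d 0 + d 3 := h
        subst this; rw [hd4]; exact hk 4 y
      · have hz : state V (b + (y + v).1) = state V (b + y.1) := by
          rw [AddSubgroup.coe_add, ← add_assoc]
          rcases hv with (rfl | rfl) | ⟨i, rfl⟩
          · exact state_perI V _
          · exact state_perJ V _
          · exact state_free V (Or.inr ⟨i, rfl⟩) _
        rw [hz, sub_self]
        exact zero_mem _)
  refine ⟨l, c, fun y g hy => ?_⟩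
  have := hc ⟨(y, g), hy⟩
  simpa [b] using this

/-! ### Slopes -/

lemma slope_of_cond {T : Type} [AddCommGroup T] (o : Opt K) {p : C K →+ T} {i : T →+ C K}
    (hpi : ∀ x, p (i x) = x) (hoi : ∀ x, prO K o (i x) = 0) {v : D K} {κ : T}
    (hv : ∀ y, prO K o (colour V (y + v)) = prO K o (colour V y))
    (hu : ∀ y, p (colour V (y + axO K o)) = p (colour V y))
    (h : IsEqn K (cond (prO K o) p i (axO K o) v κ)) {z : D K} (ho : Act V o z) :
    p (colour V (z + v)) = p (colour V z) + κ := by
  obtain ⟨m, hm⟩ := ho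
  have hc := (cond_holds_iff (prO K o) p i hpi hoi (axO K o) v κ (colour V) hv hu).mp
    (V.holds _ h) (z + m • axO K o)
  have hun : ∀ (j : ℕ) y, p (colour V (y + j • axO K o)) = p (colour V y) := fun j y =>
    inv_nsmul (g := fun w => p (colour V w)) hu j y
  rcases hc with hc | hc
  · rw [add_assoc, ← succ_nsmul] at hc
    exact absurd hc hm
  · rwa [add_right_comm, hun, hun] at hc

lemma slopeS_congr {s s' : St K} (h : s.1 = s'.1) : slopeS K s = slopeS K s' := by
  obtain ⟨a, b⟩ := s
  obtain ⟨a', b'⟩ := s'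
  subst h
  rfl

lemma slopes : Slopes V (state V) := by
  refine ⟨fun z => ?_, fun z i => ?_, fun z x => ?_⟩
  · set c : Cls K 3 := QuotientAddGroup.mk (state V z)
    have hact : Act V (Opt.cls K 3 c) z := (cls_act_iff V 3 c z).mpr rfl
    have h := slope_of_cond V (Opt.cls K 3 c) (prS_inS (K := K)) (fun x => by simp [prO, inS])
      (fun y => by
        have := opt_inv V (.line 3 c) y
        simpa [dir] using this)
      (fun y => twist_step V prS_inS (.sInv (.all (.axis _))) y) (.slopeS c) hact
    have e : slopeS K (Quotient.out c) = slopeS K (state V z) := by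
      refine slopeS_congr ?_
      have hq : (QuotientAddGroup.mk (Quotient.out c) : Cls K 3)
          = QuotientAddGroup.mk (state V z) := Quotient.out_eq c
      obtain ⟨a, ha⟩ := AddSubgroup.mem_zmultiples_iff.mp (QuotientAddGroup.eq.mp hq)
      have := congrArg Prod.fst ha
      simp [dirSt] at this
      exact neg_add_eq_zero.mp this.symm
    rw [← e]
    exact h
  · exact slope_of_cond V (Sum.inl (state V z)) (prT_inT i) (fun x => by simp [prO, inT])
      (opt_inv V (.free _ (Or.inr ⟨i, rfl⟩)))
      (fun y => twist_step V (prT_inT i) (.tInv (.all i (.axis _))) y) (.slopeT _ i) (state_act V z)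
  · exact slope_of_cond V (Sum.inl (state V z)) (prX_inX x) (fun a => by simp [prO, inX])
      (opt_inv V (.free _ (Or.inl ⟨x, rfl⟩)))
      (fun y => twist_step V (prX_inX x) (.xInv (.axis x _)) y) (.slopeX _ x) (state_act V z)

end Engine

/-- Every view has states. -/
theorem exists_states {A : Set (G K)} (V : View A) : Nonempty (States V) :=
  ⟨⟨Engine.state V, Engine.lattice_affine V, fun _ hv z => Engine.state_free V hv z,
    Engine.slopes V⟩⟩

end

end Vale.Agent.P043.Z3
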