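/-
P043: from a system on `ℤ² × cyclic` to one tile in every dimension at least three.
-/
import Vale.Agent.P043.Lift

namespace Vale.Agent.P043.Z3

open Function Finset

variable {K : Type} [AddCommGroup K] {n : ℕ}

/-- The covering map from `ℤ × ℤ²`. -/
noncomputable def cover3 (e : ZMod n ≃+ K) : ℤ × (ℤ × ℤ) →+ (ℤ × ℤ) × K where
  toFun x := ((x.1, x.2.1), e (x.2.2 : ZMod n))
  map_zero' := by simp
  map_add' x y := by simp [map_add]

theorem three_sysBad (e : ZMod n ≃+ K) (h : SysBad ((ℤ × ℤ) × K)) : SysBad (ℤ × (ℤ × ℤ)) := by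
  classical
  refine sysBad_pullback (cover3 e) ?_ {((0, (0, (n : ℤ))) : ℤ × (ℤ × ℤ))} ?_ ?_ h
  · rintro ⟨⟨i, j⟩, k⟩
    obtain ⟨w, hw⟩ := ZMod.intCast_surjective (e.symm k)
    exact ⟨(i, (j, w)), by simp [cover3, hw]⟩
  · intro k hk
    obtain rfl := mem_singleton.mp hk
    simp [cover3]
  · rintro ⟨i, j, w⟩ hx
    simp only [cover3, AddMonoidHom.coe_mk, ZeroHom.coe_mk, Prod.ext_iff, Prod.fst_zero,
      Prod.snd_zero, EmbeddingLike.map_eq_zero_iff] at hx
    obtain ⟨⟨rfl, rfl⟩, hw⟩ := hx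
    obtain ⟨a, ha⟩ := (ZMod.intCast_zmod_eq_zero_iff_dvd w n).mp hw
    have e1 : ((0, (0, w)) : ℤ × (ℤ × ℤ)) = a • ((0, (0, (n : ℤ))) : ℤ × (ℤ × ℤ)) := by
      simp [ha, mul_comm]
    rw [e1]
    exact AddSubgroup.zsmul_mem _ (AddSubgroup.subset_closure (by simp)) a

/-- Coordinates on `ℤ^(3+m)`. -/
def coords3 (m : ℕ) : (ℤ × (ℤ × ℤ)) × (Fin m → ℤ) ≃+ (Fin (3 + m) → ℤ) where
  toFun p := Fin.append ![p.1.1, p.1.2.1, p.1.2.2] p.2
  invFun v := ((v (Fin.castAdd m 0), v (Fin.castAdd m 1), v (Fin.castAdd m 2)),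
    fun i => v (Fin.natAdd 3 i))
  left_inv p := by
    obtain ⟨⟨a, b, c⟩, y⟩ := p
    simp [Fin.append_left, Fin.append_right]
  right_inv v := by
    funext i
    induction i using Fin.addCases with
    | left k => fin_cases k <;> simp [Fin.append_left]
    | right k => simp [Fin.append_right]
  map_add' p q := by
    funext i
    induction i using Fin.addCases with
    | left k => fin_cases k <;> simp [Fin.append_left]
    | right k => simp [Fin.append_right]

/-- One tile in every dimension at least three. -/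
theorem oneBad_dim3 (e : ZMod n ≃+ K) (h : SysBad ((ℤ × ℤ) × K)) (d : ℕ) (hd : 3 ≤ d) :
    OneBad (Fin d → ℤ) := by
  classical
  obtain ⟨m, rfl⟩ := Nat.exists_eq_add_of_le hd
  refine oneBad_equiv (coords3 m) (oneBad_prod (oneBad_stack {((1, 0) : ℤ × ℤ), (0, 1)} ?_
    (three_sysBad e h)))
  rw [eq_top_iff]
  rintro ⟨a, b⟩ -
  have e1 : ((a, b) : ℤ × ℤ) = a • ((1, 0) : ℤ × ℤ) + b • ((0, 1) : ℤ × ℤ) := by simp
  rw [e1]
  exact add_mem (AddSubgroup.zsmul_mem _ (AddSubgroup.subset_closure (by simp)) a)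
    (AddSubgroup.zsmul_mem _ (AddSubgroup.subset_closure (by simp)) b)

/-- A product of two cyclic groups of coprime order is cyclic. -/
noncomputable def cycProd {a b : ℕ} {L : Type} [AddCommGroup L] (h : Nat.Coprime a b)
    (e : ZMod a ≃+ K) (f : ZMod b ≃+ L) : ZMod (a * b) ≃+ K × L :=
  (ZMod.chineseRemainder h).toAddEquiv.trans (e.prodCongr f)

/-- A family of pairwise coprime cyclic groups is cyclic. -/
noncomputable def cycPi {ι : Type} [Fintype ι] (a : ι → ℕ)
    (h : Pairwise fun i j => Nat.Coprime (a i) (a j)) : ZMod (∏ i, a i) ≃+ (∀ i, ZMod (a i)) :=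
  (ZMod.prodEquivPi a h).toAddEquiv

end Vale.Agent.P043.Z3
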