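/-
P043, dimension three: a periodic grid of states is impossible; hence one tile in every dimension
at least three.
-/
import Vale.Agent.P043.Z3.Eqs
import Vale.Agent.P043.Z3.Final

namespace Vale.Agent.P043.Z3

open Function Finset

noncomputable section

/-- States on a plane whose digits are constant along their lines, whose clocks are constant along
their directions, and whose first clock alternates in parity. -/
structure GridOK (t : Z2 → P043.St) : Prop where
  digit : ∀ (n : Fin 4096) (x : Z2),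
    (t (x + (-(n.val : ℤ), 1))).1.2.2 n = (t x).1.2.2 n
  clock : ∀ (w : Fin 3) (x : Z2), kval (t (x + kdir w)) w = kval (t x) w
  parity : ∀ x : Z2, par0 (t (x + (1, 0))) = par0 (t x) + 1

lemma inv_zsmul {β : Type*} (F : Z2 → β) (v : Z2) (h : ∀ x, F (x + v) = F x) (m : ℤ) (x : Z2) :
    F (x + m • v) = F x := by
  induction m using Int.induction_on with
  | zero => simp
  | succ i ih => rw [add_smul, one_smul, ← add_assoc, h]; exact ih
  | pred i ih =>
    rw [← h, add_assoc]
    convert ih using 3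
    rw [sub_smul, one_smul, sub_add_cancel]

/-- Such a plane is not periodic in the first coordinate. -/
theorem gridOK_not_periodic {t : Z2 → P043.St} (h : GridOK t) {P : ℕ} (hP : 0 < P)
    (hper : ∀ x : Z2, t (x + ((P : ℤ), 0)) = t x) : False := by
  classical
  set v : ℕ → ℤ → R64 := fun n k => if hn : n < 4096 then (t (k, 0)).1.2.2 ⟨n, hn⟩ else 0
  have hv : ∀ (n : Fin 4096) (i j : ℤ), (t (i, j)).1.2.2 n = v n (i + n * j) := by
    intro n i j
    have e := inv_zsmul (fun x => (t x).1.2.2 n) (-(n.val : ℤ), 1) (h.digit n) j (i + n.val * j, 0)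
    simp only [Prod.smul_mk, Prod.mk_add_mk, smul_eq_mul, mul_neg, mul_one, zero_add] at e
    rw [show i + (n.val : ℤ) * j + -(j * (n.val : ℤ)) = i by ring] at e
    simp only [v, n.isLt, dif_pos]
    exact e
  have k0 : ∀ i j : ℤ, (t (i, j)).1.1 = (t (i, 0)).1.1 := by
    intro i j
    have e := inv_zsmul (fun x => kval (t x) 0) (kdir 0) (h.clock 0) j (i, 0)
    simpa [kval, kdir] using e
  have k1 : ∀ i j : ℤ, (t (i, j)).1.1 + (t (i, j)).1.2.1 =
      (t (i + j, 0)).1.1 + (t (i + j, 0)).1.2.1 := by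
    intro i j
    have e := inv_zsmul (fun x => kval (t x) 1) (kdir 1) (h.clock 1) j (i + j, 0)
    simpa [kval, kdir] using e
  have k2 : ∀ i j : ℤ, (t (i, j)).1.2.1 = (t (0, j)).1.2.1 := by
    intro i j
    have e := inv_zsmul (fun x => kval (t x) 2) (kdir 2) (h.clock 2) i (0, j)
    simpa [kval, kdir] using e
  refine no_periodic_sudoku v (fun i => (t (i, 0)).1.1)
    (fun m => (t (m, 0)).1.1 + (t (m, 0)).1.2.1) (fun j => (t (0, j)).1.2.1) ?_ ?_ ?_ P hP ?_
  · intro i j
    rw [← k0 i j, ← k2 i j, k1 i j]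
  · intro i i' e
    subst e
    have hp := h.parity (i, 0)
    rw [Prod.mk_add_mk, add_zero] at hp
    show par2 ((t (i + 1, 0)).1.1 - (t (i, 0)).1.1) = 1
    unfold par0 at hp
    unfold par2 at hp ⊢
    rw [map_sub, hp, add_sub_cancel_left]
  · intro i j
    obtain ⟨a, b, hp, hc, hab⟩ := (t (i, j)).2
    refine ⟨a, b, hp, fun n hn hnd => ?_, ?_⟩
    · rw [← hv ⟨n, hn⟩ i j]
      exact hc ⟨n, hn⟩ hnd
    · show ¬ ((t (i, 0)).1.1 = 0 ∧ (t (0, j)).1.2.1 = 0) → _
      rw [← k0 i j, ← k2 i j]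
      exact hab
  · intro n hn k
    simp only [v, dif_pos hn]
    have e := hper (k, 0)
    rw [Prod.mk_add_mk, add_zero] at e
    rw [e]

/-! ### The system is finite and all tiles are nonempty -/

variable (K : Par)

/-- All vectors used by the invariance lists. -/
def invVec : Set (D K) :=
  Set.range (axO K) ∪ Set.range (fun o => pO K o • axO K o) ∪ freeVec K ∪ Set.range (dir K) ∪
    {perI K, site K (step1 K), ((0, gS K) : D K)} ∪
    Set.range (fun p : Att × Fin 3 => site K (labV K p.1 p.2))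

lemma invVec_finite : (invVec K).Finite := by
  refine Set.Finite.union (Set.Finite.union (Set.Finite.union (Set.Finite.union
    (Set.Finite.union (Set.finite_range _) (Set.finite_range _)) ?_) (Set.finite_range _)) ?_)
    (Set.finite_range _)
  · exact (Set.finite_range _).union (Set.finite_range _)
  · exact Set.toFinite _

/-- The lists used. -/
def eqnSet : Set (E3 K) :=
  (fun p : Opt K × D K => twist (prO K p.1) (inO K p.1) p.2 0) '' (Set.univ ×ˢ invVec K) ∪
  (fun p : XI × D K => twist (prX K p.1) (inX K p.1) p.2 0) '' (Set.univ ×ˢ invVec K) ∪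
  (fun v : D K => twist (prS K) (inS K) v 0) '' invVec K ∪
  (fun p : Fin 6 × D K => twist (prT K p.1) (inT K p.1) p.2 0) '' (Set.univ ×ˢ invVec K) ∪
  {L | IsEqn K L ∧ L = orEqn (pO K) (axO K) (prO K) (inO K) (univ.image Sum.inl) (Sum.inl 0)} ∪
  Set.range (fun k : Fin 5 => orEqn (pO K) (axO K) (prO K) (inO K)
        ((Set.range (Opt.cls K k)).toFinite.toFinset) (Opt.cls K k 0)) ∪
  Set.range (fun p : St K × (Σ k : Fin 5, Cls K k) =>
      cond (prO K (Sum.inl p.1)) (prO K (Opt.cls K p.2.1 p.2.2)) (inO K (Opt.cls K p.2.1 p.2.2))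
        (axO K (Sum.inl p.1)) (axO K (Opt.cls K p.2.1 p.2.2)) 0) ∪
  Set.range (fun c : Cls K 3 =>
      cond (prO K (Opt.cls K 3 c)) (prS K) (inS K) (axO K (Opt.cls K 3 c)) (0, gS K)
        (slopeS K (Quotient.out c))) ∪
  Set.range (fun p : St K × Fin 6 =>
      cond (prO K (Sum.inl p.1)) (prT K p.2) (inT K p.2) (axO K (Sum.inl p.1)) (0, gT K p.2)
        (slopeT K p.1 p.2)) ∪
  Set.range (fun p : St K × XI =>
      cond (prO K (Sum.inl p.1)) (prX K p.2) (inX K p.2) (axO K (Sum.inl p.1)) (eX K p.2)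
        (psi K p.1 p.2 : ZMod (pX K p.2)))

lemma inv_axO_mem (o : Opt K) : axO K o ∈ invVec K :=
  Or.inl (Or.inl (Or.inl (Or.inl (Or.inl ⟨o, rfl⟩))))

lemma inv_pO_mem (o : Opt K) : pO K o • axO K o ∈ invVec K :=
  Or.inl (Or.inl (Or.inl (Or.inl (Or.inr ⟨o, rfl⟩))))

lemma inv_free_mem {v : D K} (h : v ∈ freeVec K) : v ∈ invVec K :=
  Or.inl (Or.inl (Or.inl (Or.inr h)))

lemma inv_eX_mem (x : XI) : eX K x ∈ invVec K := inv_free_mem K (Or.inl ⟨x, rfl⟩)

lemma inv_gT_mem (i : Fin 6) : ((0, gT K i) : D K) ∈ invVec K := inv_free_mem K (Or.inr ⟨i, rfl⟩)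

lemma inv_dir_mem (k : Fin 5) : dir K k ∈ invVec K := Or.inl (Or.inl (Or.inr ⟨k, rfl⟩))

lemma inv_perI_mem : perI K ∈ invVec K := Or.inl (Or.inr (Or.inl rfl))

lemma inv_half_mem : site K (step1 K) ∈ invVec K := Or.inl (Or.inr (Or.inr (Or.inl rfl)))

lemma inv_gS_mem : ((0, gS K) : D K) ∈ invVec K := Or.inl (Or.inr (Or.inr (Or.inr rfl)))

lemma inv_labV_mem (n : Att) (j : Fin 3) : site K (labV K n j) ∈ invVec K := Or.inr ⟨(n, j), rfl⟩

lemma inv_optInv_mem {o : Opt K} {v : D K} (h : OptInv K o v) : v ∈ invVec K := by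
  cases h with
  | other _ => exact inv_axO_mem K _
  | period => exact inv_pO_mem K _
  | perI => exact inv_perI_mem K
  | free _ hv => exact inv_free_mem K hv
  | line k c => exact inv_dir_mem K k

lemma inv_xInv_mem {x : XI} {v : D K} (h : XInv K x v) : v ∈ invVec K := by
  cases h with
  | perI => exact inv_perI_mem K
  | axis _ o => exact inv_axO_mem K o
  | other _ => exact inv_eX_mem K _
  | tagS n j => exact inv_gS_mem K
  | tagT n j i => exact inv_gT_mem K i
  | line n j => exact inv_labV_mem K n j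

lemma inv_posInv_mem {v : D K} (h : PosInv K v) : v ∈ invVec K := by
  cases h with
  | perI => exact inv_perI_mem K
  | half => exact inv_half_mem K
  | axis o => exact inv_axO_mem K o
  | ex x => exact inv_eX_mem K x

lemma inv_sInv_mem {v : D K} (h : SInv K v) : v ∈ invVec K := by
  cases h with
  | all h => exact inv_posInv_mem K h
  | tag _ => exact inv_gT_mem K _

lemma inv_tInv_mem {i : Fin 6} {v : D K} (h : TInv K i v) : v ∈ invVec K := by
  cases h with
  | all _ h => exact inv_posInv_mem K h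
  | tagS _ => exact inv_gS_mem K
  | tag _ => exact inv_gT_mem K _

lemma isEqn_mem {L : E3 K} (h : IsEqn K L) : L ∈ eqnSet K := by
  cases h with
  | @optInv o v h =>
    exact Or.inl (Or.inl (Or.inl (Or.inl (Or.inl (Or.inl (Or.inl (Or.inl (Or.inl
      ⟨(o, v), ⟨trivial, inv_optInv_mem K h⟩, rfl⟩))))))))
  | @xInv x v h =>
    exact Or.inl (Or.inl (Or.inl (Or.inl (Or.inl (Or.inl (Or.inl (Or.inl (Or.inr
      ⟨(x, v), ⟨trivial, inv_xInv_mem K h⟩, rfl⟩))))))))
  | @sInv v h =>
    exact Or.inl (Or.inl (Or.inl (Or.inl (Or.inl (Or.inl (Or.inl (Or.inr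
      ⟨v, inv_sInv_mem K h, rfl⟩)))))))
  | @tInv i v h =>
    exact Or.inl (Or.inl (Or.inl (Or.inl (Or.inl (Or.inl (Or.inr
      ⟨(i, v), ⟨trivial, inv_tInv_mem K h⟩, rfl⟩))))))
  | orSt => exact Or.inl (Or.inl (Or.inl (Or.inl (Or.inl (Or.inr ⟨IsEqn.orSt, rfl⟩)))))
  | orCls k => exact Or.inl (Or.inl (Or.inl (Or.inl (Or.inr ⟨k, rfl⟩))))
  | @excl s k c _ => exact Or.inl (Or.inl (Or.inl (Or.inr ⟨(s, ⟨k, c⟩), rfl⟩)))
  | slopeS c => exact Or.inl (Or.inl (Or.inr ⟨c, rfl⟩))
  | slopeT s i => exact Or.inl (Or.inr ⟨(s, i), rfl⟩)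
  | slopeX s x => exact Or.inr ⟨(s, x), rfl⟩

lemma isEqn_finite : {L : E3 K | IsEqn K L}.Finite := by
  refine Set.Finite.subset ?_ fun L hL => isEqn_mem K hL
  have hV := invVec_finite K
  have h0 : {L : E3 K | IsEqn K L ∧
      L = orEqn (pO K) (axO K) (prO K) (inO K) (univ.image Sum.inl) (Sum.inl 0)}.Finite :=
    (Set.finite_singleton _).subset fun L hL => hL.2
  exact (((((((((Set.finite_univ.prod hV).image _).union ((Set.finite_univ.prod hV).image _)).union
    (hV.image _)).union ((Set.finite_univ.prod hV).image _)).union h0).union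
    (Set.finite_range _)).union (Set.finite_range _)).union (Set.finite_range _)).union
    (Set.finite_range _) |>.union (Set.finite_range _)

lemma isTile_finite : {F : Finset (G K) | IsTile K F}.Finite := by
  have h : ({winT0 K, splitTile (chain (colStep K) (Q K)) (keyTag K) (colMu K) (colStep K) 0,
      winH K, winC K} ∪ eqnTile K '' {L : E3 K | IsEqn K L} ∪ Set.range (winN K) ∪
      Set.range (fun n : Att =>
        keyTile (moved (window K (mn K n) true FN) (cols K true FN) (step1 K)) (keyN K n)) ∪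
      Set.range (fun n : Att =>
        keyTile (moved (window K (mn K n) true FN) (cols K true FN) (step2 K)) (keyN K n)) ∪
      Set.range (fun p : Att × Fin 3 =>
        splitTile (window K (mn K p.1) true FN) (keyN K p.1) (colX K (.inr p)) (labV K p.1 p.2)
          (labShift K p.1 p.2)) ∪
      ⋃ n : Att, (fun x => splitTile (window K (mn K n) true FN) (keyN K n) (colX K (.inl n))
          (macroV K x) 0) '' (rdDir n : Set Z2) : Set (Finset (G K))).Finite :=
    ((((((Set.toFinite _).union ((isEqn_finite K).image _)).union (Set.finite_range _)).union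
      (Set.finite_range _)).union (Set.finite_range _)).union (Set.finite_range _)).union
      (Set.finite_iUnion fun n => (rdDir n).finite_toSet.image _)
  refine h.subset fun F hF => ?_
  cases hF with
  | @eqn L hL => simp only [Set.mem_union]; iterate 5 left
                 right; exact ⟨L, hL, rfl⟩
  | lab n j => exact Or.inl (Or.inr ⟨(n, j), rfl⟩)
  | @read n x hx => exact Or.inr (Set.mem_iUnion.2 ⟨n, x, hx, rfl⟩)
  | win n => simp only [Set.mem_union]; iterate 4 left
             right; exact ⟨n, rfl⟩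
  | move1 n => simp only [Set.mem_union]; iterate 3 left
               right; exact ⟨n, rfl⟩
  | move2 n => simp only [Set.mem_union]; iterate 2 left
               right; exact ⟨n, rfl⟩
  | _ => simp only [Set.mem_union]; iterate 6 left
         simp

lemma zero_mem_cols (fixS : Bool) (F : Finset (Fin 6)) : (0 : Z2) ∈ cols K fixS F := by
  simp only [cols, mem_image, mem_filter, mem_range]
  exact ⟨0, ⟨NeZero.pos _, by simp⟩, by simp⟩

lemma zero_mem_window {m : ℕ} (hm : 0 < m) (fixS : Bool) (F : Finset (Fin 6)) :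
    (0 : Z2) ∈ window K m fixS F := by
  simp only [window, mem_image, mem_product, rows, mem_range]
  exact ⟨(0, 0), ⟨⟨0, hm, by simp⟩, zero_mem_cols K fixS F⟩, by simp⟩

lemma mn_pos_glue (n : Att) : 0 < mn K n := Nat.mul_pos K.E_prime.pos (K.L_prime n).pos

lemma listTile_nonempty {W T U K' : Type*} [AddCommGroup W] [AddCommGroup T] [AddCommGroup U]
    [AddCommGroup K'] [Fintype K'] [Fintype U] {Q : ℕ} [NeZero Q] (S : W) {τ : K' →+ T}
    {μ : K' →+ U} (h : ∀ g κ, ∃ c, τ c = g ∧ μ c = κ) (L : Eqn (W × T) (U × ZMod Q)) :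
    (listTile S τ μ L).Nonempty := by
  obtain ⟨c, h1, h2⟩ := h (-(L.δ 0).2) (L.e 0).1
  exact ⟨((L.e 0).2.val • S - (L.δ 0).1, c), mem_listTile.2 ⟨0, rfl, h1, h2⟩⟩

lemma window_key_nonempty {V : Type} [AddCommGroup V] {m : ℕ} (hm : 0 < m) (fixS : Bool)
    (F : Finset (Fin 6)) (key : Col K →+ V) : (keyTile (window K m fixS F) key).Nonempty :=
  ⟨(-0, 0), mem_keyTile.2 ⟨by simpa using zero_mem_window K hm fixS F, map_zero key⟩⟩

lemma isTile_nonempty {F : Finset (G K)} (h : IsTile K F) : F.Nonempty := by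
  have hkey : ∀ {V : Type} [AddCommGroup V] (Δ : Finset Z2) (key : Col K →+ V) (z : Z2), z ∈ Δ →
      (keyTile Δ key).Nonempty := fun Δ key z hz =>
    ⟨(-z, 0), mem_keyTile.2 ⟨by simpa using hz, map_zero key⟩⟩
  have hch : (0 : Z2) ∈ chain (colStep K) (Q K) := mem_chain.2 ⟨0, NeZero.pos _, by simp⟩
  cases h with
  | tag => exact hkey _ _ 0 hch
  | mu => exact ⟨(-colStep K, 0), mem_splitTile.2 (Or.inr ⟨by simpa using hch, map_zero _, map_zero _⟩)⟩
  | @eqn L _ => exact listTile_nonempty _ (fun g κ => ⟨(g, κ, 0), rfl, rfl⟩) _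
  | seedH => exact window_key_nonempty K (Nat.succ_pos 15) false FH (keyH K)
  | seedC => exact window_key_nonempty K K.q0_prime.pos true FC (keyC K)
  | win n => exact window_key_nonempty K (mn_pos_glue K n) true FN (keyN K n)
  | move1 n =>
    exact hkey _ _ (0 + step1 K)
      (mem_union_right _ (mem_image_of_mem _ (zero_mem_cols K _ _)))
  | move2 n =>
    exact hkey _ _ (0 + step2 K)
      (mem_union_right _ (mem_image_of_mem _ (zero_mem_cols K _ _)))
  | lab n j =>
    set k := labShift K n j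
    refine ⟨(-labV K n j, (((0, fun i => if h : i ∈ FN then 0 else k.2 ⟨i, h⟩), 0,
      (0, k.1.1, fun _ => 0)) : Col K) + ((0, 0, (0, 0, Pi.single n k.1.2)) : Col K)),
      mem_splitTile.2 (Or.inr ⟨by simpa using zero_mem_window K (mn_pos_glue K n) true FN, ?_, ?_⟩)⟩
    · refine Prod.ext (Prod.ext ?_ ?_) (funext fun i => ?_)
      · simp [keyN]
      · simp [keyN]
      · simp [keyN, keyT, i.2]
    · simp [colX]
  | @read n x hx =>
    exact ⟨(-macroV K x, 0), mem_splitTile.2 (Or.inr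
      ⟨by simpa using zero_mem_window K (mn_pos_glue K n) true FN, map_zero _, map_zero _⟩)⟩

/-! ### Assembly -/

/-- The system is bad, given a solution and the grid of every solution. -/
theorem sysBad_of_grid (hex : ∃ A, Good K A)
    (hgrid : ∀ A, Good K A → ∃ t : Z2 → P043.St, GridOK t ∧
      ∀ P : ℕ, PerBy A P → ∀ x : Z2, t (x + ((P : ℤ), 0)) = t x) :
    SysBad (G K) := by
  refine ⟨(isTile_finite K).toFinset,
    ⟨winT0 K, (isTile_finite K).mem_toFinset.2 IsTile.tag⟩,
    fun F hF => isTile_nonempty K ((isTile_finite K).mem_toFinset.1 hF), ?_, fun A hA P hP hper => ?_⟩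
  · obtain ⟨A, hA⟩ := hex
    exact ⟨A, fun F hF => hA F ((isTile_finite K).mem_toFinset.1 hF)⟩
  · obtain ⟨t, ht, hp⟩ := hgrid A fun F hF => hA F ((isTile_finite K).mem_toFinset.2 hF)
    exact gridOK_not_periodic ht hP (hp P hper)

/-- One tile in every dimension at least three. -/
theorem oneBad_of_grid (hcyc : IsAddCyclic (Col K)) (hex : ∃ A, Good K A)
    (hgrid : ∀ A, Good K A → ∃ t : Z2 → P043.St, GridOK t ∧
      ∀ P : ℕ, PerBy A P → ∀ x : Z2, t (x + ((P : ℤ), 0)) = t x)
    (d : ℕ) (hd : 3 ≤ d) : OneBad (Fin d → ℤ) :=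
  oneBad_dim3 (zmodAddCyclicAddEquiv hcyc) (sysBad_of_grid K hex hgrid) d hd

/-- The discrete conjecture fails in every dimension at least three. -/
theorem noPeriodic_of_grid (hcyc : IsAddCyclic (Col K)) (hex : ∃ A, Good K A)
    (hgrid : ∀ A, Good K A → ∃ t : Z2 → P043.St, GridOK t ∧
      ∀ P : ℕ, PerBy A P → ∀ x : Z2, t (x + ((P : ℤ), 0)) = t x)
    (d : ℕ) (hd : 3 ≤ d) : ∃ F : Finset (Fin d → ℤ), F.Nonempty ∧
      (∃ A : Set (Fin d → ℤ), ∀ g : Fin d → ℤ,
        ∃! p : (Fin d → ℤ) × (Fin d → ℤ), p.1 ∈ A ∧ p.2 ∈ F ∧ p.1 + p.2 = g) ∧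
      ∀ A : Set (Fin d → ℤ),
        (∀ g : Fin d → ℤ,
          ∃! p : (Fin d → ℤ) × (Fin d → ℤ), p.1 ∈ A ∧ p.2 ∈ F ∧ p.1 + p.2 = g) →
        ¬ ∃ L : AddSubgroup (Fin d → ℤ), L.index ≠ 0 ∧ ∀ h ∈ L, ∀ x, (x + h ∈ A ↔ x ∈ A) := by
  obtain ⟨F, hF, hex', hno⟩ := oneBad_of_grid K hcyc hex hgrid d hd
  refine ⟨F, hF, hex', fun A hA ⟨L, hL, hinv⟩ => ?_⟩
  exact hno A hA L.index (Nat.pos_of_ne_zero hL)
    fun x z => hinv _ (AddSubgroup.nsmul_index_mem L z) x

end

end Vale.Agent.P043.Z3
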