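/-
P043, dimension three: key sets of the windows, the selected tag of a spike site, and the grid of
states it carries.
-/
import Vale.Agent.P043.Z3.Iface

namespace Vale.Agent.P043.Z3

open Function Finset

noncomputable section

/-- A grid of Sudoku states read from a tiled set. -/
structure Grid {K : Par} (A : Set (G K)) where
  t : ℤ × ℤ → P043.St
  dig : ∀ (n : Fin 4096) x, (t (x + (-(n.val : ℤ), 1))).1.2.2 n = (t x).1.2.2 n
  clk : ∀ (w : Fin 3) x, kval (t (x + kdir w)) w = kval (t x) w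
  par : ∀ x, par0 (t (x + (1, 0))) = par0 (t x) + 1
  per : ∀ P, PerBy A P → ∀ x, t (x + ((P : ℤ), 0)) = t x

namespace Keys

variable {K : Par}

/-! ### Arithmetic of the moduli -/

lemma M_pos : 0 < M K := Nat.pos_of_ne_zero (NeZero.ne _)

lemma E_dvd : K.E ∣ M K := by rw [M_eq]; exact (dvd_mul_left _ _).mul_right _

lemma q0_dvd : K.q0 ∣ M K := by
  rw [M_eq]; exact ((dvd_mul_left _ _).mul_right _).mul_right _

lemma L_dvd (n : Att) : K.L n ∣ M K := by
  rw [M_eq]; exact (dvd_prod_of_mem _ (mem_univ n)).mul_left _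

lemma sixteen_dvd : 16 ∣ M K := by
  rw [M_eq]; exact ((dvd_mul_right _ _).mul_right _).mul_right _

lemma M_le_bound : M K ≤ bound K := by
  rw [bound_eq]
  exact le_trans (by omega) (Nat.le_self_pow (by norm_num) _)

lemma bound_le_pX (x : XI) : bound K ≤ pX K x := by
  unfold pX
  exact le_trans (Nat.le_add_right _ _) ((Nat.nth_strictMono Nat.infinite_setOf_prime).id_le _)

lemma bound_le_pO (o : Opt K) : bound K ≤ pO K o := by
  unfold pO
  exact le_trans (le_trans (Nat.le_add_right _ _) (Nat.le_add_right _ _))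
    ((Nat.nth_strictMono Nat.infinite_setOf_prime).id_le _)

lemma coprime_big {p : ℕ} (hp : p.Prime) (hd : p ∣ M K) : p.Coprime (big K) := by
  have h1 : p ≤ M K := Nat.le_of_dvd M_pos hd
  have h2 : M K < (M K * M K * Q K * Q K + M K + Q K + 100) ^ 2 :=
    lt_of_lt_of_le (by omega) (Nat.le_self_pow (by norm_num) _)
  rw [← bound_eq] at h2
  refine Nat.Coprime.mul_right (Nat.Coprime.prod_right fun x _ => ?_)
    (Nat.Coprime.prod_right fun o _ => ?_)
  · exact (Nat.coprime_primes hp (pX_prime K x)).mpr (by have := bound_le_pX (K := K) x; omega)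
  · exact (Nat.coprime_primes hp (pO_prime K o)).mpr (by have := bound_le_pO (K := K) o; omega)

lemma sixteen_coprime {p : ℕ} (hp : p.Prime) (h : 2 < p) : Nat.Coprime 16 p :=
  Nat.Coprime.pow_left 4 ((Nat.coprime_primes Nat.prime_two hp).mpr (by omega))

lemma q0_lt_L (n : Att) : K.q0 < K.L n := K.L_big n

lemma big_coprime : Nat.Coprime (M K) (big K) := by
  rw [M_eq]
  refine Nat.Coprime.mul_left (Nat.Coprime.mul_left (Nat.Coprime.mul_left ?_ ?_) ?_)
    (Nat.Coprime.prod_left fun n _ => coprime_big (K.L_prime n) (L_dvd n))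
  · exact Nat.Coprime.pow_left 4
      (coprime_big Nat.prime_two (dvd_trans (by norm_num) sixteen_dvd))
  · exact coprime_big K.q0_prime q0_dvd
  · exact coprime_big K.E_prime E_dvd

variable (K) in
/-- The cofactor of a readout modulus. -/
def cof (n : Att) : ℕ := 16 * K.q0 * (∏ m ∈ univ.erase n, K.L m) * big K

lemma S_mn (n : Att) : S K = mn K n * cof K n := by
  rw [S_eq, M_eq, cof, mn, ← mul_prod_erase univ K.L (mem_univ n)]
  ring

lemma EL_coprime (n : Att) : Nat.Coprime K.E (K.L n) :=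
  (Nat.coprime_primes K.E_prime (K.L_prime n)).mpr (K.E_L n)

lemma mn_coprime (n : Att) : Nat.Coprime (mn K n) (cof K n) := by
  have hq := K.q0_big
  have hE := K.q0_E
  have hL := K.L_big
  have h1 : ∀ p : ℕ, p.Prime → 2 < p → p ≠ K.q0 → (∀ m ≠ n, p ≠ K.L m) → p ∣ M K →
      p.Coprime (cof K n) := by
    intro p hp h2 hq' hL' hd
    refine Nat.Coprime.mul_right (Nat.Coprime.mul_right (Nat.Coprime.mul_right ?_ ?_) ?_)
      (coprime_big hp hd)
    · exact (sixteen_coprime hp h2).symm
    · exact (Nat.coprime_primes hp K.q0_prime).mpr hq'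
    · exact Nat.Coprime.prod_right fun m hm =>
        (Nat.coprime_primes hp (K.L_prime m)).mpr (hL' m (mem_erase.mp hm).1)
  refine Nat.Coprime.mul_left ?_ ?_
  · exact h1 _ K.E_prime (by omega) (by omega) (fun m _ => K.E_L m) E_dvd
  · exact h1 _ (K.L_prime n) (by have := hL n; omega) (by have := hL n; omega)
      (fun m hm h => hm (K.L_inj h).symm) (L_dvd n)

variable (K) in
/-- The cofactor of sixteen. -/
def cof16 : ℕ := K.q0 * K.E * (∏ m, K.L m) * big K

lemma S_16 : S K = 16 * cof16 K := by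
  rw [S_eq, M_eq, cof16]; ring

lemma coprime16 : Nat.Coprime 16 (cof16 K) := by
  have hq := K.q0_big
  have hE := K.q0_E
  refine Nat.Coprime.mul_right (Nat.Coprime.mul_right (Nat.Coprime.mul_right
    (sixteen_coprime K.q0_prime (by omega)) (sixteen_coprime K.E_prime (by omega)))
    (Nat.Coprime.prod_right fun m _ => sixteen_coprime (K.L_prime m) (by have := K.L_big m; omega)))
    (Nat.Coprime.pow_left 4 (coprime_big Nat.prime_two (dvd_trans (by norm_num) sixteen_dvd)))

lemma idem_spec {m c : ℕ} (h : S K = m * c) (hc : m.Coprime c) (hm : 0 < m) :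
    (∀ k, k ∣ m → ((idem K m : ℤ) : ZMod k) = 1) ∧ (∀ k, k ∣ c → ((idem K m : ℤ) : ZMod k) = 0) ∧
      (c : ℤ) ∣ idem K m := by
  have e : S K / m = c := by rw [h, Nat.mul_div_cancel_left _ hm]
  have hcop : Nat.Coprime m (S K / m) := by rwa [e]
  obtain ⟨r, hr1, hr2⟩ : ∃ r : ℕ, r ≡ 1 [MOD m] ∧ r ≡ 0 [MOD c] ∧ idem K m = (r : ℤ) := by
    refine ⟨_, (Nat.chineseRemainder hcop 1 0).2.1, ?_, by unfold idem; rw [dif_pos hcop]⟩
    simpa [e] using (Nat.chineseRemainder hcop 1 0).2.2
  obtain ⟨hr2, hr⟩ := hr2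
  refine ⟨fun k hk => ?_, fun k hk => ?_, ?_⟩
  · rw [hr, Int.cast_natCast]
    have := (ZMod.natCast_eq_natCast_iff _ _ _).mpr (hr1.of_dvd hk)
    simpa using this
  · rw [hr, Int.cast_natCast]
    have := (ZMod.natCast_eq_natCast_iff _ _ _).mpr (hr2.of_dvd hk)
    simpa using this
  · rw [hr]; exact_mod_cast Nat.modEq_zero_iff_dvd.mp hr2

variable (K) in
def dd (n : Att) : ℤ := idem K (mn K n)

variable (K) in
def v16 : ℤ := idem K 16

lemma mn_pos (n : Att) : 0 < mn K n := Nat.mul_pos K.E_prime.pos (K.L_prime n).pos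

lemma dd_spec (n : Att) : (dd K n : ZMod K.E) = 1 ∧ (dd K n : ZMod (K.L n)) = 1 ∧
    (dd K n : ZMod 16) = 0 ∧ (∀ m, m ≠ n → (dd K n : ZMod (K.L m)) = 0) ∧
      (big K : ℤ) ∣ dd K n := by
  obtain ⟨h1, h0, hd⟩ := idem_spec (S_mn (K := K) n) (mn_coprime n) (mn_pos n)
  refine ⟨h1 _ (dvd_mul_right _ _), h1 _ (dvd_mul_left _ _), h0 _ ?_, fun m hm => h0 _ ?_,
    dvd_trans ?_ hd⟩
  · exact ((dvd_mul_right _ _).mul_right _).mul_right _
  · exact ((dvd_prod_of_mem _ (mem_erase.mpr ⟨hm, mem_univ m⟩)).mul_left _).mul_right _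
  · exact_mod_cast dvd_mul_left _ _

lemma v16_spec : (v16 K : ZMod K.E) = 0 ∧ (∀ m, (v16 K : ZMod (K.L m)) = 0) ∧
    (v16 K : ZMod 16) = 1 ∧ (big K : ℤ) ∣ v16 K := by
  obtain ⟨h1, h0, hd⟩ := idem_spec (S_16 (K := K)) coprime16 (by norm_num)
  refine ⟨h0 _ ((dvd_mul_left _ _).mul_right _ |>.mul_right _), fun m => h0 _ ?_, h1 _ dvd_rfl,
    dvd_trans ?_ hd⟩
  · exact ((dvd_prod_of_mem _ (mem_univ m)).mul_left _).mul_right _
  · exact_mod_cast dvd_mul_left _ _

lemma half_spec : S K / 2 = 8 * cof16 K ∧ big K ∣ S K / 2 ∧ S K / 2 ≠ 0 ∧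
    (∀ n, mn K n ∣ S K / 2) ∧ ((S K / 2 : ℕ) : ZMod 16) = 8 := by
  have e : S K / 2 = 8 * cof16 K := by rw [S_16]; omega
  have hodd : cof16 K % 2 = 1 := by
    have h := (coprime16 (K := K)).coprime_dvd_left (show 2 ∣ 16 by norm_num)
    rwa [Nat.coprime_two_left, Nat.odd_iff] at h
  refine ⟨e, e ▸ (dvd_mul_left _ _).mul_left _, by rw [e]; omega, fun n => ?_, ?_⟩
  · rw [e, cof16, mn, ← mul_prod_erase univ K.L (mem_univ n)]
    exact ⟨8 * K.q0 * (∏ m ∈ univ.erase n, K.L m) * big K, by ring⟩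
  · rw [e, show ((8 : ZMod 16)) = ((8 : ℕ) : ZMod 16) from rfl, ZMod.natCast_eq_natCast_iff']
    omega

/-! ### Reductions of a row residue -/

def r16 : ZMod (M K) →+* ZMod 16 := ZMod.castHom sixteen_dvd _
def rE : ZMod (M K) →+* ZMod K.E := ZMod.castHom E_dvd _
def rL (n : Att) : ZMod (M K) →+* ZMod (K.L n) := ZMod.castHom (L_dvd n) _

lemma castHom_val {m k : ℕ} [NeZero m] (h : k ∣ m) (a : ZMod m) :
    (ZMod.castHom h (ZMod k) a).val = a.val % k := by
  rw [ZMod.castHom_apply, ZMod.cast_eq_val, ZMod.val_natCast]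

lemma slice_eq (s : St K) : slice K s = (r16 s.1).val % 8 := by
  rw [slice, r16, castHom_val, Nat.mod_mod_of_dvd _ (by norm_num)]

lemma h16_eq (s : St K) : h16 K s = (r16 s.1).val := by rw [h16, r16, castHom_val]

lemma etaP_eq (s : St K) : etaP K s = (rE s.1).val := by rw [etaP, rE, castHom_val]

lemma uPart_eq (s : St K) (n : Att) : uPart K s n = (rL n s.1).val := by
  rw [uPart, rL, castHom_val]

lemma zmod16_facts : (∀ l l' : ZMod 16, l' * l = 1 → ∀ a : ZMod 16, a.val % 8 = 0 →
    (a + l * 4).val % 8 = 4) ∧ (∀ l l' : ZMod 16, l' * l = 1 → ∀ a : ZMod 16,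
      (a + l * 8).val < 8 ↔ ¬ a.val < 8) := by
  constructor <;> decide +kernel

/-! ### The row offsets -/

abbrev Kn (K : Par) (n : Att) := ZMod K.E × ZMod (K.L n)

instance (n : Att) : NeZero (K.E * K.L n) := ⟨(mn_pos n).ne'⟩

def Tt (n : Att) (w : Kn K n) : ℕ := ((ZMod.chineseRemainder (EL_coprime n)).symm w).val

lemma Tt_lt (n : Att) (w : Kn K n) : Tt n w < mn K n := ZMod.val_lt _

lemma Tt_cast (n : Att) (w : Kn K n) : ((Tt n w : ℕ) : Kn K n) = w := by
  rw [← map_natCast (ZMod.chineseRemainder (EL_coprime n)) (Tt n w), Tt, ZMod.natCast_zmod_val,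
    RingEquiv.apply_symm_apply]

lemma Tt_of_lt (n : Att) {t : ℕ} (ht : t < mn K n) : Tt n (t : Kn K n) = t := by
  rw [Tt, ← map_natCast (ZMod.chineseRemainder (EL_coprime n)) t, RingEquiv.symm_apply_apply]
  exact ZMod.val_cast_of_lt ht

def row (n : Att) (w : Kn K n) : Z2 := ((Tt n w : ℤ) * dd K n, 0)

lemma row_zero (n : Att) : row n (0 : Kn K n) = 0 := by simp [row, Tt]

lemma InL.add {a b : Z2} (ha : InL K a) (hb : InL K b) : InL K (a + b) :=
  ⟨dvd_add ha.1 hb.1, dvd_add ha.2 hb.2⟩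

lemma InL.zero : InL K 0 := ⟨dvd_zero _, dvd_zero _⟩

lemma InL_row (n : Att) (w : Kn K n) : InL K (row n w) :=
  ⟨(dd_spec n).2.2.2.2.mul_left _, dvd_zero _⟩

lemma big_dvd_S : (big K : ℤ) ∣ (S K : ℤ) := by rw [S_eq]; push_cast; exact dvd_mul_left _ _

lemma InL_colk (k : ℕ) : InL K (0, (k : ℤ) * (S K : ℤ)) := ⟨dvd_zero _, big_dvd_S.mul_left _⟩

lemma InL_labV (n : Att) (j : Fin 3) : InL K (labV K n j) := by
  have hd := (dd_spec (K := K) n).2.2.2.2
  fin_cases j <;> simp [labV, InL]
  all_goals first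
    | exact ⟨hd, hd⟩
    | exact hd
    | exact (v16_spec (K := K)).2.2.2.mul_left _

lemma InL_macro (x : Z2) : InL K (macroV K x) := by
  have h : (big K : ℤ) ∣ ((S K / 2 : ℕ) : ℤ) := by exact_mod_cast (half_spec (K := K)).2.1
  simp only [macroV, step1, step2, InL, Prod.fst_add, Prod.snd_add, Prod.smul_fst, Prod.smul_snd,
    smul_eq_mul, mul_zero, add_zero, zero_add]
  refine ⟨h.mul_left _, ?_⟩
  push_cast
  exact (big_dvd_S.mul_left _).mul_left _

lemma mem_cols {d : Z2} (h : d ∈ cols K true FN) : ∃ k : ℕ, k < Q K ∧ d = (0, (k : ℤ) * S K) := by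
  simp only [cols, mem_image, mem_filter, mem_range] at h
  obtain ⟨k, ⟨hk, -⟩, rfl⟩ := h
  exact ⟨k, hk, rfl⟩

lemma zero_mem_cols : (0 : Z2) ∈ cols K true FN := by
  simp only [cols, mem_image, mem_filter, mem_range]
  exact ⟨0, ⟨NeZero.pos _, by simp, by simp⟩, by simp⟩

lemma mem_window (n : Att) {d : Z2} :
    d ∈ window K (mn K n) true FN ↔ ∃ w : Kn K n, d - row n w ∈ cols K true FN := by
  simp only [window, rows, mem_image, mem_product, mem_range]
  constructor
  · rintro ⟨⟨a, b⟩, ⟨⟨t, ht, rfl⟩, hb⟩, rfl⟩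
    exact ⟨(t : Kn K n), by simpa [row, Tt_of_lt n ht, dd] using hb⟩
  · rintro ⟨w, hw⟩
    exact ⟨(row n w, d - row n w), ⟨⟨Tt n w, Tt_lt n w, rfl⟩, hw⟩, add_sub_cancel _ _⟩

/-! ### Keys in cells -/

variable {A : Set (G K)}

/-- A point of layer zero with key `c` lies in the cell at `y`. -/
def Has (A : Set (G K)) (n : Att) (y : Z2) (c : Kn K n) : Prop :=
  ∃ p, p ∈ A ∧ p.1 - y ∈ cols K true FN ∧ keyN K n p.2 = (c, 0)

lemma keyX_surj (n : Att) (x : XI) (c : Kn K n × KeyT FN) (t : ZMod (pX K x)) :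
    ∃ a, keyN K n a = c ∧ colX K x a = t := by
  classical
  refine ⟨(((0 : ZMod K.q0), fun i => if h : i ∉ FN then c.2 ⟨i, h⟩ else 0),
    ((0, Pi.single x t), (0, c.1.1, Pi.single n c.1.2))), ?_, ?_⟩
  · refine Prod.ext (Prod.ext ?_ ?_) (funext fun i => ?_)
    · simp [keyN]
    · simp [keyN]
    · simp [keyN, keyT, i.2]
  · simp [colX]

lemma keyWin (hA : Good K A) (n : Att) : KeyWin A (window K (mn K n) true FN) (keyN K n) :=
  (tiles_keyTile_iff fun c =>
    let ⟨a, ha, _⟩ := keyX_surj n (.inl n) c 0; ⟨a, ha⟩).mp (hA _ (.win n))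

lemma win_exists (hA : Good K A) (n : Att) (y : Z2) (c : Kn K n) :
    ∃ w : Kn K n, Has A n (y + row n w) c := by
  obtain ⟨p, ⟨hp, hpw, hpk⟩, -⟩ := keyWin hA n y (c, 0)
  obtain ⟨w, hw⟩ := (mem_window n).mp hpw
  exact ⟨w, p, hp, by rwa [← sub_sub], hpk⟩

lemma row_inj_cols {n : Att} {z : Z2} {w w' : Kn K n} (h1 : z - row n w ∈ cols K true FN)
    (h2 : z - row n w' ∈ cols K true FN) : w = w' := by
  obtain ⟨k, -, e1⟩ := mem_cols h1
  obtain ⟨k', -, e2⟩ := mem_cols h2
  have e := congrArg Prod.fst e1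
  have e' := congrArg Prod.fst e2
  simp only [row, Prod.fst_sub, sub_eq_zero] at e e'
  have h := e.symm.trans e'
  rw [← Tt_cast n w, ← Tt_cast n w']
  refine Prod.ext ?_ ?_
  · have := congrArg (fun t : ℤ => (t : ZMod K.E)) h
    simpa [(dd_spec (K := K) n).1] using this
  · have := congrArg (fun t : ℤ => (t : ZMod (K.L n))) h
    simpa [(dd_spec (K := K) n).2.1] using this

lemma win_unique (hA : Good K A) {n : Att} {y : Z2} {c : Kn K n} {w w' : Kn K n}
    (h : Has A n (y + row n w) c) (h' : Has A n (y + row n w') c) : w = w' := by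
  obtain ⟨p, hp, hpc, hpk⟩ := h
  obtain ⟨q, hq, hqc, hqk⟩ := h'
  rw [← sub_sub] at hpc hqc
  obtain rfl : p = q := (keyWin hA n y (c, 0)).unique
    ⟨hp, (mem_window n).mpr ⟨w, hpc⟩, hpk⟩ ⟨hq, (mem_window n).mpr ⟨w', hqc⟩, hqk⟩
  exact row_inj_cols hpc hqc

lemma cell_unique (hA : Good K A) {n : Att} {y : Z2} {p q : G K} (hp : p ∈ A) (hq : q ∈ A)
    (h1 : p.1 - y ∈ cols K true FN) (h2 : q.1 - y ∈ cols K true FN)
    (e : keyN K n p.2 = keyN K n q.2) : p = q :=
  (keyWin hA n y _).unique ⟨hp, (mem_window n).mpr ⟨0, by simpa [row_zero] using h1⟩, e⟩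
    ⟨hq, (mem_window n).mpr ⟨0, by simpa [row_zero] using h2⟩, rfl⟩

lemma move_rule (hA : Good K A) (n : Att) {v : Z2}
    (hv : v = step1 K ∨ v = step2 K) (y : Z2) (c : Kn K n) :
    Has A n (y + v) c ↔ Has A n y c := by
  have hR : cols K true FN ⊆ window K (mn K n) true FN := fun d hd =>
    (mem_window n).mpr ⟨0, by simpa [row_zero] using hd⟩
  have hd : ∀ r ∈ cols K true FN, r + v ∈ window K (mn K n) true FN → r + v ∈ cols K true FN := by
    intro r hr hrv
    obtain ⟨w, hw⟩ := (mem_window n).mp hrv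
    obtain ⟨k, hk, rfl⟩ := mem_cols hr
    obtain ⟨k', hk', e⟩ := mem_cols hw
    exfalso
    obtain ⟨e1, e2⟩ := Prod.ext_iff.mp e
    rcases hv with rfl | rfl
    · simp only [step1, row, Prod.fst_sub, Prod.fst_add, zero_add, sub_eq_zero] at e1
      have hw0 : w = 0 := by
        rw [← Tt_cast n w]
        have h' := (half_spec (K := K)).2.2.2.1 n
        refine Prod.ext ?_ ?_
        · have := congrArg (fun t : ℤ => (t : ZMod K.E)) e1
          simp only [Int.cast_natCast, Int.cast_mul, (dd_spec (K := K) n).1, mul_one] at this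
          rw [Prod.fst_natCast, ← this]
          exact (ZMod.natCast_eq_zero_iff _ _).mpr ((dvd_mul_right _ _).trans h')
        · have := congrArg (fun t : ℤ => (t : ZMod (K.L n))) e1
          simp only [Int.cast_natCast, Int.cast_mul, (dd_spec (K := K) n).2.1, mul_one] at this
          rw [Prod.snd_natCast, ← this]
          exact (ZMod.natCast_eq_zero_iff _ _).mpr ((dvd_mul_left _ _).trans h')
      have hT : Tt n (0 : Kn K n) = 0 := by simp [Tt]
      rw [hw0, hT] at e1
      simp at e1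
      exact (half_spec (K := K)).2.2.1 (by omega)
    · simp only [step2, row, Prod.snd_sub, Prod.snd_add, sub_zero] at e2
      push_cast at e2
      have hS : (0 : ℤ) < S K := by
        have : S K ≠ 0 := fun h => (half_spec (K := K)).2.2.1 (by rw [h])
        omega
      have : (k' : ℤ) = k + Q K := by
        refine mul_right_cancel₀ hS.ne' ?_
        linear_combination -e2
      omega
  have hT : Tiles A (keyTile (moved (window K (mn K n) true FN) (cols K true FN) v) (keyN K n)) := by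
    rcases hv with rfl | rfl
    exacts [hA _ (.move1 n), hA _ (.move2 n)]
  have := (keyWin_moved_iff hR hd (keyWin hA n)).mp ((tiles_keyTile_iff fun c =>
    let ⟨a, ha, _⟩ := keyX_surj n (.inl n) c 0; ⟨a, ha⟩).mp hT) y (c, 0)
  exact this.symm

lemma macro_rule (hA : Good K A) (n : Att) (y : Z2) (c : Kn K n) (x : Z2) :
    Has A n (y + macroV K x) c ↔ Has A n y c := by
  have key : ∀ v, (v = step1 K ∨ v = step2 K) → ∀ (m : ℤ) (z : Z2),
      Has A n (z + m • v) c ↔ Has A n z c := by
    intro v hv m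
    induction m using Int.induction_on with
    | zero => simp
    | succ i ih => intro z; rw [add_smul, one_smul, ← add_assoc, move_rule hA n hv, ih]
    | pred i ih =>
      intro z
      rw [← move_rule hA n hv, add_assoc, sub_smul, one_smul, sub_add_cancel, ih]
  rw [macroV, ← add_assoc, key _ (Or.inr rfl), key _ (Or.inl rfl)]

/-! ### Invariances -/

variable (V : View A)

lemma x_inv {x : XI} {v : D K} (h : XInv K x v) (z : D K) :
    (V.mu (z + v)).2 x = (V.mu z).2 x := by
  have := (twist_holds_iff (prX K x) (inX K x) (fun a => by simp [prX, inX]) v 0 _).mp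
    (V.holds _ (.xInv h)) z
  simpa [prX] using this

lemma s_inv {v : D K} (h : SInv K v) (z : D K) : (V.pos (z + v)).1 = (V.pos z).1 := by
  have := (twist_holds_iff (prS K) (inS K) (fun a => by simp [prS, inS]) v 0 _).mp
    (V.holds _ (.sInv h)) z
  simpa [prS] using this

lemma t_inv {i : Fin 6} {v : D K} (h : TInv K i v) (z : D K) :
    (V.pos (z + v)).2 i = (V.pos z).2 i := by
  have := (twist_holds_iff (prT K i) (inT K i) (fun a => by simp [prT, inT]) v 0 _).mp
    (V.holds _ (.tInv h)) z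
  simpa [prT] using this

lemma mu_col (y : Z2) (k : ℕ) (g : Tag K) :
    V.mu (y + (0, (k : ℤ) * S K), g) = V.mu (y, g) := by
  induction k with
  | zero => simp [show ((0, 0) : Z2) = 0 from rfl]
  | succ k ih =>
    rw [← ih, ← V.mu_shift (y + (0, (k : ℤ) * S K), g)]
    congr 1
    refine Prod.ext (Prod.ext ?_ ?_) ?_ <;> simp [perJ]
    ring

lemma pos_col (y : Z2) (k : ℕ) (g : Tag K) :
    V.pos (y + (0, (k : ℤ) * S K), g) = V.pos (y, g) - k := by
  induction k with
  | zero => simp [show ((0, 0) : Z2) = 0 from rfl]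
  | succ k ih =>
    rw [Nat.cast_succ (R := Tag K), ← sub_sub, ← ih, ← V.pos_shift]
    congr 1
    refine Prod.ext (Prod.ext ?_ ?_) ?_ <;> simp [perJ]
    ring

lemma pos_step1 (y : Z2) (g : Tag K) : V.pos (y + step1 K, g) = V.pos (y, g) := by
  have e : ((y + step1 K, g) : D K) = (y, g) + site K (step1 K) := by simp [site]
  rw [e]
  exact Prod.ext (s_inv V (.all .half) _) (funext fun i => t_inv V (.all i .half) _)

lemma pos_step2 (y : Z2) (g : Tag K) : V.pos (y + step2 K, g) = V.pos (y, g) := by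
  have h := pos_col V y (Q K) g
  have hQ : ((Q K : ℕ) : Tag K) = 0 := by
    refine Prod.ext ?_ (funext fun i => ?_)
    · rw [Prod.fst_natCast, Prod.fst_zero, ZMod.natCast_eq_zero_iff, Q_eq]
      exact dvd_mul_right _ _
    · rw [Prod.snd_natCast, Pi.natCast_apply, Prod.snd_zero, Pi.zero_apply,
        ZMod.natCast_eq_zero_iff, Q_eq]
      exact (dvd_prod_of_mem tm (mem_univ i)).mul_left _
  rw [hQ, sub_zero] at h
  rw [← h, step2]
  push_cast
  rfl

lemma pos_macro (y : Z2) (g : Tag K) (x : Z2) : V.pos (y + macroV K x, g) = V.pos (y, g) := by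
  have key : ∀ v, (∀ z, V.pos (z + v, g) = V.pos (z, g)) → ∀ (m : ℤ) (z : Z2),
      V.pos (z + m • v, g) = V.pos (z, g) := by
    intro v hv m
    induction m using Int.induction_on with
    | zero => simp
    | succ i ih => intro z; rw [add_smul, one_smul, ← add_assoc, hv, ih]
    | pred i ih => intro z; rw [← hv, add_assoc, sub_smul, one_smul, sub_add_cancel, ih]
  rw [macroV, ← add_assoc, key _ (fun z => pos_step2 V z g), key _ (fun z => pos_step1 V z g)]

/-- A label colour forgets the tag. -/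
lemma lab_tag (y : Z2) (g : Tag K) (n : Att) (j : Fin 3) :
    (V.mu (y, g)).2 (.inr (n, j)) = (V.mu (y, 0)).2 (.inr (n, j)) := by
  classical
  set f : Tag K → ZMod (pX K (.inr (n, j))) := fun h => (V.mu (y, h)).2 (.inr (n, j)) with hf
  have hS : ∀ h, f (h + gS K) = f h := by
    intro h
    have := x_inv V (XInv.tagS n j) (y, h)
    simpa [hf] using this
  have hT : ∀ i h, f (h + gT K i) = f h := by
    intro i h
    have := x_inv V (XInv.tagT n j i) (y, h)
    simpa [hf] using this
  have e : g = g.1.val • gS K + ∑ i, (g.2 i).val • gT K i := by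
    refine Prod.ext ?_ (funext fun i => ?_)
    · simp [gS, gT, Prod.fst_sum]
    · simp only [gS, gT, Prod.snd_add, Prod.snd_sum, Prod.smul_snd, smul_zero, zero_add,
        Finset.sum_apply, Pi.smul_apply]
      rw [Finset.sum_eq_single i]
      · simp
      · intro b _ hb
        simp [Pi.single_eq_of_ne hb.symm]
      · simp
  show f g = f 0
  rw [e, inv_sum (u := fun i => gT K i) univ (fun i _ h => hT i h) (fun i => (g.2 i).val),
    ← zero_add (g.1.val • gS K), inv_nsmul hS]

lemma lab_colour {y : Z2} {p : G K} (hp : p ∈ A) (hpc : p.1 - y ∈ cols K true FN) (n : Att)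
    (j : Fin 3) : colX K (.inr (n, j)) p.2 = (V.mu (y, 0)).2 (.inr (n, j)) := by
  obtain ⟨h0, hc⟩ := (V.mem p.1 p.2).mp hp
  obtain ⟨k, -, hk⟩ := mem_cols hpc
  have e : p.1 = y + (0, (k : ℤ) * S K) := by rw [← hk]; abel
  have hmu : p.2.2.1 = V.mu (p.1, p.2.1) := by
    have := V.col_mu _ h0
    rwa [hc] at this
  show p.2.2.1.2 (.inr (n, j)) = _
  rw [hmu, e, mu_col, lab_tag]

/-! ### Rules along lines of labels -/

variable {V} {T : States V} (B : Base T)

/-- The coset of the base site. -/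
def In (y : Z2) : Prop := InL K (y - B.y0)

def s1 (T : States V) (y : Z2) : ZMod (M K) := (T.s (y, 0)).1

variable {B}

lemma In.add {y δ : Z2} (hy : In B y) (hδ : InL K δ) : In B (y + δ) := by
  rw [In, add_sub_right_comm]; exact InL.add hy hδ

lemma s_shift {y δ : Z2} (hy : In B y) (hδ : InL K δ) (g : Tag K) :
    T.s (y + δ, g) = B.l • proj K (δ, g) + T.s (y, 0) := by
  obtain ⟨c, hc⟩ := B.eq
  have h1 := hc (y - B.y0 + δ) g (InL.add hy hδ)
  have h2 := hc (y - B.y0) 0 hy
  rw [← add_assoc, add_sub_cancel] at h1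
  rw [add_sub_cancel] at h2
  rw [h1, h2, show ((y - B.y0 + δ, g) : D K) = (δ, g) + (y - B.y0, 0) by simp [add_comm],
    map_add, smul_add, add_assoc]

lemma s_fst {y δ : Z2} (hy : In B y) (hδ : InL K δ) (g : Tag K) :
    (T.s (y + δ, g)).1 = s1 T y + (B.l : ZMod (M K)) * (δ.1 : ZMod (M K)) := by
  rw [s_shift hy hδ, Prod.fst_add, Prod.smul_fst, s1, add_comm]
  simp [proj, zsmul_eq_mul]

lemma s1_add {y δ : Z2} (hy : In B y) (hδ : InL K δ) :
    s1 T (y + δ) = s1 T y + (B.l : ZMod (M K)) * (δ.1 : ZMod (M K)) := s_fst hy hδ 0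

lemma s1_map {R : Type*} [CommRing R] (r : ZMod (M K) →+* R) {y δ : Z2} (hy : In B y)
    (hδ : InL K δ) : r (s1 T (y + δ)) = r (s1 T y) + (B.l : R) * (δ.1 : R) := by
  rw [s1_add hy hδ, map_add, map_mul, map_intCast, map_intCast]

variable (B) in
lemma l_inv {R : Type*} [CommRing R] (r : ZMod (M K) →+* R) : ∃ a : R, a * (B.l : R) = 1 := by
  obtain ⟨a, b, h⟩ := B.coprime
  refine ⟨(a : R), ?_⟩
  have h' : ((a * B.l + b * (M K : ℤ) : ℤ) : ZMod (M K)) = 1 := by rw [h, Int.cast_one]
  push_cast at h'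
  rw [ZMod.natCast_self, mul_zero, add_zero] at h'
  have := congrArg r h'
  simpa using this

variable (B) in
lemma l_cancel {R : Type*} [CommRing R] (r : ZMod (M K) →+* R) {a : R} (h : (B.l : R) * a = 0) :
    a = 0 := by
  obtain ⟨b, hb⟩ := l_inv B r
  calc a = b * (B.l : R) * a := by rw [hb, one_mul]
    _ = b * ((B.l : R) * a) := mul_assoc _ _ _
    _ = 0 := by rw [h, mul_zero]

/-- Equal classes on a label line: the row offset vanishes. -/
lemma line_arith {n : Att} (j : Fin 3) (ε : Bool) {w : Kn K n} {m : ℤ}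
    (h1 : (B.l : ZMod (M K)) * ((((bif ε then labV K n j else 0) + row n w).1 : ℤ) : ZMod (M K))
      = (m : ZMod (M K)) * ((labV K n j).1 : ZMod (M K)))
    (h2 : (B.l : ZMod (M K)) * ((((bif ε then labV K n j else 0) + row n w).2 : ℤ) : ZMod (M K))
      = (m : ZMod (M K)) * ((labV K n j).2 : ZMod (M K))) : w = 0 := by
  have hw := Tt_cast n w
  rw [Prod.ext_iff, Prod.fst_natCast, Prod.snd_natCast] at hw
  obtain ⟨dE, dL, -⟩ := dd_spec (K := K) n
  obtain ⟨vE, vL, -⟩ := v16_spec (K := K)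
  have run : ∀ {R : Type} [CommRing R] (r : ZMod (M K) →+* R) (a : R),
      (dd K n : R) = 1 → (v16 K : R) = 0 → ((Tt n w : ℕ) : R) = a → a = 0 := by
    intro R _ r a hd hv ha
    apply l_cancel B r
    have e1 := congrArg r h1
    have e2 := congrArg r h2
    simp only [map_mul, map_intCast] at e1 e2
    fin_cases j <;> cases ε <;>
      simp [labV, row, show idem K (mn K n) = dd K n from rfl,
        show idem K 16 = v16 K from rfl, hd, hv, ha] at e1 e2
    all_goals first
      | exact e1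
      | linear_combination e1 - e2
      | linear_combination e1
  exact Prod.ext (run rE _ dE vE hw.1) (run (rL n) _ dL (vL n) hw.2)

lemma psi_lab {n : Att} {j : Fin 3} {s s' : St K} (hon : labOn K s j)
    (h : psi K s (.inr (n, j)) = psi K s' (.inr (n, j))) :
    ∃ m : ℤ, s'.1 - s.1 = (m : ZMod (M K)) * ((labV K n j).1 : ZMod (M K)) ∧
      s'.2.1 - s.2.1 = (m : ZMod (M K)) * ((labV K n j).2 : ZMod (M K)) := by
  simp only [psi, if_pos hon] at h
  split_ifs at h with h'
  · have h3 := (Fintype.equivFin _).injective (Fin.ext (Nat.succ_injective h))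
    rw [QuotientAddGroup.eq, AddSubgroup.mem_zmultiples_iff] at h3
    obtain ⟨m, hm⟩ := h3
    simp only [Prod.ext_iff, Prod.smul_fst, Prod.smul_snd, Prod.fst_add, Prod.snd_add,
      Prod.fst_neg, Prod.snd_neg, zsmul_eq_mul, Prod.fst_mul, Prod.snd_mul, Prod.fst_intCast,
      Prod.snd_intCast] at hm
    exact ⟨m, by rw [hm.1]; ring, by rw [hm.2]; ring⟩

variable (hA : Good K A)
include hA

lemma lab_rule (n : Att) (j : Fin 3) {y : Z2} (hy : In B y) (hon : labOn K (T.s (y, 0)) j)
    (c : Kn K n) : Has A n (y + labV K n j) c ↔ Has A n y (c + (labShift K n j).1) := by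
  set x : XI := .inr (n, j)
  have hk2 : (c, (0 : KeyT FN)) + labShift K n j = (c + (labShift K n j).1, 0) := by
    refine Prod.ext rfl ?_
    unfold labShift
    split_ifs <;> simp
  have hline : (V.mu (y + labV K n j, 0)).2 x = (V.mu (y, 0)).2 x := by
    have := x_inv V (XInv.line n j) (y, 0)
    simpa [site] using this
  have rule := (tiles_splitTile_iff (keyX_surj n x) (keyWin hA n) _ _).mp (hA _ (.lab n j)) y
    ((V.mu (y, 0)).2 x) (c, 0)
  rw [hk2] at rule
  -- the row offset of a point with the colour of `y` vanishes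
  have zero : ∀ (ε : Bool) (w : Kn K n),
      (V.mu (y + ((bif ε then labV K n j else 0) + row n w), 0)).2 x = (V.mu (y, 0)).2 x →
        w = 0 := by
    intro ε w h
    set δ := (bif ε then labV K n j else 0) + row n w with hδdef
    have hδ : InL K δ := InL.add (by cases ε; exacts [InL.zero, InL_labV n j]) (InL_row n w)
    have hl := B.label x (y - B.y0) (y - B.y0 + δ) 0 0 hy (InL.add hy hδ)
    rw [← add_assoc, add_sub_cancel] at hl
    obtain ⟨m, m1, m2⟩ := psi_lab hon (hl h.symm)
    rw [s_shift hy hδ] at m1 m2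
    refine line_arith (B := B) j ε (m := m) ?_ ?_
    · rw [← m1]; simp [proj, zsmul_eq_mul, hδdef, mul_add]
    · rw [← m2]; simp [proj, zsmul_eq_mul, hδdef, mul_add]
  constructor
  · rintro ⟨p, hp, hpc, hpk⟩
    obtain ⟨q, hq, hqw, hqk, hqX⟩ := rule.mp ⟨p, hp,
      (mem_window n).mpr ⟨0, by simpa [row_zero] using hpc⟩, hpk,
      (lab_colour V hp hpc n j).trans hline⟩
    obtain ⟨w, hw⟩ := (mem_window n).mp hqw
    rw [sub_sub] at hw
    have hcol := (lab_colour V hq hw n j).symm.trans hqX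
    have := zero false w (by simpa using hcol)
    subst this
    exact ⟨q, hq, by simpa [row_zero] using hw, hqk⟩
  · rintro ⟨p, hp, hpc, hpk⟩
    obtain ⟨q, hq, hqw, hqk, hqX⟩ := rule.mpr ⟨p, hp,
      (mem_window n).mpr ⟨0, by simpa [row_zero] using hpc⟩, hpk, lab_colour V hp hpc n j⟩
    obtain ⟨w, hw⟩ := (mem_window n).mp hqw
    rw [sub_sub] at hw
    have hcol := (lab_colour V hq hw n j).symm.trans hqX
    have := zero true w (by simpa [add_assoc] using hcol)
    subst this
    exact ⟨q, hq, by simpa [row_zero] using hw, hqk⟩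

/-! ### The keys of a linear slice and of the main slice -/

omit hA in
lemma labV_two (n : Att) : labV K n 2 = (4 * v16 K, 0) := rfl

/-- The rows of the linear slice. -/
def Lin (T : States V) (y : Z2) : Prop := (r16 (s1 T y)).val % 8 = 4

/-- The rows of the main slice. -/
def Main (T : States V) (y : Z2) : Prop := (r16 (s1 T y)).val % 8 = 0

/-- The selection rows. -/
def Om (T : States V) (y : Z2) : Prop := Omega K (T.s (y, 0))

omit hA in
lemma r16_zero {y δ : Z2} (hy : In B y) (hδ : InL K δ) (h : (δ.1 : ZMod 16) = 0) :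
    r16 (s1 T (y + δ)) = r16 (s1 T y) := by
  rw [s1_map r16 hy hδ, h, mul_zero, add_zero]

omit hA in
lemma r16_row (n : Att) (w : Kn K n) {y : Z2} (hy : In B y) :
    r16 (s1 T (y + row n w)) = r16 (s1 T y) :=
  r16_zero hy (InL_row n w) (by simp [row, (dd_spec (K := K) n).2.2.1])

omit hA in
lemma main_lin (n : Att) {y : Z2} (hy : In B y) (h : Main T y) :
    Lin T (y + labV K n 2) := by
  obtain ⟨a, ha⟩ := l_inv B (r16 (K := K))
  have := zmod16_facts.1 _ _ ha _ h
  rw [Lin, s1_map r16 hy (InL_labV n 2), labV_two]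
  simpa [(v16_spec (K := K)).2.2.1] using this

lemma lin_row (n : Att) {y : Z2} (hy : In B y) (hl : Lin T y) (w c : Kn K n) :
    Has A n (y + row n w) c ↔ Has A n y (c - w) := by
  have key : ∀ (t : ℕ) (c : Kn K n), Has A n (y + ((t : ℤ) * dd K n, 0)) c ↔ Has A n y (c - t) := by
    intro t
    induction t with
    | zero => intro c; simp [show ((0, 0) : Z2) = 0 from rfl]
    | succ t ih =>
      intro c
      set z : Z2 := y + ((t : ℤ) * dd K n, 0) with hz
      have hd := (dd_spec (K := K) n).2.2.2.2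
      have hδ : InL K ((t : ℤ) * dd K n, 0) := ⟨hd.mul_left _, dvd_zero _⟩
      have h1 : InL K (dd K n, 0) := ⟨hd, dvd_zero _⟩
      have hd16 := (dd_spec (K := K) n).2.2.1
      have hz0 : Lin T z := by
        rw [Lin, r16_zero hy hδ (by simp [hd16])]; exact hl
      have hz1 : Lin T (z + (dd K n, 0)) := by
        rw [Lin, r16_zero (hy.add hδ) h1 (by simp [hd16])]; exact hz0
      have lon : ∀ (u : Z2) (j : Fin 3), j ≠ 2 → Lin T u → labOn K (T.s (u, 0)) j := by
        intro u j hj hu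
        rw [labOn, if_neg hj, slice_eq]
        exact hu
      have a := lab_rule hA n 0 (hy.add hδ) (lon z 0 (by decide) hz0) c
      have b := lab_rule hA n 1 ((hy.add hδ).add h1) (lon _ 1 (by decide) hz1) c
      rw [show labV K n 0 = (dd K n, dd K n) from rfl] at a
      rw [show labV K n 1 = (0, dd K n) from rfl, add_assoc,
        show ((dd K n, 0) : Z2) + (0, dd K n) = (dd K n, dd K n) by simp, a] at b
      have e0 : (labShift K n 0).1 = (-1 : Kn K n) := rfl
      have e1 : (labShift K n 1).1 = (0 : Kn K n) := by simp [labShift]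
      rw [e0, e1, add_zero] at b
      have e2 : y + (((t + 1 : ℕ) : ℤ) * dd K n, 0) = z + (dd K n, 0) := by
        rw [hz]
        refine Prod.ext ?_ ?_ <;> simp
        ring
      rw [e2, ← b, ih, Nat.cast_succ, show c + -1 - (t : Kn K n) = c - ((t : Kn K n) + 1) by ring]
  have := key (Tt n w) c
  rwa [Tt_cast] at this

lemma lin_unique (n : Att) {y : Z2} (hy : In B y) (hl : Lin T y) {c c' : Kn K n}
    (h : Has A n y c) (h' : Has A n y c') : c = c' := by
  have h1 : Has A n (y + row n (c' - c)) c' :=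
    (lin_row hA n hy hl _ _).mpr (by rwa [sub_sub_cancel])
  have h2 : Has A n (y + row n (0 : Kn K n)) c' := by rwa [row_zero, add_zero]
  exact (sub_eq_zero.mp (win_unique hA h1 h2)).symm

lemma lin_exists (n : Att) {y : Z2} (hy : In B y) (hl : Lin T y) : ∃ c, Has A n y c := by
  obtain ⟨w, hw⟩ := win_exists hA n y 0
  exact ⟨_, (lin_row hA n hy hl w 0).mp hw⟩

lemma main_row (n : Att) {y : Z2} (hy : In B y) (hm : Main T y) {w : Kn K n}
    (hw : ¬ Om T (y + row n w)) (c : Kn K n) :
    Has A n (y + row n w) c ↔ Has A n (y + labV K n 2) (c - w) := by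
  have hon : labOn K (T.s (y + row n w, 0)) 2 := by
    rw [labOn, if_pos rfl, slice_eq]
    refine ⟨Or.inl ?_, hw⟩
    show (r16 (s1 T (y + row n w))).val % 8 = 0
    rw [r16_row n w hy]; exact hm
  have := lab_rule hA n 2 (hy.add (InL_row n w)) hon c
  rw [show (labShift K n 2).1 = (0 : Kn K n) by simp [labShift], add_zero, add_right_comm] at this
  rw [← this]
  exact lin_row hA n (hy.add (InL_labV n 2)) (main_lin n hy hm) w c

lemma outside (n : Att) {y : Z2} (hy : In B y) (hm : Main T y) {c0 w w' : Kn K n}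
    (h0 : Has A n (y + labV K n 2) c0) (h : Has A n (y + row n w') (c0 + w))
    (hw : ¬ Om T (y + row n w')) : w' = w := by
  have h' := (main_row hA n hy hm hw _).mp h
  have := lin_unique hA n (hy.add (InL_labV n 2)) (main_lin n hy hm) h' h0
  have e : c0 + w - w' - c0 = 0 := sub_eq_zero.mpr this
  exact (sub_eq_zero.mp (by rw [← e]; ring)).symm

lemma inside (n : Att) {y : Z2} (hy : In B y) (hm : Main T y) (ho : Om T y) {c0 c : Kn K n}
    (h0 : Has A n (y + labV K n 2) c0) (h : Has A n y c) : Om T (y + row n (c - c0)) := by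
  by_contra hw
  have h' : Has A n (y + row n (c - c0)) c :=
    (main_row hA n hy hm hw c).mpr (by rwa [sub_sub_cancel])
  have h2 : Has A n (y + row n (0 : Kn K n)) c := by rwa [row_zero, add_zero]
  have e := win_unique hA h' h2
  rw [e, row_zero, add_zero] at hw
  exact hw ho

/-! ### The selection rows of a window -/

omit hA in
lemma om_row (n : Att) {y : Z2} (hy : In B y) (w : Kn K n) :
    Om T (y + row n w) ↔ (∀ m, m ≠ n → (rL m (s1 T y)).val < K.q0) ∧
      (rL n (s1 T y) + (B.l : ZMod (K.L n)) * w.2).val < K.q0 ∧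
      (rE (s1 T y) + (B.l : ZMod K.E) * w.1).val =
        if ((rL n (s1 T y) + (B.l : ZMod (K.L n)) * w.2).val +
          ∑ m ∈ univ.erase n, (rL m (s1 T y)).val) % K.q0 = 0 then 1 else 0 := by
  classical
  have hT := Tt_cast n w
  rw [Prod.ext_iff, Prod.fst_natCast, Prod.snd_natCast] at hT
  obtain ⟨dE, dL, -, dO, -⟩ := dd_spec (K := K) n
  have h := InL_row n w
  have eE : rE (T.s (y + row n w, 0)).1 = rE (s1 T y) + (B.l : ZMod K.E) * w.1 := by
    show rE (s1 T (y + row n w)) = _
    rw [s1_map rE hy h]; simp [row, dE, hT.1]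
  have eN : rL n (T.s (y + row n w, 0)).1 = rL n (s1 T y) + (B.l : ZMod (K.L n)) * w.2 := by
    show rL n (s1 T (y + row n w)) = _
    rw [s1_map (rL n) hy h]; simp [row, dL, hT.2]
  have eO : ∀ m, m ≠ n → rL m (T.s (y + row n w, 0)).1 = rL m (s1 T y) := by
    intro m hm
    show rL m (s1 T (y + row n w)) = _
    rw [s1_map (rL m) hy h]; simp [row, dO m hm]
  simp only [Om, Omega, uPart_eq, etaP_eq, eE]
  rw [← add_sum_erase _ _ (mem_univ n), eN,
    sum_congr rfl fun m hm => by rw [eO m (mem_erase.mp hm).1]]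
  constructor
  · rintro ⟨h1, h2⟩
    exact ⟨fun m hm => eO m hm ▸ h1 m, eN ▸ h1 n, h2⟩
  · rintro ⟨h1, h2, h3⟩
    refine ⟨fun m => ?_, h3⟩
    by_cases hm : m = n
    · subst hm; rwa [eN]
    · rw [eO m hm]; exact h1 m hm

omit hA in
lemma one_lt_E : 1 < K.E := K.E_prime.one_lt

omit hA in
/-- The code of a selection row. -/
lemma om_inj (n : Att) {y : Z2} (hy : In B y) {w w' : Kn K n} (h : Om T (y + row n w))
    (h' : Om T (y + row n w'))
    (e : ((rL n (s1 T y) + (B.l : ZMod (K.L n)) * w.2).val : ZMod K.q0)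
      = ((rL n (s1 T y) + (B.l : ZMod (K.L n)) * w'.2).val : ZMod K.q0)) : w = w' := by
  rw [om_row n hy] at h h'
  have ev := congrArg ZMod.val e
  rw [ZMod.val_natCast_of_lt h.2.1, ZMod.val_natCast_of_lt h'.2.1] at ev
  have eu := ZMod.val_injective _ ev
  have h3 := h.2.2
  rw [eu, ← h'.2.2] at h3
  have ee := ZMod.val_injective _ h3
  refine Prod.ext ?_ ?_
  · exact sub_eq_zero.mp (l_cancel B rE (by rw [mul_sub, sub_eq_zero]; exact add_left_cancel ee))
  · exact sub_eq_zero.mp
      (l_cancel B (rL n) (by rw [mul_sub, sub_eq_zero]; exact add_left_cancel eu))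

omit hA in
/-- One selection row has an `e` value of its own. -/
lemma om_special (n : Att) {y : Z2} (hy : In B y) (ho : Om T y) :
    ∃ w : Kn K n, Om T (y + row n w) ∧ ∀ w', Om T (y + row n w') → w'.1 = w.1 → w' = w := by
  classical
  have : Fact (1 < K.E) := ⟨one_lt_E⟩
  obtain ⟨aE, haE⟩ := l_inv B (rE (K := K))
  obtain ⟨aL, haL⟩ := l_inv B (rL (K := K) n)
  set R := ∑ m ∈ univ.erase n, (rL m (s1 T y)).val with hR
  set u : ZMod K.q0 := -(R : ZMod K.q0) with hu
  set w : Kn K n := (aE * (1 - rE (s1 T y)), aL * ((u.val : ZMod (K.L n)) - rL n (s1 T y))) with hw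
  have e2 : rL n (s1 T y) + (B.l : ZMod (K.L n)) * w.2 = (u.val : ZMod (K.L n)) := by
    linear_combination ((u.val : ZMod (K.L n)) - rL n (s1 T y)) * haL
  have e1 : rE (s1 T y) + (B.l : ZMod K.E) * w.1 = 1 := by
    linear_combination (1 - rE (s1 T y)) * haE
  have ev : (rL n (s1 T y) + (B.l : ZMod (K.L n)) * w.2).val = u.val := by
    rw [e2, ZMod.val_natCast_of_lt (lt_trans u.val_lt (K.L_big n))]
  have h0 : Om T (y + row n (0 : Kn K n)) := by rwa [row_zero, add_zero]
  rw [om_row n hy] at h0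
  have hmod : (u.val + R) % K.q0 = 0 := by
    rw [← Nat.dvd_iff_mod_eq_zero, ← ZMod.natCast_eq_zero_iff, Nat.cast_add,
      ZMod.natCast_zmod_val, hu, neg_add_cancel]
  refine ⟨w, ?_, ?_⟩
  · rw [om_row n hy]
    refine ⟨h0.1, by rw [ev]; exact u.val_lt, ?_⟩
    rw [ev, e1, ZMod.val_one, if_pos hmod]
  · intro w' h' he
    refine om_inj n hy h' ((om_row n hy w).mpr ⟨h0.1, by rw [ev]; exact u.val_lt,
      by rw [ev, e1, ZMod.val_one, if_pos hmod]⟩) ?_
    rw [om_row n hy, he, e1, ZMod.val_one] at h'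
    have h3 := h'.2.2
    split_ifs at h3 with h4
    rw [ev, ZMod.natCast_zmod_val, hu]
    rw [← Nat.dvd_iff_mod_eq_zero, ← ZMod.natCast_eq_zero_iff, Nat.cast_add] at h4
    exact eq_neg_of_add_eq_zero_left h4

/-! ### Spike sites -/

omit hA in
lemma spikeS_of {y : Z2} (hy : In B y) (hm : Main T y) (ho : Om T y) (g : Tag K) :
    spikeS K (T.s (y, g)) := by
  have e : (T.s (y, g)).1 = (T.s (y, 0)).1 := by
    simpa [s1] using s_fst hy (InL.zero (K := K)) g
  refine ⟨?_, ?_⟩
  · rw [slice_eq, e]; exact hm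
  · simpa [Om, Omega, uPart, etaP, e] using ho

variable (B) in
/-- A site carrying all tags of the big component over one small tag. -/
structure Spike where
  Y : Z2
  γ : ∀ i : Fin 6, ZMod (tm i)
  hIn : In B Y
  main : Main T Y
  om : Om T Y
  hγ : ∀ i, i ∉ FN → γ i = 0
  zero : ∀ a, V.pos (Y, (a, γ)) = 0

variable (B) in
lemma exists_spike : Nonempty (Spike B) := by
  classical
  have : Fact (1 < K.E) := ⟨one_lt_E⟩
  obtain ⟨al, hal⟩ := l_inv B (RingHom.id (ZMod (M K)))
  set k : ℕ := ((big K : ZMod (M K))⁻¹ * al * -(s1 T B.y0)).val with hk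
  set z : Z2 := B.y0 + ((big K : ℤ) * k, 0) with hz
  have hI0 : In B B.y0 := by rw [In, sub_self]; exact InL.zero
  have hzδ : InL K ((big K : ℤ) * k, 0) := ⟨dvd_mul_right _ _, dvd_zero _⟩
  have hzI : In B z := hI0.add hzδ
  have hz0 : s1 T z = 0 := by
    rw [hz, s1_add hI0 hzδ]
    push_cast
    rw [hk, ZMod.natCast_zmod_val]
    have := ZMod.coe_mul_inv_eq_one (big K) (big_coprime (K := K)).symm
    linear_combination (-(s1 T B.y0)) * (al * (B.l : ZMod (M K))) * this + (-(s1 T B.y0)) * hal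
  set n : Att := .inl 0
  have hzm : Main T z := by simp [Main, hz0]
  obtain ⟨aE, haE⟩ := l_inv B (rE (K := K))
  set w : Kn K n := (aE, 0)
  have hw : Om T (z + row n w) := by
    rw [om_row n hzI, hz0]
    have h1 : (B.l : ZMod K.E) * aE = 1 := by rw [mul_comm]; exact haE
    have hq := K.q0_prime.pos
    simp [w, h1, ZMod.val_one, hq]
  obtain ⟨c0, hc0⟩ := lin_exists hA n (hzI.add (InL_labV n 2)) (main_lin n hzI hzm)
  obtain ⟨w', hw'⟩ := win_exists hA n z (c0 + w)
  have ho : Om T (z + row n w') := by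
    by_contra h
    exact h (by rw [outside hA n hzI hzm hc0 hw' h]; exact hw)
  obtain ⟨p, hp, hpc, hpk⟩ := hw'
  obtain ⟨k', -, hk'⟩ := mem_cols hpc
  have hY : p.1 = z + row n w' + (0, (k' : ℤ) * S K) := by rw [← hk']; abel
  have hIr : In B (z + row n w') := hzI.add (InL_row n w')
  have hs : s1 T p.1 = s1 T (z + row n w') := by
    rw [hY, s1_add hIr (InL_colk k')]; simp
  have hIn : In B p.1 := by rw [hY]; exact hIr.add (InL_colk k')
  have hmain : Main T p.1 := by rw [Main, hs, r16_row n w' hzI]; exact hzm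
  have hom : Om T p.1 := by
    have e : (T.s (p.1, 0)).1 = (T.s (z + row n w', 0)).1 := hs
    simpa [Om, Omega, uPart, etaP, e] using ho
  obtain ⟨h0, hc⟩ := (V.mem p.1 p.2).mp hp
  refine ⟨⟨p.1, p.2.1.2, hIn, hmain, hom, ?_, ?_⟩⟩
  · intro i hi
    have := congrArg Prod.snd hpk
    exact congrFun this ⟨i, hi⟩
  · set f : ZMod K.q0 → Tag K := fun a => V.pos (p.1, (a, p.2.1.2)) with hf
    have step : ∀ a, f (a + 1) = f a := by
      intro a
      have e : ((p.1, (a + 1, p.2.1.2)) : D K) = (p.1, (a, p.2.1.2)) + (0, gS K) := by simp [gS]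
      simp only [hf, e]
      refine Prod.ext ?_ (funext fun i => t_inv V (.tagS i) _)
      rw [T.slopes.slopeS, slopeS, if_pos (spikeS_of hIn hmain hom _), add_zero]
    intro a
    have := inv_nsmul (g := f) step (a - p.2.1.1).val p.2.1.1
    rw [nsmul_one, ZMod.natCast_zmod_val, add_sub_cancel] at this
    show f a = 0
    rw [this]
    exact h0

variable (P : Spike B)

namespace Spike

omit hA

/-- The spike site over a macro position. -/
def site' (x : Z2) : Z2 := P.Y + macroV K x

/-- The colour of a tag at a spike site. -/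
def pt (x : Z2) (a : ZMod K.q0) : Col K := V.col (P.site' x, (a, P.γ))

/-- Its key in the window of an attribute. -/
def key (n : Att) (x : Z2) (a : ZMod K.q0) : Kn K n :=
  ((P.pt x a).2.2.2.1, (P.pt x a).2.2.2.2 n)

lemma pos_zero (x : Z2) (a : ZMod K.q0) : V.pos (P.site' x, (a, P.γ)) = 0 := by
  rw [site', pos_macro, P.zero]

lemma pt_tag (x : Z2) (a : ZMod K.q0) : (P.pt x a).1 = (a, P.γ) := V.col_tag _ (P.pos_zero x a)

lemma pt_mem (x : Z2) (a : ZMod K.q0) : (P.site' x, P.pt x a) ∈ A := by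
  rw [V.mem, P.pt_tag]
  exact ⟨P.pos_zero x a, rfl⟩

lemma pt_key (n : Att) (x : Z2) (a : ZMod K.q0) : keyN K n (P.pt x a) = (P.key n x a, 0) := by
  refine Prod.ext rfl (funext fun i => ?_)
  show (P.pt x a).1.2 i.1 = 0
  rw [P.pt_tag]
  exact P.hγ _ i.2

lemma pt_has (n : Att) (x : Z2) (a : ZMod K.q0) : Has A n (P.site' x) (P.key n x a) :=
  ⟨_, P.pt_mem x a, by rw [sub_self]; exact zero_mem_cols, P.pt_key n x a⟩

include hA

lemma key_inj (n : Att) (x : Z2) : Injective (P.key n x) := by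
  intro a b h
  have := cell_unique hA (P.pt_mem x a) (P.pt_mem x b) (y := P.site' x) (n := n)
    (by rw [sub_self]; exact zero_mem_cols) (by rw [sub_self]; exact zero_mem_cols)
    (by rw [P.pt_key, P.pt_key, h])
  have := congrArg (fun p : G K => p.2.1.1) this
  simpa [P.pt_tag] using this

/-- The key of the linear row facing the spike. -/
def base (n : Att) : Kn K n :=
  (lin_exists hA n (P.hIn.add (InL_labV n 2)) (main_lin n P.hIn P.main)).choose

lemma base_spec (n : Att) : Has A n (P.Y + labV K n 2) (P.base hA n) :=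
  (lin_exists hA n (P.hIn.add (InL_labV n 2)) (main_lin n P.hIn P.main)).choose_spec

lemma key_om (n : Att) (x : Z2) (a : ZMod K.q0) :
    Om T (P.Y + row n (P.key n x a - P.base hA n)) :=
  inside hA n P.hIn P.main P.om (P.base_spec hA n) ((macro_rule hA n P.Y _ x).mp (P.pt_has n x a))

lemma onto (n : Att) (x : Z2) {w : Kn K n} (hw : Om T (P.Y + row n w)) :
    ∃ a, P.key n x a = P.base hA n + w := by
  set code : Kn K n → ZMod K.q0 :=
    fun w => ((rL n (s1 T P.Y) + (B.l : ZMod (K.L n)) * w.2).val : ZMod K.q0) with hcode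
  set f : ZMod K.q0 → ZMod K.q0 := fun a => code (P.key n x a - P.base hA n)
  have hf : Injective f := fun a b h => P.key_inj hA n x
    (sub_left_inj.mp (om_inj n P.hIn (P.key_om hA n x a) (P.key_om hA n x b) h))
  obtain ⟨a, ha⟩ := Finite.injective_iff_surjective.mp hf (code w)
  exact ⟨a, by rw [← om_inj n P.hIn (P.key_om hA n x a) hw ha, add_sub_cancel]⟩

/-- The row with an `e` value of its own. -/
def wsel : Kn K (.inl 0) := (om_special (.inl 0) P.hIn P.om).choose

/-- The selected tag. -/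
def sel (x : Z2) : ZMod K.q0 :=
  (P.onto hA (.inl 0) x (w := P.wsel) (om_special (.inl 0) P.hIn P.om).choose_spec.1).choose

lemma sel_key (x : Z2) :
    P.key (.inl 0) x (P.sel hA x) = P.base hA (.inl 0) + P.wsel :=
  (P.onto hA (.inl 0) x (w := P.wsel) (om_special (.inl 0) P.hIn P.om).choose_spec.1).choose_spec

/-- The selected tag is the only one with its `e` value. -/
lemma sel_eq (x : Z2) (a : ZMod K.q0)
    (h : (P.pt x a).2.2.2.1 = (P.base hA (.inl 0) + P.wsel).1) : a = P.sel hA x := by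
  refine P.key_inj hA (.inl 0) x ?_
  rw [sel_key]
  have h1 : (P.key (.inl 0) x a - P.base hA (.inl 0)).1 = P.wsel.1 := by
    show (P.pt x a).2.2.2.1 - (P.base hA (.inl 0)).1 = _
    rw [h, Prod.fst_add, add_sub_cancel_left]
  have h2 := (om_special (.inl 0) P.hIn P.om).choose_spec.2 _ (P.key_om hA (.inl 0) x a) h1
  change P.key (.inl 0) x a - P.base hA (.inl 0) = P.wsel at h2
  rw [← h2, add_sub_cancel]

lemma sel_e (x : Z2) :
    (P.pt x (P.sel hA x)).2.2.2.1 = (P.base hA (.inl 0) + P.wsel).1 :=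
  congrArg Prod.fst (P.sel_key hA x)

lemma sel_invariant (n : Att) (x x' : Z2) :
    P.key n x' (P.sel hA x') = P.key n x (P.sel hA x) := by
  obtain ⟨b, hb⟩ := P.onto hA n x' (P.key_om hA n x (P.sel hA x))
  rw [add_sub_cancel] at hb
  have he : (P.pt x' b).2.2.2.1 = (P.base hA (.inl 0) + P.wsel).1 :=
    (congrArg Prod.fst hb).trans (P.sel_e hA x)
  rw [← P.sel_eq hA x' b he, hb]

/-- The state of the selected tag. -/
def state (x : Z2) : St K := T.s (P.site' x, (P.sel hA x, P.γ))

omit hA in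
lemma site_in (x : Z2) : In B (P.site' x) := P.hIn.add (InL_macro x)

omit hA in
lemma macro_half (x : Z2) : (macroV K x).1 = x.1 * ((S K / 2 : ℕ) : ℤ) := by
  simp [macroV, step1, step2]

lemma state_spike (x : Z2) : spikeS K (P.state hA x) := by
  refine spikeS_of (P.site_in x) ?_ ?_ _
  · rw [Main, site', s1_map r16 P.hIn (InL_macro x), macro_half, Int.cast_mul, Int.cast_natCast,
      (half_spec (K := K)).2.2.2.2]
    have h := P.main
    unfold Main at h
    revert h
    generalize r16 (s1 T P.Y) = r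
    generalize ((B.l : ℤ) : ZMod 16) = l
    generalize ((x.1 : ℤ) : ZMod 16) = m
    revert r l m
    decide +kernel
  · have h := P.om
    have hn : ∀ n, mn K n ∣ S K / 2 := (half_spec (K := K)).2.2.2.1
    have eE : rE (T.s (P.site' x, 0)).1 = rE (T.s (P.Y, 0)).1 := by
      show rE (s1 T (P.site' x)) = _
      rw [site', s1_map rE P.hIn (InL_macro x), macro_half, Int.cast_mul, Int.cast_natCast,
        (ZMod.natCast_eq_zero_iff _ _).mpr ((dvd_mul_right _ _).trans (hn (.inl 0))), mul_zero,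
        mul_zero, add_zero]
      rfl
    have eL : ∀ n, rL n (T.s (P.site' x, 0)).1 = rL n (T.s (P.Y, 0)).1 := by
      intro n
      show rL n (s1 T (P.site' x)) = _
      rw [site', s1_map (rL n) P.hIn (InL_macro x), macro_half, Int.cast_mul, Int.cast_natCast,
        (ZMod.natCast_eq_zero_iff _ _).mpr ((dvd_mul_left _ _).trans (hn n)), mul_zero,
        mul_zero, add_zero]
      rfl
    simpa only [Om, Omega, uPart_eq, etaP_eq, eE, eL] using h

omit hA in
lemma pt_colour (x : Z2) (a : ZMod K.q0) (i : XI) :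
    colX K i (P.pt x a) = (V.mu (P.site' x, (a, P.γ))).2 i := by
  show (P.pt x a).2.1.2 i = _
  rw [pt, V.col_mu _ (P.pos_zero x a)]

/-- The readouts are constant along their directions. -/
lemma read_eq (n : Att) {v : Z2} (hv : v ∈ rdDir n) (x : Z2) :
    rdVal K (P.state hA (x + v)) n = rdVal K (P.state hA x) n := by
  have rule := (tiles_splitTile_iff (keyX_surj n (.inl n)) (keyWin hA n) _ _).mp
    (hA _ (.read n hv)) (P.site' x) (colX K (.inl n) (P.pt x (P.sel hA x)))
    (P.key n x (P.sel hA x), 0)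
  have hw : ∀ y : Z2, y - y ∈ window K (mn K n) true FN := fun y =>
    (mem_window n).mpr ⟨0, by simpa [row_zero] using zero_mem_cols⟩
  obtain ⟨q, hq, hqw, hqk, hqX⟩ := rule.mpr ⟨_, P.pt_mem x (P.sel hA x), hw _,
    by rw [P.pt_key, add_zero], rfl⟩
  have e : P.site' x + macroV K v = P.site' (x + v) := by
    simp only [site', macroV, Prod.fst_add, Prod.snd_add, add_smul]; abel
  rw [e] at hqw
  have hp := P.pt_key n (x + v) (P.sel hA (x + v))
  rw [P.sel_invariant hA n x (x + v)] at hp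
  have hu := (keyWin hA n (P.site' (x + v)) _).unique ⟨hq, hqw, hqk⟩
    ⟨P.pt_mem (x + v) (P.sel hA (x + v)), hw _, hp⟩
  rw [hu] at hqX
  rw [P.pt_colour, P.pt_colour] at hqX
  have hl := B.label (.inl n) (P.site' (x + v) - B.y0) (P.site' x - B.y0)
    (P.sel hA (x + v), P.γ) (P.sel hA x, P.γ) (P.site_in _) (P.site_in _)
  rw [add_sub_cancel, add_sub_cancel] at hl
  have := hl hqX
  simpa only [psi, if_pos (P.state_spike hA (x + v)), if_pos (P.state_spike hA x), state,
    show spikeS K (T.s (P.site' (x + v), (P.sel hA (x + v), P.γ))) from P.state_spike hA (x + v),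
    show spikeS K (T.s (P.site' x, (P.sel hA x, P.γ))) from P.state_spike hA x, if_true] using this

lemma h16_step (x : Z2) :
    h16 K (P.state hA (x + (1, 0))) < 8 ↔ ¬ h16 K (P.state hA x) < 8 := by
  have e : ∀ x, r16 (P.state hA x).1 =
      r16 (s1 T P.Y) + (B.l : ZMod 16) * (x.1 : ZMod 16) * 8 := by
    intro x
    rw [state, site', s_fst P.hIn (InL_macro x), ← s1_add P.hIn (InL_macro x),
      s1_map r16 P.hIn (InL_macro x), macro_half, Int.cast_mul, Int.cast_natCast,
      (half_spec (K := K)).2.2.2.2, mul_assoc]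
  rw [h16_eq, h16_eq, e, e, Prod.fst_add, Int.cast_add, Int.cast_one,
    show r16 (s1 T P.Y) + (B.l : ZMod 16) * ((x.1 : ZMod 16) + 1) * 8 =
      (r16 (s1 T P.Y) + (B.l : ZMod 16) * (x.1 : ZMod 16) * 8) + (B.l : ZMod 16) * 8 by ring]
  obtain ⟨a, ha⟩ := l_inv B (r16 (K := K))
  exact zmod16_facts.2 _ _ ha _

lemma par_step (x : Z2) :
    par0 (K.table (P.state hA (x + (1, 0))).2.2) = par0 (K.table (P.state hA x).2.2) + 1 := by
  obtain ⟨i, hi⟩ : ∃ i, (P.state hA x).2.2 ≠ K.d i := by
    by_cases h : (P.state hA x).2.2 = K.d 0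
    · exact ⟨1, by rw [h]; exact K.d_ne⟩
    · exact ⟨0, h⟩
  have h := P.read_eq hA (.inr (.inr i)) (v := (1, 0)) (by simp [rdDir]) x
  have hb := P.h16_step hA x
  simp only [rdVal, if_neg hi] at h
  split_ifs at h with h1 h2 h3 <;>
    first
    | (have := ZMod.val_lt (par0 (K.table (P.state hA x).2.2) + (0 : ZMod 2)); omega)
    | (have := ZMod.val_lt (par0 (K.table (P.state hA x).2.2) + (1 : ZMod 2)); omega)
    | (have e := ZMod.val_injective _ (Nat.succ_injective h)
       revert e hb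
       simp only [*, iff_true, iff_false, not_true, not_false_iff]
       generalize par0 (K.table (P.state hA x).2.2) = a
       generalize par0 (K.table (P.state hA (x + (1, 0))).2.2) = b
       revert a b
       decide)

lemma state_third (x : Z2) :
    (P.state hA x).2.2 = (B.l : ZMod K.q0) * P.sel hA x + (T.s (P.Y, 0)).2.2 := by
  rw [state, site', s_shift P.hIn (InL_macro x)]
  simp [proj, zsmul_eq_mul]

lemma sel_periodic {p : ℕ} (hper : PerBy A p) (x : Z2) :
    P.sel hA (x + ((p : ℤ), 0)) = P.sel hA x := by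
  set x' : Z2 := x + ((p : ℤ), 0) with hx'
  have e : P.site' x' = P.site' x + p • step1 K := by
    simp only [site', hx', macroV, Prod.fst_add, Prod.snd_add, add_zero, add_smul, natCast_zsmul]
    abel
  have h := (hper (P.site' x, P.pt x (P.sel hA x)) (step1 K, 0)).mpr (P.pt_mem x _)
  rw [Prod.smul_mk, Prod.mk_add_mk, smul_zero, add_zero, ← e, V.mem, P.pt_tag] at h
  refine (P.sel_eq hA x' _ ?_).symm
  show (V.col (P.site' x', (P.sel hA x, P.γ))).2.2.2.1 = _
  rw [h.2]
  exact P.sel_e hA x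

/-- The grid read at the macro translates of a spike site. -/
def grid : Grid A where
  t x := K.table (P.state hA x).2.2
  dig n x := by
    have := P.read_eq hA (.inl n) (v := (-(n.val : ℤ), 1)) (by simp [rdDir]) x
    simp only [rdVal] at this
    exact ZMod.val_injective _ (Nat.succ_injective this)
  clk w x := by
    have := P.read_eq hA (.inr (.inl w)) (v := kdir w) (by simp [rdDir]) x
    simp only [rdVal] at this
    exact ZMod.val_injective _ (Nat.succ_injective this)
  par := P.par_step hA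
  per p hper x := by rw [P.state_third, P.state_third, P.sel_periodic hA hper]

end Spike

end Keys

open Keys in
/-- A tiled set with a base carries a grid. -/
theorem exists_grid {K : Par} {A : Set (G K)} (hA : Good K A) {V : View A} {T : States V}
    (B : Base T) : Nonempty (Grid A) :=
  (exists_spike B hA).map fun P => P.grid hA

end

end Vale.Agent.P043.Z3
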