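/-
P043: one shift makes equal label colours mean equal labels on a finite set.
-/
import Mathlib

namespace Vale.Agent.P043.Z3

open Function Finset

variable {D ι : Type} [AddCommGroup D] [Fintype ι] [DecidableEq ι] {P : ι → ℕ}

theorem shift_slope {m : ℕ} {Y : Type*} {X : D → ZMod m} {g : D → Y} {ψ : Y → ZMod m} {e : D}
    (hX : ∀ y, X (y + e) = X y + ψ (g y)) (hg : ∀ y, g (y + e) = g y) (n : ℕ) (y : D) :
    X (y + n • e) = X y + n * ψ (g y) ∧ g (y + n • e) = g y := by
  induction n with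
  | zero => simp
  | succ n ih =>
    rw [succ_nsmul, ← add_assoc]
    refine ⟨?_, by rw [hg]; exact ih.2⟩
    rw [hX, ih.1, ih.2]; push_cast; ring

theorem inv_mul {Y : Type*} {g : D → Y} {e : D} (h : ∀ y, g (y + e) = g y) (n : ℕ) (y : D) :
    g (y + n • e) = g y := by
  induction n with
  | zero => simp
  | succ n ih => rw [succ_nsmul, ← add_assoc, h, ih]

/-- There is a shift along the axes after which, on `Y`, equal colours have equal labels. -/
theorem exists_residue_shift (hP : ∀ i, (P i).Prime) (X : ∀ i, D → ZMod (P i)) (ψ : ∀ i, D → ZMod (P i))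
    (e : ι → D) (hX : ∀ i y, X i (y + e i) = X i y + ψ i y)
    (hX' : ∀ i j, i ≠ j → ∀ y, X i (y + e j) = X i y)
    (hψ : ∀ i j y, ψ i (y + e j) = ψ i y) (Y : Finset D) (hbig : ∀ i, Y.card * Y.card < P i) :
    ∃ t : ι → ℕ, ∀ i, ∀ y ∈ Y, ∀ y' ∈ Y,
      X i (y + ∑ j, t j • e j) = X i (y' + ∑ j, t j • e j) →
        ψ i (y + ∑ j, t j • e j) = ψ i (y' + ∑ j, t j • e j) := by
  have : ∀ i, Fact (P i).Prime := fun i => ⟨hP i⟩
  have key : ∀ i, ∃ t : ZMod (P i), ∀ y ∈ Y, ∀ y' ∈ Y,
      X i y + t * ψ i y = X i y' + t * ψ i y' → ψ i y = ψ i y' := by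
    intro i
    set bad := (Y ×ˢ Y).image fun p => (X i p.2 - X i p.1) / (ψ i p.1 - ψ i p.2) with hbad
    have : bad.card < (univ : Finset (ZMod (P i))).card := by
      rw [card_univ, ZMod.card]
      exact lt_of_le_of_lt (card_image_le.trans (by rw [card_product])) (hbig i)
    obtain ⟨t, -, ht⟩ := exists_mem_notMem_of_card_lt_card this
    refine ⟨t, fun y hy y' hy' h => ?_⟩
    by_contra hne
    refine ht (mem_image.mpr ⟨(y, y'), mem_product.mpr ⟨hy, hy'⟩, ?_⟩)
    rw [div_eq_iff (sub_ne_zero.mpr hne)]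
    linear_combination -h
  choose t ht using key
  refine ⟨fun i => (t i).val, fun i y hy y' hy' => ?_⟩
  have hs : ∀ z : D, X i (z + ∑ j, (t j).val • e j) = X i z + t i * ψ i z ∧
      ψ i (z + ∑ j, (t j).val • e j) = ψ i z := by
    intro z
    have inv : ∀ (S : Finset ι), i ∉ S → ∀ w : D,
        X i (w + ∑ j ∈ S, (t j).val • e j) = X i w ∧ ψ i (w + ∑ j ∈ S, (t j).val • e j) = ψ i w := by
      intro S
      induction S using Finset.induction with
      | empty => simp
      | @insert a S ha ih =>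
        intro hi w
        rw [mem_insert, not_or] at hi
        rw [sum_insert ha, ← add_assoc]
        obtain ⟨h1, h2⟩ := ih hi.2 (w + (t a).val • e a)
        rw [h1, h2]
        exact ⟨inv_mul (hX' i a hi.1) _ _, inv_mul (hψ i a) _ _⟩
    obtain ⟨s1, s2⟩ := shift_slope (X := X i) (ψ := id) (g := ψ i) (hX i) (hψ i i) (t i).val z
    rw [← add_sum_erase _ _ (mem_univ i), ← add_assoc]
    obtain ⟨h1, h2⟩ := inv _ (notMem_erase i univ) (z + (t i).val • e i)
    rw [h1, h2, s1, s2, ZMod.natCast_zmod_val]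
    exact ⟨rfl, rfl⟩
  rw [(hs y).1, (hs y').1, (hs y).2, (hs y').2]
  exact ht i y hy y' hy'

end Vale.Agent.P043.Z3
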