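/-
P043, dimension three: the seed windows make the states bijective, and a base site reads labels.
-/
import Vale.Agent.P043.Z3.Iface
import Vale.Agent.P043.Z3.Count
import Vale.Agent.P043.Z3.Residue

namespace Vale.Agent.P043.Z3

open Function Finset

noncomputable section

variable {K : Par}

namespace Seeds

/-! ### Arithmetic -/

lemma M_pos : 0 < M K := Nat.pos_of_ne_zero (NeZero.ne _)

lemma sq_le_bound : M K * M K * Q K * (M K * M K * Q K) < bound K := by
  rw [bound_eq, pow_two]
  have hQ : 1 ≤ Q K := Nat.pos_of_ne_zero (NeZero.ne _)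
  refine Nat.mul_lt_mul'' ?_ ?_ <;> nlinarith [Nat.zero_le (M K * M K * Q K)]

lemma M_lt_bound : M K < bound K := by
  rw [bound_eq, pow_two]
  nlinarith [Nat.zero_le (M K * M K * Q K * Q K), Nat.zero_le (Q K)]

lemma pX_gt (x : XI) : bound K < pX K x := by
  have := Nat.add_two_le_nth_prime (bound K + (Fintype.equivFin XI x : ℕ))
  unfold pX
  omega

lemma pO_gt (o : Opt K) : bound K < pO K o := by
  have := Nat.add_two_le_nth_prime
    (bound K + Fintype.card XI + (Fintype.equivFin (Opt K) o : ℕ))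
  unfold pO
  omega

lemma M_big_coprime : Nat.Coprime (M K) (big K) := by
  have h : ∀ p, p.Prime → bound K < p → Nat.Coprime (M K) p := fun p hp hb =>
    (hp.coprime_iff_not_dvd.mpr fun hd => by
      have := Nat.le_of_dvd M_pos hd
      have := M_lt_bound (K := K)
      omega).symm
  exact Nat.Coprime.mul_right (Nat.Coprime.prod_right fun x _ => h _ (pX_prime K x) (pX_gt x))
    (Nat.Coprime.prod_right fun o _ => h _ (pO_prime K o) (pO_gt o))

lemma idem_eq {m r : ℕ} (hM : M K = m * r) (hm : 0 < m) (h : Nat.Coprime m r) {d : ℕ} :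
    (d ∣ m → ((idem K m : ℤ) : ZMod d) = 1) ∧
      (d ∣ r * big K → ((idem K m : ℤ) : ZMod d) = 0) := by
  have e : S K / m = r * big K := by
    rw [S_eq, hM, mul_assoc, Nat.mul_div_cancel_left _ hm]
  have hb : Nat.Coprime m (big K) := Nat.Coprime.coprime_dvd_left (hM ▸ dvd_mul_right m r) M_big_coprime
  have hc : Nat.Coprime m (S K / m) := by rw [e]; exact h.mul_right hb
  unfold idem
  rw [dif_pos hc]
  obtain ⟨h1, h2⟩ := (Nat.chineseRemainder hc 1 0).2
  refine ⟨fun hd => ?_, fun hd => ?_⟩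
  · rw [Int.cast_natCast]
    exact ((ZMod.natCast_eq_natCast_iff _ _ d).mpr (h1.of_dvd hd)).trans Nat.cast_one
  · rw [Int.cast_natCast]
    exact ((ZMod.natCast_eq_natCast_iff _ _ d).mpr (h2.of_dvd (e ▸ hd))).trans Nat.cast_zero

lemma L_ne_small (n : Att) : 17 < K.L n := lt_trans K.q0_big (K.L_big n)

lemma E_gt : 17 < K.E := lt_trans K.q0_big K.q0_E

lemma cop_prime {p q : ℕ} (hp : p.Prime) (hq : q.Prime) (h : p ≠ q) : Nat.Coprime p q :=
  (Nat.coprime_primes hp hq).mpr h

lemma cop16 {p : ℕ} (hp : p.Prime) (h : 17 < p) : Nat.Coprime 16 p :=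
  (hp.coprime_iff_not_dvd.mpr fun hd => by have := Nat.le_of_dvd (by norm_num) hd; omega).symm

lemma cop16_rest : Nat.Coprime 16 (K.q0 * K.E * ∏ n, K.L n) :=
  ((cop16 K.q0_prime K.q0_big).mul_right (cop16 K.E_prime E_gt)).mul_right
    (Nat.Coprime.prod_right fun n _ => cop16 (K.L_prime n) (L_ne_small n))

lemma cop_q0_rest : Nat.Coprime K.q0 (16 * K.E * ∏ n, K.L n) :=
  ((cop16 K.q0_prime K.q0_big).symm.mul_right
    (cop_prime K.q0_prime K.E_prime (Nat.ne_of_lt K.q0_E))).mul_right
    (Nat.Coprime.prod_right fun n _ => cop_prime K.q0_prime (K.L_prime n) (Nat.ne_of_lt (K.L_big n)))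

/-- The part of the modulus outside a line window. -/
def rest (K : Par) (n : Att) : ℕ := 16 * K.q0 * ∏ t ∈ univ.erase n, K.L t

lemma M_mn (n : Att) : M K = mn K n * rest K n := by
  rw [M_eq, mn, rest, ← mul_prod_erase univ K.L (mem_univ n)]; ring

lemma cop_mn (n : Att) : Nat.Coprime (mn K n) (rest K n) := by
  have hp : ∀ p, p.Prime → 17 < p → p ≠ K.q0 → (∀ t, t ≠ n → p ≠ K.L t) →
      Nat.Coprime p (rest K n) := fun p hp h17 h0 hL =>
    ((cop16 hp h17).symm.mul_right (cop_prime hp K.q0_prime h0)).mul_right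
      (Nat.Coprime.prod_right fun t ht => cop_prime hp (K.L_prime t) (hL t (mem_erase.mp ht).1))
  exact Nat.Coprime.mul_left (hp _ K.E_prime E_gt (Nat.ne_of_gt K.q0_E) fun t _ => K.E_L t)
    (hp _ (K.L_prime n) (L_ne_small n) (Nat.ne_of_gt (K.L_big n))
      fun t ht e => ht (K.L_inj e).symm)

lemma mn_pos (n : Att) : 0 < mn K n := Nat.mul_pos K.E_prime.pos (K.L_prime n).pos

lemma val_mod {d : ℕ} [NeZero d] (hd : d ∣ M K) (N : ℤ) :
    ((N : ZMod (M K))).val % d = ((N : ZMod d)).val := by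
  apply Int.ofNat_inj.mp
  rw [Int.natCast_mod, ZMod.val_intCast, ZMod.val_intCast,
    Int.emod_emod_of_dvd _ (Int.natCast_dvd_natCast.mpr hd)]

lemma val_cast {d : ℕ} [NeZero d] (hd : d ∣ M K) (N : ℤ) :
    (((N : ZMod (M K))).val : ZMod d) = (N : ZMod d) := by
  rw [← ZMod.natCast_mod, val_mod hd, ZMod.natCast_zmod_val]

lemma dvdM16 : 16 ∣ M K := by rw [M_eq, mul_assoc, mul_assoc]; exact dvd_mul_right _ _

lemma dvdMq0 : K.q0 ∣ M K := by
  rw [M_eq]; exact ((dvd_mul_left _ _).mul_right _).mul_right _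

lemma dvdME : K.E ∣ M K := by rw [M_eq]; exact (dvd_mul_left _ _).mul_right _

lemma dvdML (n : Att) : K.L n ∣ M K := by
  rw [M_eq]; exact (dvd_prod_of_mem K.L (mem_univ n)).mul_left _

/-- An affine image of a product modulus covers a coprime factor evenly. -/
lemma count_factor {m a b : ℕ} [NeZero m] [NeZero a] [NeZero b] (hab : m = a * b)
    (h : Nat.Coprime a b) (l c : ZMod a) (hl : IsUnit l) (f : ZMod a → Prop) [DecidablePred f] :
    (univ.filter fun t : ZMod m => f (l * (t.val : ZMod a) + c)).card =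
      b * (univ.filter fun x : ZMod a => f x).card := by
  obtain ⟨u, rfl⟩ := hl
  subst hab
  set e := ZMod.chineseRemainder h with he
  have h1 : ∀ t : ZMod (a * b), (e t).1 = (t.val : ZMod a) := by
    intro t
    conv_lhs => rw [← ZMod.natCast_zmod_val t, map_natCast]
    rfl
  have : (univ.filter fun t : ZMod (a * b) => f (u * (t.val : ZMod a) + c)).card =
      ((univ.filter fun x : ZMod a => f x) ×ˢ (univ : Finset (ZMod b))).card := by
    refine card_bij' (fun t _ => ((u : ZMod a) * (t.val : ZMod a) + c, (e t).2))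
      (fun p _ => e.symm (((u⁻¹ : (ZMod a)ˣ) : ZMod a) * (p.1 - c), p.2)) ?_ ?_ ?_ ?_
    · intro t ht
      simpa using ht
    · intro p hp
      simp only [mem_product, mem_filter, mem_univ, true_and, and_true] at hp
      simp only [mem_filter, mem_univ, true_and]
      rw [← h1, RingEquiv.apply_symm_apply]
      simpa using hp
    · intro t _
      apply e.injective
      rw [RingEquiv.apply_symm_apply]
      exact Prod.ext (by simp [h1]) rfl
    · intro p _
      simp only [← h1, RingEquiv.apply_symm_apply]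
      exact Prod.ext (by simp) rfl
  rw [this, card_product, card_univ, ZMod.card, mul_comm]

/-! ### Counting points in a window -/

variable {A : Set (G K)} (V : View A)

lemma pos_nsmul (y : Z2) (g : Tag K) (k : ℕ) :
    V.pos (y + (0, (k : ℤ) * (S K : ℤ)), g) = V.pos (y, g) - (k : Tag K) := by
  induction k with
  | zero =>
    rw [show y + (0, ((0 : ℕ) : ℤ) * (S K : ℤ)) = y by ext <;> simp, Nat.cast_zero, sub_zero]
  | succ k ih =>
    have e : ((y + (0, ((k + 1 : ℕ) : ℤ) * (S K : ℤ)), g) : D K) =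
        (y + (0, (k : ℤ) * (S K : ℤ)), g) + perJ K := by
      ext <;> simp [perJ] <;> ring
    rw [e, V.pos_shift, ih, Nat.cast_succ, sub_sub]

/-- The row `t` of a window. -/
def row (K : Par) (m : ℕ) (t : ZMod m) : Z2 := ((t.val : ℤ) * idem K m, 0)

/-- Agreement in the fixed components. -/
def Agree (fixS : Bool) (F : Finset (Fin 6)) (p τ : Tag K) : Prop :=
  (fixS = true → p.1 = τ.1) ∧ ∀ i ∈ F, p.2 i = τ.2 i

/-- The column index with a given tag. -/
def colIdx (τ : Tag K) : ℕ := ((tagEquiv K).symm τ).val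

lemma colIdx_cast (τ : Tag K) : ((colIdx τ : ℕ) : ZMod K.q0) = τ.1 ∧
    ∀ i, ((colIdx τ : ℕ) : ZMod (tm i)) = τ.2 i := by
  have e : tagHom K ((colIdx τ : ℕ) : ZMod (Q K)) = τ := by
    rw [colIdx, ZMod.natCast_zmod_val]
    exact (tagEquiv K).apply_symm_apply τ
  rw [tagHom_natCast] at e
  exact ⟨congrArg Prod.fst e, fun i => congrFun (congrArg Prod.snd e) i⟩

lemma colIdx_tag (τ : Tag K) : ((colIdx τ : ℕ) : Tag K) = τ :=
  Prod.ext (by simpa using (colIdx_cast τ).1) (funext fun i => by simpa using (colIdx_cast τ).2 i)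

open Classical in
lemma win_card {W U : Type} [AddCommGroup W] [Fintype W] {m : ℕ} [NeZero m] (hm : idem K m ≠ 0)
    {fixS : Bool} {F : Finset (Fin 6)} (key : Col K →+ W)
    (hw : KeyWin A (window K m fixS F) key) (u : W → U) (kt : Tag K → U)
    (hu : ∀ c, u (key c) = kt c.1) (z : Z2) (τ : Tag K) (κ : U) :
    (univ.filter fun x : ZMod m × Tag K =>
        kt x.2 = κ ∧ Agree fixS F (V.pos (z + row K m x.1, x.2)) τ).card =
      (univ.filter fun w : W => u w = κ).card := by
  set z' : Z2 := z + (0, (colIdx τ : ℤ) * (S K : ℤ)) with hz'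
  have hagree : ∀ (t : ZMod m) (g : Tag K), Agree fixS F (V.pos (z + row K m t, g)) τ ↔
      Agree fixS F (V.pos (z' + row K m t, g)) 0 := by
    intro t g
    rw [hz', add_right_comm, pos_nsmul, colIdx_tag]
    simp [Agree, sub_eq_zero]
  set site : ZMod m × Tag K → Z2 := fun x => z' + row K m x.1 +
    (0, (colIdx (V.pos (z' + row K m x.1, x.2)) : ℤ) * (S K : ℤ)) with hsite
  have hpos : ∀ x, V.pos (site x, x.2) = 0 := by
    intro x
    rw [hsite, pos_nsmul, colIdx_tag, sub_self]
  have hmem : ∀ x : ZMod m × Tag K, (site x, V.col (site x, x.2)) ∈ A := by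
    intro x
    rw [V.mem, V.col_tag _ (hpos x)]
    exact ⟨hpos x, rfl⟩
  have hwin : ∀ x : ZMod m × Tag K, Agree fixS F (V.pos (z' + row K m x.1, x.2)) 0 →
      site x - z' ∈ window K m fixS F := by
    intro x hx
    simp only [window, rows, cols, mem_image, mem_product, mem_filter, mem_range]
    refine ⟨(_, _), ⟨⟨x.1.val, ZMod.val_lt _, rfl⟩,
      ⟨colIdx (V.pos (z' + row K m x.1, x.2)), ⟨⟨ZMod.val_lt _, ?_, ?_⟩, rfl⟩⟩⟩, ?_⟩
    · intro h
      rw [(colIdx_cast _).1, hx.1 h]
      rfl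
    · intro i hi
      rw [(colIdx_cast _).2, hx.2 i hi]
      rfl
    · simp only [hsite, row]
      ext <;> simp <;> ring
  refine card_bij (fun x _ => key (V.col (site x, x.2))) ?_ ?_ ?_
  · intro x hx
    simp only [mem_filter, mem_univ, true_and] at hx ⊢
    rw [hu, V.col_tag _ (hpos x)]
    exact hx.1
  · intro x hx x' hx' e
    simp only [mem_filter, mem_univ, true_and] at hx hx'
    rw [hagree] at hx hx'
    have := (hw z' _).unique (y₁ := (site x, V.col (site x, x.2)))
      (y₂ := (site x', V.col (site x', x'.2)))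
      ⟨hmem x, hwin x hx.2, e⟩ ⟨hmem x', hwin x' hx'.2, rfl⟩
    obtain ⟨e1, e2⟩ := Prod.ext_iff.mp this
    have eg : x.2 = x'.2 := by
      have := congrArg Prod.fst e2
      rwa [V.col_tag _ (hpos x), V.col_tag _ (hpos x')] at this
    have et := congrArg Prod.fst e1
    simp only [hsite, row, Prod.fst_add, add_zero, add_right_inj, mul_eq_mul_right_iff,
      Nat.cast_inj, hm, or_false] at et
    exact Prod.ext (ZMod.val_injective m et) eg
  · intro w hw'
    simp only [mem_filter, mem_univ, true_and] at hw'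
    obtain ⟨p, ⟨hpA, hpΔ, hpk⟩, -⟩ := hw z' w
    simp only [window, rows, cols, mem_image, mem_product, mem_filter, mem_range] at hpΔ
    obtain ⟨⟨r, c⟩, ⟨⟨t, ht, rfl⟩, ⟨k, ⟨hk, hkS, hkF⟩, rfl⟩⟩, hp⟩ := hpΔ
    obtain ⟨y, cp⟩ := p
    obtain ⟨hp0, hcol⟩ := (V.mem y cp).mp hpA
    dsimp only at hp hpk
    have ey : y = z' + row K m (t : ZMod m) + (0, (k : ℤ) * (S K : ℤ)) := by
      simp only [row, ZMod.val_cast_of_lt ht]
      rw [add_assoc, hp]; abel
    have hk' : V.pos (z' + row K m (t : ZMod m), cp.1) = (k : Tag K) := by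
      rw [ey, pos_nsmul, sub_eq_zero] at hp0
      exact hp0
    have hag : Agree fixS F (V.pos (z' + row K m (t : ZMod m), cp.1)) 0 := by
      rw [hk']
      exact ⟨fun h => by simpa using hkS h, fun i hi => by simpa using hkF i hi⟩
    have hidx : colIdx (V.pos (z' + row K m (t : ZMod m), cp.1)) = k := by
      rw [hk', colIdx, show (k : Tag K) = tagEquiv K (k : ZMod (Q K)) from
        ((tagHom_natCast K k).trans (Prod.ext (by simp) (funext fun i => by simp))).symm,
        AddEquiv.symm_apply_apply, ZMod.val_cast_of_lt hk]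
    refine ⟨((t : ZMod m), cp.1), ?_, ?_⟩
    · simp only [mem_filter, mem_univ, true_and]
      exact ⟨by rw [← hu, hpk, hw'], (hagree _ _).mpr hag⟩
    · have : site ((t : ZMod m), cp.1) = y := by simp only [hsite, hidx, ey]
      rw [this, hcol, hpk]

/-- A twist of a small position component. -/
lemma posT_inv {i : Fin 6} {v : D K} (h : TInv K i v) (z : D K) :
    (V.pos (z + v)).2 i = (V.pos z).2 i := by
  have := (twist_holds_iff (prT K i) (inT K i) (fun x => by simp [prT, inT]) v 0 _).mp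
    (V.holds _ (IsEqn.tInv h)) z
  rw [add_zero] at this
  exact this

/-- A small component depends only on its own tag component. -/
lemma posT_indep (i : Fin 6) (y : Z2) (g g' : Tag K) (hg : g.2 i = g'.2 i) :
    (V.pos (y, g)).2 i = (V.pos (y, g')).2 i := by
  have stepS : ∀ (n : ℕ) (h : Tag K),
      (V.pos (y, h + n • gS K)).2 i = (V.pos (y, h)).2 i := by
    intro n
    induction n with
    | zero => simp
    | succ n ih =>
      intro h
      rw [succ_nsmul, ← add_assoc, ← ih h, ← posT_inv V (TInv.tagS i) (y, h + n • gS K)]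
      refine congrArg (fun q : D K => (V.pos q).2 i) ?_
      exact Prod.ext (add_zero y).symm rfl
  have stepT : ∀ (i' : Fin 6), i' ≠ i → ∀ (n : ℕ) (h : Tag K),
      (V.pos (y, h + n • gT K i')).2 i = (V.pos (y, h)).2 i := by
    intro i' hi' n
    induction n with
    | zero => simp
    | succ n ih =>
      intro h
      rw [succ_nsmul, ← add_assoc, ← ih h, ← posT_inv V (TInv.tag hi') (y, h + n • gT K i')]
      refine congrArg (fun q : D K => (V.pos q).2 i) ?_
      exact Prod.ext (add_zero y).symm rfl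
  have hsum : ∀ (s : Finset (Fin 6)), i ∉ s → ∀ h : Tag K,
      (V.pos (y, h + ∑ t ∈ s, ((g' - g).2 t).val • gT K t)).2 i = (V.pos (y, h)).2 i := by
    intro s
    induction s using Finset.induction with
    | empty => simp
    | @insert a s ha ih =>
      intro hi h
      rw [mem_insert, not_or] at hi
      rw [sum_insert ha, ← add_assoc, ih hi.2, stepT a (Ne.symm hi.1)]
  have e : g' = g + ((g' - g).1).val • gS K +
      ∑ t ∈ univ.erase i, ((g' - g).2 t).val • gT K t := by
    refine Prod.ext ?_ (funext fun j => ?_)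
    · simp [gS, gT, Prod.fst_sum]
    · simp only [gS, gT, Prod.snd_add, Prod.snd_sum, Pi.add_apply, Finset.sum_apply, Prod.smul_snd,
        smul_zero, add_zero, Pi.smul_apply, Prod.snd_sub, Pi.sub_apply]
      rcases eq_or_ne j i with rfl | hj
      · rw [sum_eq_zero (fun t ht => by simp [(mem_erase.mp ht).1.symm]), add_zero, hg]
      · rw [sum_eq_single j (fun t _ ht => by simp [ht.symm]) (fun h => absurd (mem_erase.mpr
          ⟨hj, mem_univ _⟩) h)]
        simp
  rw [e, hsum _ (notMem_erase i univ), stepS]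

open Classical in
/-- In a window every value of a fixed small component is taken equally often. -/
lemma row_count {W U : Type} [AddCommGroup W] [Fintype W] {m : ℕ} [NeZero m] (hm : idem K m ≠ 0)
    {fixS : Bool} {F : Finset (Fin 6)} {i : Fin 6} (hi : i ∈ F) (key : Col K →+ W)
    (hw : KeyWin A (window K m fixS F) key) (u : W → U) (kt : Tag K → U)
    (hu : ∀ c, u (key c) = kt c.1) (hkt : ∀ g x, kt (g + (0, Pi.single i x)) = kt g) (z : Z2)
    (a : ZMod (tm i)) :
    (univ.filter fun x : ZMod m × ZMod (tm i) =>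
        (V.pos (z + row K m x.1, (0, Pi.single i x.2))).2 i = a).card =
      (univ.filter fun x : ZMod m × ZMod (tm i) =>
        (V.pos (z + row K m x.1, (0, Pi.single i x.2))).2 i = 0).card := by
  let p : ZMod m × ZMod (tm i) → ZMod (tm i) :=
    fun x => (V.pos (z + row K m x.1, (0, Pi.single i x.2))).2 i
  let P : ZMod m × Tag K → ZMod (tm i) := fun x => (V.pos (z + row K m x.1, x.2)).2 i
  have hP : ∀ t g, P (t, g) = p (t, g.2 i) := fun t g => posT_indep V i _ _ _ (by simp)
  let Z : Finset (ZMod m × Tag K) := univ.filter fun x => kt x.2 = kt 0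
  let G0 : Finset (Tag K) := univ.filter fun g => kt g = kt 0 ∧ g.2 i = 0
  -- the whole fibre is `G0` times the small picture
  have split : ∀ b, (Z.filter fun x => P x = b).card =
      G0.card * (univ.filter fun x => p x = b).card := by
    intro b
    rw [mul_comm, ← card_product]
    refine card_bij' (fun x _ => ((x.1, x.2.2 i), x.2 - (0, Pi.single i (x.2.2 i))))
      (fun x _ => (x.1.1, x.2 + (0, Pi.single i x.1.2))) ?_ ?_ ?_ ?_
    · rintro ⟨t, g⟩ hx
      simp only [Z, mem_filter, mem_univ, true_and] at hx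
      simp only [G0, mem_product, mem_filter, mem_univ, true_and]
      refine ⟨by rw [← hP]; exact hx.2, ?_, by simp⟩
      rw [sub_eq_add_neg, show -((0, Pi.single i (g.2 i)) : Tag K) =
        (0, Pi.single i (-(g.2 i))) by simp [Pi.single_neg], hkt]
      exact hx.1
    · rintro ⟨⟨t, x⟩, g⟩ hx
      simp only [G0, mem_product, mem_filter, mem_univ, true_and] at hx
      simp only [Z, mem_filter, mem_univ, true_and]
      refine ⟨by rw [hkt]; exact hx.2.1, ?_⟩
      rw [hP]
      simp [hx.2.2, hx.1]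
    · rintro ⟨t, g⟩ _
      simp
    · rintro ⟨⟨t, x⟩, g⟩ hx
      simp only [G0, mem_product, mem_filter, mem_univ, true_and] at hx
      simp [hx.2.2]
  -- the fixed part of a position
  let mask : Tag K → Tag K := fun q => (if fixS then q.1 else 0, fun j => if j ∈ F then q.2 j else 0)
  have hmask : ∀ q τ : Tag K, mask τ = τ → (mask q = τ ↔ Agree fixS F q τ) := by
    intro q τ hτ
    conv_lhs => rw [← hτ]
    simp only [mask, Agree, Prod.ext_iff, funext_iff]
    refine and_congr ?_ ⟨fun h j hj => by simpa [hj] using h j, fun h j => ?_⟩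
    · cases fixS <;> simp
    · split_ifs with hj
      · exact h j hj
      · rfl
  have idem2 : ∀ q, mask (mask q) = mask q := by
    intro q
    refine Prod.ext ?_ (funext fun j => ?_) <;> simp only [mask] <;> split_ifs <;> rfl
  have const : ∀ b, (Z.filter fun x => P x = b).card =
      (univ.filter fun τ : Tag K => mask τ = τ ∧ τ.2 i = b).card *
        (univ.filter fun w : W => u w = kt 0).card := by
    intro b
    rw [card_eq_sum_card_fiberwise (f := fun x => mask (V.pos (z + row K m x.1, x.2)))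
      (t := univ.filter fun τ : Tag K => mask τ = τ ∧ τ.2 i = b)]
    · rw [sum_const_nat]
      intro τ hτ
      simp only [mem_filter, mem_univ, true_and] at hτ
      rw [← win_card V hm key hw u kt hu z τ (kt 0)]
      refine congrArg _ (ext fun x => ?_)
      simp only [Z, mem_filter, mem_univ, true_and, hmask _ _ hτ.1]
      exact ⟨fun h => ⟨h.1.1, h.2⟩, fun h => ⟨⟨h.1, (h.2.2 i hi).trans hτ.2⟩, h.2⟩⟩
    · intro x hx
      simp only [Z, P, mem_coe, mem_filter, mem_univ, true_and] at hx ⊢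
      exact ⟨idem2 _, by simp [mask, hi, hx.2]⟩
  have shift : ∀ b, (univ.filter fun τ : Tag K => mask τ = τ ∧ τ.2 i = b).card =
      (univ.filter fun τ : Tag K => mask τ = τ ∧ τ.2 i = 0).card := by
    intro b
    have ms : ∀ (τ : Tag K) (c : ZMod (tm i)),
        mask (τ + (0, Pi.single i c)) = mask τ + (0, Pi.single i c) := by
      intro τ c
      refine Prod.ext ?_ (funext fun j => ?_)
      · simp [mask]
      · rcases eq_or_ne j i with rfl | hj
        · simp [mask, hi]
        · simp [mask, Pi.single_eq_of_ne hj]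
    refine card_bij' (fun τ _ => τ + (0, Pi.single i (-b))) (fun τ _ => τ + (0, Pi.single i b))
      ?_ ?_ ?_ ?_
    · intro τ hτ
      simp only [mem_filter, mem_univ, true_and] at hτ ⊢
      exact ⟨by rw [ms, hτ.1], by simp [hτ.2]⟩
    · intro τ hτ
      simp only [mem_filter, mem_univ, true_and] at hτ ⊢
      exact ⟨by rw [ms, hτ.1], by simp [hτ.2]⟩
    · intro τ _
      simp [add_assoc, ← Pi.single_add]
    · intro τ _
      simp [add_assoc, ← Pi.single_add]
  have hpos : 0 < G0.card := card_pos.mpr ⟨0, by simp [G0]⟩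
  exact Nat.eq_of_mul_eq_mul_left hpos (by rw [← split a, ← split 0, const, const, shift a])

/-! ### The seeds -/

variable (T : States V)

lemma row_inL {m r : ℕ} (hM : M K = m * r) (hm : 0 < m) (h : Nat.Coprime m r) (t : ℕ) :
    InL K ((t : ℤ) * idem K m, 0) := by
  refine ⟨dvd_mul_of_dvd_right ?_ _, dvd_zero _⟩
  exact (ZMod.intCast_zmod_eq_zero_iff_dvd _ _).mp ((idem_eq hM hm h).2 (dvd_mul_left _ _))

lemma base_inL (a : ℕ) : InL K ((a : ℤ) * idem K (M K), 0) :=
  row_inL (r := 1) (mul_one _).symm M_pos (Nat.coprime_one_right _) a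

open Classical in
/-- The counting congruence of a seed window. -/
lemma window_dvd {W U : Type} [AddCommGroup W] [Fintype W] {m r : ℕ} [NeZero m] (hm1 : 1 < m)
    (hM : M K = m * r) (hmr : Nat.Coprime m r) {fixS : Bool} {F : Finset (Fin 6)} {i : Fin 6}
    (hi : i ∈ F) (key : Col K →+ W) (hkey : Surjective key)
    (ht : Tiles A (keyTile (window K m fixS F) key))
    (u : W → U) (kt : Tag K → U) (hu : ∀ c, u (key c) = kt c.1)
    (hkt : ∀ g x, kt (g + (0, Pi.single i x)) = kt g) {y0 : Z2} {l : ℤ} {c : St K} {c1 : ℤ}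
    (hc1 : (c1 : ZMod (M K)) = c.1)
    (haff : ∀ y g, InL K y → T.s (y0 + y, g) = l • proj K (y, g) + c) (a : ℕ) :
    tm i ∣ (univ.filter fun t : ZMod m => ∀ s : St K,
      s.1 = (((l * ((a : ℤ) * idem K (M K) + (t.val : ℤ) * idem K m) + c1 : ℤ)) : ZMod (M K)) →
        spikeT K s i).card := by
  have hidem : idem K m ≠ 0 := by
    intro e
    have := (idem_eq (K := K) hM (by omega) hmr (d := m)).1 dvd_rfl
    rw [e, Int.cast_zero] at this
    have e' := this
    have : Fact (1 < m) := ⟨hm1⟩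
    exact zero_ne_one e'
  have hw : KeyWin A (window K m fixS F) key := (tiles_keyTile_iff hkey).mp ht
  set z : Z2 := y0 + ((a : ℤ) * idem K (M K), 0) with hz
  set N : ZMod m → ℤ := fun t => l * ((a : ℤ) * idem K (M K) + (t.val : ℤ) * idem K m) + c1 with hN
  have hs : ∀ t g, (T.s (z + row K m t, g)).1 = ((N t : ℤ) : ZMod (M K)) := by
    intro t g
    have hL : InL K (((a : ℤ) * idem K (M K), 0) + row K m t) :=
      ⟨dvd_add (base_inL a).1 (row_inL hM (by omega) hmr _).1,
        dvd_add (base_inL a).2 (row_inL hM (by omega) hmr t.val).2⟩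
    rw [hz, add_assoc, haff _ _ hL]
    simp only [hN, Prod.fst_add, Prod.smul_fst, row]
    rw [show (proj K ((((a : ℤ) * idem K (M K), 0) : Z2) + ((t.val : ℤ) * idem K m, 0), g)).1 =
      (((a : ℤ) * idem K (M K) + (t.val : ℤ) * idem K m : ℤ) : ZMod (M K)) by simp [proj],
      zsmul_eq_mul, ← hc1]
    push_cast
    ring
  let sp : ZMod m → Bool := fun t => decide (∀ s : St K, s.1 = ((N t : ℤ) : ZMod (M K)) → spikeT K s i)
  have hsp : ∀ t g, spikeT K (T.s (z + row K m t, g)) i ↔ sp t = true := by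
    intro t g
    simp only [sp, decide_eq_true_eq]
    refine ⟨fun h s hs' => ?_, fun h => h _ (hs t g)⟩
    have e : s.1 = (T.s (z + row K m t, g)).1 := by rw [hs, hs']
    simpa [spikeT, slice, cPart, etaP, uSpike, e] using h
  let p : ZMod m → ZMod (tm i) → ZMod (tm i) :=
    fun t x => (V.pos (z + row K m t, (0, Pi.single i x))).2 i
  have hp : ∀ t x, p t (x + 1) = p t x + if sp t then 0 else 1 := by
    intro t x
    have e := T.slopes.slopeT (z + row K m t, (0, Pi.single i x)) i
    rw [show ((z + row K m t, ((0 : ZMod K.q0), Pi.single i x)) : D K) + (0, gT K i) =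
      (z + row K m t, (0, Pi.single i (x + 1))) by simp [gT, Pi.single_add]] at e
    show (V.pos _).2 i = _
    rw [e, slopeT]
    congr 1
    by_cases h : sp t = true
    · rw [if_pos h, if_pos ((hsp t _).mpr h)]
    · rw [if_neg h, if_neg (fun h' => h ((hsp t _).mp h'))]
  have key' := seed_dvd sp p hp (fun b => row_count V hidem hi key hw u kt hu hkt z b)
  have : (univ.filter fun t => sp t = true) = univ.filter fun t : ZMod m => ∀ s : St K,
      s.1 = ((N t : ℤ) : ZMod (M K)) → spikeT K s i := by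
    ext t; simp [sp]
  rwa [this] at key'

lemma surj_keyH : Surjective (keyH K) := fun v =>
  ⟨((v.2.1, fun i => if h : i ∈ FH then 0 else v.2.2 ⟨i, h⟩), 0, (v.1, 0, 0)), by
    refine Prod.ext rfl (Prod.ext rfl (funext fun i => ?_))
    simp [keyH, keyT, i.2]⟩

lemma surj_keyC : Surjective (keyC K) := fun v =>
  ⟨((v.1, fun i => if h : i ∈ FC then 0 else v.2 ⟨i, h⟩), 0, 0), by
    refine Prod.ext rfl (funext fun i => ?_)
    simp [keyC, keyT, i.2]⟩

lemma surj_keyN (n : Att) : Surjective (keyN K n) := fun v =>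
  ⟨((0, fun i => if h : i ∈ FN then 0 else v.2 ⟨i, h⟩), 0, (0, v.1.1, Pi.single n v.1.2)), by
    refine Prod.ext (Prod.ext rfl ?_) (funext fun i => ?_)
    · simp [keyN]
    · simp [keyN, keyT, i.2]⟩

lemma keyT_single {F : Finset (Fin 6)} {i : Fin 6} (hi : i ∈ F) (g : Tag K) (x : ZMod (tm i)) :
    keyT K F (g + (0, Pi.single i x)) = keyT K F g := by
  funext j
  simp [keyT, Pi.single_eq_of_ne (fun e : j.1 = i => j.2 (e ▸ hi))]

variable (hA : Good K A)
include hA

variable {y0 : Z2} {l : ℤ} {c : St K}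
  (haff : ∀ y g, InL K y → T.s (y0 + y, g) = l • proj K (y, g) + c)
include haff

/-- The first seed: the slope is odd. -/
lemma not_two_dvd : ¬ (2 : ℤ) ∣ l := by
  intro h2
  obtain ⟨c1, hc1⟩ := ZMod.intCast_surjective c.1
  have hM : M K = 16 * (K.q0 * K.E * ∏ n, K.L n) := by rw [M_eq]; ring
  set l16 : ZMod 16 := (l : ZMod 16) with hl16
  set c16 : ZMod 16 := (c1 : ZMod 16) with hc16
  set n1 := (univ.filter fun t : ZMod 16 => (l16 * t + c16).val % 8 < 3).card with hn1
  have sl : ∀ (t : ZMod 16) (s : St K),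
      s.1 = (((l * ((0 : ℤ) * idem K (M K) + (t.val : ℤ) * idem K 16) + c1 : ℤ)) : ZMod (M K)) →
      slice K s = (l16 * t + c16).val % 8 := by
    intro t s hs
    rw [slice, hs, ← Nat.mod_mod_of_dvd _ (show 8 ∣ 16 by norm_num), val_mod dvdM16]
    push_cast [(idem_eq (K := K) hM (by norm_num) cop16_rest).1 dvd_rfl, ZMod.natCast_zmod_val]
    simp [l16, c16]
  have key := fun (i : Fin 6) (hi : i ∈ FH) => window_dvd V T (r := K.q0 * K.E * ∏ n, K.L n)
    (m := 16) (by norm_num) hM cop16_rest hi (keyH K) (surj_keyH) (hA _ IsTile.seedH)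
    (fun w => w.2) (fun g => (g.1, keyT K FH g)) (fun _ => rfl)
    (fun g x => by simp [keyT_single hi]) hc1 haff 0
  have ex : ∀ t : ZMod 16, ∃ s : St K,
      s.1 = (((l * ((0 : ℤ) * idem K (M K) + (t.val : ℤ) * idem K 16) + c1 : ℤ)) : ZMod (M K)) :=
    fun t => ⟨(_, 0, 0), rfl⟩
  have h3 : 3 ∣ n1 := by
    have := key 0 (by decide)
    show 3 ∣ n1
    refine (show (3 : ℕ) = tm 0 from rfl) ▸ ?_
    convert this using 2
    refine ext fun t => ?_
    simp only [mem_filter, mem_univ, true_and]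
    refine ⟨fun h s hs => ?_, fun h => ?_⟩
    · show slice K s < 3
      rw [sl t s hs]; exact h
    · obtain ⟨s, hs⟩ := ex t
      rw [← sl t s hs]; exact h s hs
  have h5 : 5 ∣ 16 - n1 := by
    have h5 := key 1 (by decide)
    have e : 16 - n1 = (univ.filter fun t : ZMod 16 => ¬ (l16 * t + c16).val % 8 < 3).card := by
      rw [filter_not, card_univ_sdiff, ZMod.card, hn1]
    rw [e]
    refine (show (5 : ℕ) = tm 1 from rfl) ▸ ?_
    convert h5 using 2
    refine ext fun t => ?_
    simp only [mem_filter, mem_univ, true_and]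
    refine ⟨fun h s hs => ?_, fun h => ?_⟩
    · show ¬ slice K s < 3
      rw [sl t s hs]; exact h
    · obtain ⟨s, hs⟩ := ex t
      rw [← sl t s hs]; exact h s hs
  have h6 : n1 = 6 := six_of_dvd (by
    rw [hn1]; exact (card_filter_le _ _).trans (by simp [ZMod.card])) h3 h5
  have hodd := odd_of_six l16 c16 h6
  have : (16 : ℤ) ∣ l - (l16.val : ℤ) :=
    (ZMod.intCast_zmod_eq_zero_iff_dvd _ _).mp (by push_cast; simp [l16])
  omega

omit hA haff in
/-- A base row in a prescribed slice. -/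
lemma exists_slice (h2 : ¬ (2 : ℤ) ∣ l) (c1 : ℤ) (j : ℕ) :
    ∃ a : ℕ, (((l * (a : ℤ) + c1 : ℤ)) : ZMod 16) = (j : ZMod 16) := by
  have hu : ∀ x : ZMod 16, x.val % 2 = 1 → ∃ y, x * y = 1 := by decide +kernel
  obtain ⟨y, hy⟩ := hu (l : ZMod 16) (by
    have := ZMod.val_intCast (n := 16) l
    omega)
  refine ⟨(y * ((j : ZMod 16) - c1)).val, ?_⟩
  push_cast
  rw [ZMod.natCast_zmod_val, ← mul_assoc, hy]
  ring

omit hA haff in
/-- Residues of the states in a window based in slice `j`. -/
lemma residues {m r : ℕ} (hM : M K = m * r) (hm : 0 < m) (hmr : Nat.Coprime m r)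
    (h16 : 16 ∣ r) (c1 : ℤ) {a j : ℕ} (hj : j < 8)
    (ha : (((l * (a : ℤ) + c1 : ℤ)) : ZMod 16) = (j : ZMod 16)) (t : ℕ) (s : St K)
    (hs : s.1 = (((l * ((a : ℤ) * idem K (M K) + (t : ℤ) * idem K m) + c1 : ℤ)) : ZMod (M K))) :
    slice K s = j ∧ ∀ d : ℕ, d ∣ M K →
      ((s.1.val : ℕ) : ZMod d) =
        (l : ZMod d) * ((a : ZMod d) + (t : ZMod d) * (idem K m : ZMod d)) + c1 := by
  have one : ∀ d : ℕ, d ∣ M K → ((idem K (M K) : ℤ) : ZMod d) = 1 := fun d hd =>
    (idem_eq (r := 1) (mul_one _).symm M_pos (Nat.coprime_one_right _)).1 hd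
  constructor
  · rw [slice, hs, ← Nat.mod_mod_of_dvd _ (show 8 ∣ 16 by norm_num), val_mod dvdM16]
    push_cast [(idem_eq hM hm hmr).2 (h16.mul_right _), one 16 dvdM16]
    push_cast at ha
    rw [mul_zero, add_zero, mul_one, ha, ZMod.val_cast_of_lt (by omega)]
    omega
  · intro d hd
    have : NeZero d := ⟨ne_of_gt (Nat.pos_of_dvd_of_pos hd M_pos)⟩
    rw [hs, val_cast hd]
    push_cast [one d hd]
    ring

omit hA haff in
/-- A window of rows constant in a prescribed residue gives none or all rows. -/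
lemma const_count {m : ℕ} [NeZero m] (P : ZMod m → Prop) [DecidablePred P] (b : Prop) [Decidable b]
    (h : ∀ t, P t ↔ b) : (univ.filter P).card = if b then m else 0 := by
  by_cases hb : b
  · rw [if_pos hb, filter_true_of_mem fun t _ => (h t).mpr hb, card_univ, ZMod.card]
  · rw [if_neg hb, filter_false_of_mem fun t _ => fun ht => hb ((h t).mp ht), card_empty]

omit hA haff in
lemma small_not_dvd {q p : ℕ} (hq : q.Prime) (hp : p.Prime) (h : p < q) : ¬ p ∣ q := fun hd =>
  absurd ((Nat.prime_dvd_prime_iff_eq hp hq).mp hd) (Nat.ne_of_lt h)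

/-- The third seed: the slope is a unit modulo `q0`. -/
lemma not_q0_dvd : ¬ (K.q0 : ℤ) ∣ l := by
  classical
  intro hq
  obtain ⟨c1, hc1⟩ := ZMod.intCast_surjective c.1
  have hM : M K = K.q0 * (16 * K.E * ∏ n, K.L n) := by rw [M_eq]; ring
  have h16 : 16 ∣ 16 * K.E * ∏ n, K.L n := (dvd_mul_right _ _).mul_right _
  obtain ⟨a, ha⟩ := exists_slice (not_two_dvd V T hA haff) c1 3
  set b : Prop := ((c1 : ZMod K.q0)).val < 13
  have key := fun (i : Fin 6) (hi : i ∈ FC) => window_dvd V T (m := K.q0)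
    (r := 16 * K.E * ∏ n, K.L n) (by have := K.q0_big; omega) hM cop_q0_rest hi (keyC K)
    (surj_keyC) (hA _ IsTile.seedC)
    id (fun g => (g.1, keyT K FC g)) (fun _ => rfl) (fun g x => by simp [keyT_single hi]) hc1 haff a
  have sp : ∀ (t : ZMod K.q0) (s : St K),
      s.1 = (((l * ((a : ℤ) * idem K (M K) + (t.val : ℤ) * idem K K.q0) + c1 : ℤ)) : ZMod (M K)) →
      slice K s = 3 ∧ (cPart K s < 13 ↔ b) := by
    intro t s hs
    obtain ⟨h1, h2⟩ := residues hM K.q0_prime.pos cop_q0_rest h16 c1 (by norm_num) ha t.val s hs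
    refine ⟨h1, ?_⟩
    have e := h2 K.q0 dvdMq0
    rw [(ZMod.intCast_zmod_eq_zero_iff_dvd l K.q0).mpr hq, zero_mul, zero_add] at e
    have e' := congrArg ZMod.val e
    rw [ZMod.val_natCast] at e'
    simp only [b, cPart, e']
  have h13 := key 4 (by decide)
  have h17 := key 5 (by decide)
  have ex : ∀ t : ZMod K.q0, ∃ s : St K,
      s.1 = (((l * ((a : ℤ) * idem K (M K) + (t.val : ℤ) * idem K K.q0) + c1 : ℤ)) : ZMod (M K)) :=
    fun t => ⟨(_, 0, 0), rfl⟩
  rw [const_count _ b (fun t => ⟨fun h => by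
      obtain ⟨s, hs⟩ := ex t
      have := h s hs
      simp only [spikeT] at this
      exact (sp t s hs).2.mp this.2, fun h s hs => by
      show slice K s = 3 ∧ cPart K s < 13
      exact ⟨(sp t s hs).1, (sp t s hs).2.mpr h⟩⟩)] at h13
  rw [const_count _ (¬ b) (fun t => ⟨fun h => by
      obtain ⟨s, hs⟩ := ex t
      have := h s hs
      simp only [spikeT] at this
      exact fun hb => this.2 ((sp t s hs).2.mpr hb), fun h s hs => by
      show slice K s = 3 ∧ ¬ cPart K s < 13
      exact ⟨(sp t s hs).1, fun hc => h ((sp t s hs).2.mp hc)⟩⟩)] at h17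
  by_cases hb : b
  · rw [if_pos hb] at h13
    exact small_not_dvd (p := 13) K.q0_prime (by norm_num) (by have := K.q0_big; omega) h13
  · rw [if_pos hb] at h17
    exact small_not_dvd (p := 17) K.q0_prime (by norm_num) K.q0_big h17

/-- The second seed: the slope is a unit modulo `E`. -/
lemma not_E_dvd : ¬ (K.E : ℤ) ∣ l := by
  classical
  intro hE
  obtain ⟨c1, hc1⟩ := ZMod.intCast_surjective c.1
  obtain ⟨n⟩ := (⟨Sum.inr (Sum.inl 0)⟩ : Nonempty Att)
  have : NeZero (mn K n) := ⟨(mn_pos n).ne'⟩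
  have h16 : 16 ∣ rest K n := (dvd_mul_right _ _).mul_right _
  obtain ⟨a, ha⟩ := exists_slice (not_two_dvd V T hA haff) c1 1
  set b : Prop := ((c1 : ZMod K.E)).val < 7
  have key := fun (i : Fin 6) (hi : i ∈ FN) => window_dvd V T (m := mn K n) (r := rest K n)
    (lt_of_lt_of_le K.E_prime.one_lt (Nat.le_mul_of_pos_right _ (K.L_prime n).pos)) (M_mn n)
    (cop_mn n) hi (keyN K n) (surj_keyN n) (hA _ (IsTile.win n))
    (fun w => w.2) (fun g => keyT K FN g) (fun _ => rfl) (fun g x => keyT_single hi g x) hc1 haff a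
  have sp : ∀ (t : ZMod (mn K n)) (s : St K),
      s.1 = (((l * ((a : ℤ) * idem K (M K) + (t.val : ℤ) * idem K (mn K n)) + c1 : ℤ)) : ZMod (M K)) →
      slice K s = 1 ∧ (etaP K s < 7 ↔ b) := by
    intro t s hs
    obtain ⟨h1, h2⟩ := residues (M_mn n) (mn_pos n) (cop_mn n) h16 c1 (by norm_num) ha t.val s hs
    refine ⟨h1, ?_⟩
    have e := h2 K.E dvdME
    rw [(ZMod.intCast_zmod_eq_zero_iff_dvd l K.E).mpr hE, zero_mul, zero_add] at e
    have e' := congrArg ZMod.val e
    rw [ZMod.val_natCast] at e'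
    simp only [b, etaP, e']
  have h7 := key 2 (by decide)
  have h11 := key 3 (by decide)
  have ex : ∀ t : ZMod (mn K n), ∃ s : St K,
      s.1 = (((l * ((a : ℤ) * idem K (M K) + (t.val : ℤ) * idem K (mn K n)) + c1 : ℤ)) : ZMod (M K)) :=
    fun t => ⟨(_, 0, 0), rfl⟩
  rw [const_count _ b (fun t => ⟨fun h => by
      obtain ⟨s, hs⟩ := ex t
      rcases h s hs with h' | h'
      · exact (sp t s hs).2.mp h'.2
      · exact absurd ((sp t s hs).1.symm.trans h'.1) (by norm_num), fun h s hs => by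
      exact Or.inl ⟨(sp t s hs).1, (sp t s hs).2.mpr h⟩⟩)] at h7
  rw [const_count _ (¬ b) (fun t => ⟨fun h => by
      obtain ⟨s, hs⟩ := ex t
      exact fun hb => (h s hs).2 ((sp t s hs).2.mpr hb), fun h s hs => by
      exact ⟨(sp t s hs).1, fun hc => h ((sp t s hs).2.mp hc)⟩⟩)] at h11
  have hL := K.L_mod n
  by_cases hb : b
  · rw [if_pos hb] at h7
    rcases (Nat.Prime.dvd_mul (show Nat.Prime 7 by norm_num)).mp h7 with h | h
    · exact small_not_dvd K.E_prime (by norm_num) (by have := E_gt (K := K); omega) h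
    · omega
  · rw [if_pos hb] at h11
    rcases (Nat.Prime.dvd_mul (show Nat.Prime 11 by norm_num)).mp h11 with h | h
    · have := K.E_mod; omega
    · omega

/-- The last seed: the slope is a unit modulo each `L n`. -/
lemma not_L_dvd (n : Att) : ¬ (K.L n : ℤ) ∣ l := by
  classical
  intro hLd
  obtain ⟨c1, hc1⟩ := ZMod.intCast_surjective c.1
  have : NeZero (mn K n) := ⟨(mn_pos n).ne'⟩
  have h16 : 16 ∣ rest K n := (dvd_mul_right _ _).mul_right _
  obtain ⟨a, ha⟩ := exists_slice (not_two_dvd V T hA haff) c1 2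
  have hLE : Nat.Coprime K.E (K.L n) := cop_prime K.E_prime (K.L_prime n) (K.E_L n)
  have h7 := window_dvd V T (m := mn K n) (r := rest K n) (i := 2) (F := FN)
    (lt_of_lt_of_le K.E_prime.one_lt (Nat.le_mul_of_pos_right _ (K.L_prime n).pos)) (M_mn n)
    (cop_mn n) (by decide) (keyN K n) (surj_keyN n) (hA _ (IsTile.win n))
    (fun w => w.2) (fun g => keyT K FN g) (fun _ => rfl)
    (fun g x => keyT_single (by decide) g x) hc1 haff a
  set u0 : ∀ k, ZMod (K.L k) := fun k => (l : ZMod (K.L k)) * (a : ZMod (K.L k)) + c1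
  let f : ZMod K.E → Prop := fun η => seedF (L := K.L) η u0 = true
  have sp : ∀ (t : ZMod (mn K n)) (s : St K),
      s.1 = (((l * ((a : ℤ) * idem K (M K) + (t.val : ℤ) * idem K (mn K n)) + c1 : ℤ)) : ZMod (M K)) →
      slice K s = 2 ∧ (uSpike K s ↔
        f ((l : ZMod K.E) * (t.val : ZMod K.E) + ((l : ZMod K.E) * (a : ZMod K.E) + c1))) := by
    intro t s hs
    obtain ⟨h1, h2⟩ := residues (M_mn n) (mn_pos n) (cop_mn n) h16 c1 (by norm_num) ha t.val s hs
    refine ⟨h1, ?_⟩
    have eE := h2 K.E dvdME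
    rw [(idem_eq (M_mn n) (mn_pos n) (cop_mn n)).1 (dvd_mul_right _ _), mul_one] at eE
    have eu : (fun k => (s.1.val : ZMod (K.L k))) = u0 := by
      funext k
      rw [h2 _ (dvdML k)]
      by_cases hk : k = n
      · subst hk
        rw [(ZMod.intCast_zmod_eq_zero_iff_dvd l (K.L k)).mpr hLd]
        simp [u0, (ZMod.intCast_zmod_eq_zero_iff_dvd l (K.L k)).mpr hLd]
      · rw [(idem_eq (M_mn n) (mn_pos n) (cop_mn n)).2 (by
          exact ((dvd_prod_of_mem K.L (mem_erase.mpr ⟨hk, mem_univ k⟩)).mul_left _).mul_right _)]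
        simp [u0]
    have e3 : (l : ZMod K.E) * ((a : ZMod K.E) + (t.val : ZMod K.E)) + c1 =
        (l : ZMod K.E) * (t.val : ZMod K.E) + ((l : ZMod K.E) * (a : ZMod K.E) + c1) := by ring
    simp only [uSpike, f, eu, eE, e3]
  have hu : IsUnit (l : ZMod K.E) := by
    have : Fact K.E.Prime := ⟨K.E_prime⟩
    rw [isUnit_iff_ne_zero]
    exact fun h => not_E_dvd V T hA haff ((ZMod.intCast_zmod_eq_zero_iff_dvd l K.E).mp h)
  have e : (univ.filter fun t : ZMod (mn K n) => ∀ s : St K,
      s.1 = (((l * ((a : ℤ) * idem K (M K) + (t.val : ℤ) * idem K (mn K n)) + c1 : ℤ)) : ZMod (M K)) →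
        spikeT K s 2).card =
      K.L n * (univ.filter fun η : ZMod K.E => seedF (L := K.L) η u0).card := by
    rw [← count_factor (m := mn K n) rfl hLE (l : ZMod K.E) ((l : ZMod K.E) * (a : ZMod K.E) + c1) hu f]
    refine congrArg _ (ext fun t => ?_)
    rw [mem_filter, mem_filter]
    simp only [mem_univ, true_and]
    refine ⟨fun h => ?_, fun h s hs => Or.inr ⟨(sp t s hs).1, (sp t s hs).2.mpr h⟩⟩
    obtain ⟨s, hs⟩ : ∃ s : St K,
        s.1 = (((l * ((a : ℤ) * idem K (M K) + (t.val : ℤ) * idem K (mn K n)) + c1 : ℤ)) :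
          ZMod (M K)) := ⟨(_, 0, 0), rfl⟩
    rcases h s hs with h' | h'
    · exact absurd ((sp t s hs).1.symm.trans h'.1) (by norm_num)
    · exact (sp t s hs).2.mp h'.2
  rw [e] at h7
  rcases (Nat.Prime.dvd_mul (show Nat.Prime 7 by norm_num)).mp h7 with h | h
  · have := K.L_mod n; omega
  · refine seedF_not_dvd (L := K.L) (E := K.E) ?_ u0 h
    have := K.E_big
    simp only [nTerm, Fintype.card_fun, Fintype.card_bool]
    omega

/-- The slope of the states is a unit. -/
lemma coprime_slope : IsCoprime l (M K : ℤ) := by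
  have hp : ∀ p : ℕ, p.Prime → ¬ (p : ℤ) ∣ l → IsCoprime l (p : ℤ) := fun p hp h =>
    ((Nat.prime_iff_prime_int.mp hp).coprime_iff_not_dvd.mpr h).symm
  rw [M_eq]
  push_cast
  refine ((IsCoprime.mul_right ?_ (hp _ K.q0_prime (not_q0_dvd V T hA haff))).mul_right
    (hp _ K.E_prime (not_E_dvd V T hA haff))).mul_right
      (IsCoprime.prod_right fun n _ => hp _ (K.L_prime n) (not_L_dvd V T hA haff n))
  exact (show (16 : ℤ) = 2 ^ 4 by norm_num) ▸
    (hp 2 Nat.prime_two (by exact_mod_cast not_two_dvd V T hA haff)).pow_right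

omit hA haff

/-! ### The base site -/

lemma psi_lt (s : St K) (x : XI) : psi K s x < pX K x := by
  classical
  have h1 := pX_gt (K := K) x
  have h2 := sq_le_bound (K := K)
  have hQ : 1 ≤ Q K := Nat.pos_of_ne_zero (NeZero.ne _)
  have hM := M_pos (K := K)
  have h100 : 100 < bound K := by
    rw [bound_eq, pow_two]
    nlinarith [Nat.zero_le (M K * M K * Q K * Q K)]
  rcases x with n | ⟨n, j⟩
  · simp only [psi]
    split_ifs
    · rcases n with n | w | i <;> simp only [rdVal]
      · have := ZMod.val_lt ((K.table s.2.2).1.2.2 n); omega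
      · have := ZMod.val_lt (kval (K.table s.2.2) w); omega
      · have := ZMod.val_lt (par0 (K.table s.2.2) + if h16 K s < 8 then 0 else 1)
        split_ifs at this ⊢ <;> omega
    · omega
  · simp only [psi]
    split_ifs
    · have h3 := (Fintype.equivFin (LCls K n j) (QuotientAddGroup.mk (s.1, s.2.1))).isLt
      have h4 : Fintype.card (LCls K n j) ≤ M K * M K := by
        refine (Fintype.card_le_of_surjective _ (QuotientAddGroup.mk_surjective
          (s := AddSubgroup.zmultiples _))).trans ?_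
        simp [Fintype.card_prod, ZMod.card]
      have h5 : M K * M K ≤ M K * M K * Q K * (M K * M K * Q K) :=
        (Nat.le_mul_of_pos_right _ hQ).trans
          (Nat.le_mul_of_pos_right _ (Nat.mul_pos (Nat.mul_pos hM hM) hQ))
      omega
    · omega

lemma cast_inj {p a b : ℕ} (ha : a < p) (hb : b < p) (h : (a : ZMod p) = (b : ZMod p)) : a = b := by
  have := congrArg ZMod.val h
  rwa [ZMod.val_natCast_of_lt ha, ZMod.val_natCast_of_lt hb] at this

/-- A shift after which equal colours have equal labels on finitely many cells. -/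
lemma shift_labels {ι D κ : Type} [AddCommGroup D] [Fintype ι] [DecidableEq ι] [Fintype κ]
    {P : ι → ℕ} (hP : ∀ i, (P i).Prime) (X : ∀ i, D → ZMod (P i)) (ψ : ι → D → ℕ) (e : ι → D)
    (hlt : ∀ i y, ψ i y < P i) (hX : ∀ i y, X i (y + e i) = X i y + (ψ i y : ZMod (P i)))
    (hX' : ∀ i j, i ≠ j → ∀ y, X i (y + e j) = X i y) (hψ : ∀ i j y, ψ i (y + e j) = ψ i y)
    (cell : κ → D) (hbig : ∀ i, Fintype.card κ * Fintype.card κ < P i) :
    ∃ sh : D, (∀ {B : Type} [AddCommGroup B] (f : D →+ B), (∀ j, f (e j) = 0) → f sh = 0) ∧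
      ∀ i p p', X i (cell p + sh) = X i (cell p' + sh) → ψ i (cell p + sh) = ψ i (cell p' + sh) := by
  classical
  obtain ⟨t, ht⟩ := exists_residue_shift hP X (fun i y => (ψ i y : ZMod (P i))) e hX hX'
    (fun i j y => congrArg (fun n : ℕ => (n : ZMod (P i))) (hψ i j y)) (univ.image cell)
    (fun i => lt_of_le_of_lt (Nat.mul_le_mul card_image_le card_image_le) (hbig i))
  exact ⟨∑ j, t j • e j, fun f hf => by simp [hf], fun i p p' h => cast_inj (hlt _ _) (hlt _ _)
    (ht i _ (mem_image_of_mem _ (mem_univ p)) _ (mem_image_of_mem _ (mem_univ p')) h)⟩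

lemma muX_inv {x : XI} {v : D K} (h : XInv K x v) (z : D K) :
    (V.mu (z + v)).2 x = (V.mu z).2 x := by
  have := (twist_holds_iff (prX K x) (inX K x) (fun a => by simp [prX, inX]) v 0 _).mp
    (V.holds _ (IsEqn.xInv h)) z
  rw [add_zero] at this
  exact this

lemma mu_zsmul (z : D K) (i j : ℤ) (x : XI) :
    (V.mu (z + i • perI K + j • perJ K)).2 x = (V.mu z).2 x := by
  have step : ∀ (v : D K), (∀ z, (V.mu (z + v)).2 x = (V.mu z).2 x) → ∀ (k : ℤ) z,
      (V.mu (z + k • v)).2 x = (V.mu z).2 x := by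
    intro v hv k
    induction k using Int.induction_on with
    | zero => simp
    | succ k ih => intro z; rw [add_smul, one_smul, ← add_assoc, hv, ih]
    | pred k ih =>
      intro z
      rw [← hv, add_assoc, sub_smul, one_smul, sub_add_cancel, ih]
  rw [step _ (fun z => by rw [V.mu_shift]) j, step _ (muX_inv V (XInv.perI x)) i]

end Seeds

open Seeds in
/-- A base site: the slope is a unit and equal colours near it have equal labels. -/
theorem exists_base {A : Set (G K)} (hA : Good K A) {V : View A} (T : States V) :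
    Nonempty (Base T) := by
  classical
  let cell : Fin (M K) × Fin (M K) × Tag K → D K := fun p =>
    (((big K : ℤ) * (p.1.val : ℤ), (big K : ℤ) * (p.2.1.val : ℤ)), p.2.2)
  have hc' : Fintype.card (Fin (M K) × Fin (M K) × Tag K) ≤ M K * M K * Q K := by
    simp [Fintype.card_pi, ZMod.card, Q_eq, mul_assoc]
  obtain ⟨sh, hsh, ht⟩ := shift_labels (pX_prime K) (fun x z => (V.mu z).2 x)
    (fun x z => psi K (T.s z) x) (eX K) (fun x z => psi_lt _ _)
    (fun x z => T.slopes.slopeX z x)
    (fun x x' h z => muX_inv V (XInv.other (Ne.symm h)) z)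
    (fun x x' z => congrArg (fun s => psi K s x) (T.free _ (Or.inl ⟨x', rfl⟩) z))
    cell (fun x => lt_of_le_of_lt (Nat.mul_le_mul hc' hc') (lt_trans sq_le_bound (pX_gt x)))
  have hsh2 : sh.2 = 0 := hsh (AddMonoidHom.snd Z2 (Tag K)) (fun _ => rfl)
  obtain ⟨l, c, hc⟩ := T.affine sh.1
  refine ⟨⟨sh.1, l, coprime_slope V T hA hc, ⟨c, hc⟩, ?_⟩⟩
  -- every point of the coset is a cell moved by periods
  have red : ∀ (y : Z2) (g : Tag K), InL K y → ∃ p, 
      (∀ x, (V.mu (sh.1 + y, g)).2 x = (V.mu (cell p + sh)).2 x) ∧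
      T.s (sh.1 + y, g) = T.s (cell p + sh) := by
    rintro ⟨y1, y2⟩ g ⟨⟨a, ha⟩, ⟨b, hb⟩⟩
    dsimp only at ha hb
    subst ha hb
    obtain ⟨a0, ha0⟩ : ∃ a0 : Fin (M K), (a0.val : ℤ) = a % M K :=
      ⟨⟨(a % M K).toNat, by
        have := Int.emod_lt_of_pos a (b := (M K : ℤ)) (by exact_mod_cast M_pos (K := K))
        have := Int.emod_nonneg a (b := (M K : ℤ)) (by exact_mod_cast (NeZero.ne (M K)))
        omega⟩, Int.toNat_of_nonneg (Int.emod_nonneg a (by exact_mod_cast (NeZero.ne (M K))))⟩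
    obtain ⟨b0, hb0⟩ : ∃ b0 : Fin (M K), (b0.val : ℤ) = b % M K :=
      ⟨⟨(b % M K).toNat, by
        have := Int.emod_lt_of_pos b (b := (M K : ℤ)) (by exact_mod_cast M_pos (K := K))
        have := Int.emod_nonneg b (b := (M K : ℤ)) (by exact_mod_cast (NeZero.ne (M K)))
        omega⟩, Int.toNat_of_nonneg (Int.emod_nonneg b (by exact_mod_cast (NeZero.ne (M K))))⟩
    have hzL : InL K ((big K : ℤ) * (a0.val : ℤ), (big K : ℤ) * (b0.val : ℤ)) :=
      ⟨dvd_mul_right _ _, dvd_mul_right _ _⟩
    have ez : cell (a0, b0, g) + sh =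
        (sh.1 + ((big K : ℤ) * (a0.val : ℤ), (big K : ℤ) * (b0.val : ℤ)), g) :=
      Prod.ext (add_comm _ _) (by simp [cell, hsh2])
    refine ⟨(a0, b0, g), fun x => ?_, ?_⟩
    · rw [← mu_zsmul V (cell (a0, b0, g) + sh) (a / M K) (b / M K) x, ez]
      refine congrArg (fun q : D K => (V.mu q).2 x) ?_
      have d1 := Int.emod_add_mul_ediv a (M K)
      have d2 := Int.emod_add_mul_ediv b (M K)
      have hS : (S K : ℤ) = (M K : ℤ) * (big K : ℤ) := by rw [S_eq]; push_cast; ring
      refine Prod.ext (Prod.ext ?_ ?_) ?_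
      · simp [perI, perJ, hS, ha0]
        linear_combination (-(big K : ℤ)) * d1
      · simp [perI, perJ, hS, hb0]
        linear_combination (-(big K : ℤ)) * d2
      · simp [perI, perJ]
    · rw [ez, hc _ _ ⟨dvd_mul_right _ _, dvd_mul_right _ _⟩, hc _ _ hzL]
      congr 2
      have ea : ((a0.val : ℤ) : ZMod (M K)) = (a : ZMod (M K)) := by rw [ha0, ZMod.intCast_mod]
      have eb : ((b0.val : ℤ) : ZMod (M K)) = (b : ZMod (M K)) := by rw [hb0, ZMod.intCast_mod]
      simp [proj, ← ea, ← eb]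
  intro x y y' g g' hy hy' h
  obtain ⟨p, e1, e2⟩ := red y g hy
  obtain ⟨p', e1', e2'⟩ := red y' g' hy'
  rw [e1 x, e1' x] at h
  rw [e2, e2']
  exact ht x p p' h

end

end Vale.Agent.P043.Z3
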