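/-
P043, dimension three: the explicit tiled set.
-/
import Vale.Agent.P043.Z3.Iface
import Vale.Agent.P043.Z3.Count

namespace Vale.Agent.P043.Z3

open Function Finset

noncomputable section

variable (K : Par)

/-- The column index of a site. -/
def colIdx (z : Z2) : Tag K := (z.2 / (S K : ℤ)) • (1 : Tag K)

/-- The rank of a point in the slice of the last seed. -/
def epsC (s : St K) (g : Tag K) : ℕ :=
  if cPart K s < 13 then (g.2 4).val else 13 + 17 * ((cPart K s - 13) / 17) + (g.2 5).val

/-- The residues of `u` read by the second slice. -/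
def uVec (s : St K) (n : Att) : ZMod (K.L n) := (s.1.val : ZMod (K.L n))

def etaZ (s : St K) : ZMod K.E := (s.1.val : ZMod K.E)

/-- The seed tag read by the third seed slice. -/
def g7 (g : Tag K) : Fin 7 := ⟨(g.2 2).val, ZMod.val_lt (n := 7) (g.2 2)⟩

open Classical in
/-- Base positions of the small tags. -/
def baseT (s : St K) (g : Tag K) : ∀ i : Fin 6, ZMod (tm i) := fun i =>
  if spikeT K s i then
    match i with
    | 0 => (slice K s : ZMod (tm 0))
    | 1 => ((slice K s - 3 : ℕ) : ZMod (tm 1))
    | 2 => if slice K s = 1 then (etaP K s : ZMod (tm 2))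
        else ((seedCol (etaZ K s) (uVec K s) (g7 K g)).val : ZMod (tm 2))
    | 3 => ((etaP K s - 7 : ℕ) : ZMod (tm 3))
    | 4 => (cPart K s : ZMod (tm 4))
    | 5 => ((cPart K s - 13 : ℕ) : ZMod (tm 5))
  else g.2 i

open Classical in
/-- Base position of the big tag. -/
def baseS (s : St K) (g : Tag K) : ZMod K.q0 :=
  if spikeS K s then ((∑ n, uPart K s n + cPart K s : ℕ) : ZMod K.q0)
  else g.1 + ((if slice K s = 3 then epsC K s g else cPart K s : ℕ) : ZMod K.q0)

/-- Positions. -/
def solPos (y : D K) : Tag K :=
  (baseS K (proj K y) y.2, baseT K (proj K y) y.2) - colIdx K y.1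

open Classical in
/-- Whether an option is active at a state. -/
def Sel : Opt K → St K → Prop
  | .inl s, r => r = s
  | .inr ⟨k, c⟩, r => c = QuotientAddGroup.mk r

open Classical in
/-- Marking colours. -/
def solMu (y : D K) : Mu K :=
  (fun o => if Sel K o (proj K y) then (y.1.1 : ZMod (pO K o)) else 0,
    fun x => (y.1.1 : ZMod (pX K x)) * (psi K (proj K y) x : ZMod (pX K x)))

/-- The label of the row selected in a spike. -/
def selLab (s : St K) (n : Att) : ZMod K.q0 := -((∑ m ∈ univ.erase n, uPart K s m : ℕ) : ZMod K.q0)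

/-- The macro site of a site. -/
def macroOf (z : Z2) : ℤ × ℤ := (z.1 / ((S K / 2 : ℕ) : ℤ), z.2 / ((Q K * S K : ℕ) : ℤ))

/-- The selected tag. -/
def selTag (z : Z2) : ZMod K.q0 := (K.table_surj (P043.genuine (macroOf K z))).choose

/-- The values of an attribute on tags near a state. -/
def tagVal (s : St K) (n : Att) (g : ZMod K.q0) : ℕ := rdVal K (s.1, s.2.1, g) n

/-- The values on tags of reference. -/
def refVal (n : Att) (g : ZMod K.q0) : ℕ := tagVal K 0 n g

open Classical in
/-- The common value read on label `l` when `a` is selected. -/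
def canVal (n : Att) (r : ZMod K.q0) (a : ℕ) (l : ZMod K.q0) : ℕ :=
  refVal K n (Equiv.swap (Classical.epsilon fun g => refVal K n g = a) r l)

/-- The labels of the points of a spike. -/
def role (s : St K) (n : Att) (sel : ZMod K.q0) : ZMod K.q0 ≃ ZMod K.q0 :=
  Classical.epsilon fun p => p sel = selLab K s n ∧
    ∀ g, canVal K n (selLab K s n) (tagVal K s n sel) (p g) = tagVal K s n g

/-- The labels of one attribute in the second seed slice: injective on every column and label. -/
def lab2 (n : Att) (u : ∀ m, ZMod (K.L m)) (a : Fin 7) :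
    ZMod K.E × ZMod (K.L n) × Fin 7 → ZMod (K.L n) :=
  Classical.epsilon fun f => Set.BijOn
    (fun p => (seedLab p.1 (update u n p.2.1) p.2.2, f p))
    {p | seedCol p.1 (update u n p.2.1) p.2.2 = a} Set.univ

open Classical in
/-- Label colours `e`. -/
def solE (y : D K) : ZMod K.E :=
  if slice K (proj K y) = 1 then
    ((if etaP K (proj K y) < 7 then (y.2.2 2).val
      else 7 + 11 * ((etaP K (proj K y) - 7) / 11) + (y.2.2 3).val : ℕ) : ZMod K.E)
  else if slice K (proj K y) = 2 then seedLab (etaZ K (proj K y)) (uVec K (proj K y)) (g7 K y.2)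
  else if spikeS K (proj K y) then (if y.2.1 = selTag K y.1 then 1 else 0)
  else etaZ K (proj K y)

open Classical in
/-- Label colours `l`. -/
def solL (y : D K) (n : Att) : ZMod (K.L n) :=
  if slice K (proj K y) = 2 then
    lab2 K n (update (uVec K (proj K y)) n 0)
      (seedCol (etaZ K (proj K y)) (uVec K (proj K y)) (g7 K y.2))
      (etaZ K (proj K y), uVec K (proj K y) n, g7 K y.2)
  else if spikeS K (proj K y) then
    ((role K (proj K y) n (selTag K y.1) y.2.1).val : ZMod (K.L n))
  else uVec K (proj K y) n

/-- The colour of the first seed. -/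
def solH (y : D K) : ZMod 16 :=
  ((if slice K (proj K y) < 3 then 3 * (h16 K (proj K y) / 8) + (y.2.2 0).val
    else 6 + 5 * (h16 K (proj K y) / 8) + (y.2.2 1).val : ℕ) : ZMod 16)

/-- The colour of a point. -/
def solCol (y : D K) : Col K := (y.2, solMu K y, (solH K y, solE K y, solL K y))

/-- The tiled set. -/
def solSet : Set (G K) :=
  pointSet (keyTag K) (fun y => (tagEquiv K).symm (solPos K y)) (solCol K)

end

end Vale.Agent.P043.Z3
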