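/-
P043, dimension three: the positions and colours of a tiled set, and the window tiles in these terms.
-/
import Vale.Agent.P043.Z3.Iface

namespace Vale.Agent.P043.Z3

open Function Finset

noncomputable section

variable {K : Par}

/-! ### Elementary facts -/

lemma S_ne_zero : (S K : ℤ) ≠ 0 := by
  have h : big K ≠ 0 := by
    unfold big
    exact mul_ne_zero (prod_ne_zero_iff.mpr fun x _ => (pX_prime K x).ne_zero)
      (prod_ne_zero_iff.mpr fun o _ => (pO_prime K o).ne_zero)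
  rw [S_eq]
  exact_mod_cast mul_ne_zero (NeZero.ne (M K)) h

lemma colStep_inj : Injective fun n : ℤ => n • colStep K := by
  intro a b e
  have := congrArg Prod.snd e
  simp only [colStep, Prod.smul_snd, smul_eq_mul] at this
  exact mul_right_cancel₀ S_ne_zero this

lemma tagEquiv_natCast (k : ℕ) :
    tagEquiv K (k : ZMod (Q K)) = ((k : ZMod K.q0), fun i => (k : ZMod (tm i))) :=
  tagHom_natCast K k

lemma tagEquiv_one : tagEquiv K 1 = 1 := by
  have := tagEquiv_natCast (K := K) 1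
  simp only [Nat.cast_one] at this
  exact this

lemma keyTag_colMu_surj (g : Tag K) (m : Mu K) : ∃ c, keyTag K c = g ∧ colMu K c = m :=
  ⟨(g, m, 0), rfl, rfl⟩

lemma keyTag_surj : Surjective (keyTag K) := fun g => ⟨(g, 0), rfl⟩

lemma keyT_ext (F : Finset (Fin 6)) (t : KeyT F) :
    keyT K F (0, fun i => if h : i ∉ F then t ⟨i, h⟩ else 0) = t := by
  funext i
  exact dif_pos i.2

lemma keyH_surj : Surjective (keyH K) := by
  rintro ⟨h, s, t⟩
  refine ⟨((s, fun i => if hi : i ∉ FH then t ⟨i, hi⟩ else 0), 0, (h, 0)), ?_⟩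
  refine Prod.ext rfl (Prod.ext rfl ?_)
  funext i
  exact dif_pos i.2

lemma keyC_surj : Surjective (keyC K) := by
  rintro ⟨s, t⟩
  refine ⟨((s, fun i => if hi : i ∉ FC then t ⟨i, hi⟩ else 0), 0), ?_⟩
  refine Prod.ext rfl ?_
  funext i
  exact dif_pos i.2

lemma keyN_colX_surj (n : Att) (x : XI) (c : (ZMod K.E × ZMod (K.L n)) × KeyT FN)
    (t : ZMod (pX K x)) : ∃ y, keyN K n y = c ∧ colX K x y = t := by
  refine ⟨((0, fun i => if hi : i ∉ FN then c.2 ⟨i, hi⟩ else 0), (0, Pi.single x t),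
    (0, c.1.1, Pi.single n c.1.2)), ?_, by simp [colX]⟩
  refine Prod.ext (Prod.ext rfl (by simp [keyN])) ?_
  exact keyT_ext FN c.2

lemma keyN_surj (n : Att) : Surjective (keyN K n) := fun c =>
  let ⟨y, h, _⟩ := keyN_colX_surj n (.inl n) c 0
  ⟨y, h⟩

/-! ### Lists on tags and lists on residues -/

lemma holds_toRes_iff (L : E3 K) (p : D K → ZMod (Q K)) (m : D K → Mu K) :
    Holds (toRes K L) (fun z => (m z, p z)) ↔ Holds L (fun z => (m z, tagEquiv K (p z))) := by
  set e : Mu K × ZMod (Q K) ≃ C K := Equiv.prodCongr (Equiv.refl _) (tagEquiv K).toEquiv with he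
  refine forall_congr' fun y => ?_
  have hcomp : (fun j => (m (y + L.δ j), tagEquiv K (p (y + L.δ j))) + L.e j) ∘ e =
      e ∘ fun j => (m (y + (toRes K L).δ j), p (y + (toRes K L).δ j)) + (toRes K L).e j := by
    funext j
    refine Prod.ext rfl ?_
    show tagEquiv K (p _) + _ = tagEquiv K (p _ + (tagEquiv K).symm _)
    rw [map_add, AddEquiv.apply_symm_apply]
    rfl
  have h := Bijective.of_comp_iff' e.bijective
    (fun j => (m (y + (toRes K L).δ j), p (y + (toRes K L).δ j)) + (toRes K L).e j)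
  rw [← hcomp] at h
  exact h.symm.trans (Bijective.of_comp_iff _ e.bijective)

/-- The fixed components of a position vanish. -/
def Fix (fixS : Bool) (F : Finset (Fin 6)) (p : Tag K) : Prop :=
  (fixS = true → p.1 = 0) ∧ ∀ i ∈ F, p.2 i = 0

lemma fix_natCast (fixS : Bool) (F : Finset (Fin 6)) (k : ℕ) :
    Fix fixS F (tagEquiv K (k : ZMod (Q K))) ↔
      (fixS = true → (k : ZMod K.q0) = 0) ∧ ∀ i ∈ F, (k : ZMod (tm i)) = 0 := by
  rw [tagEquiv_natCast]; rfl

lemma mem_cols {fixS : Bool} {F : Finset (Fin 6)} {x : Z2} :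
    x ∈ cols K fixS F ↔
      ∃ k < Q K, Fix (K := K) fixS F (tagEquiv K (k : ZMod (Q K))) ∧ k • colStep K = x := by
  simp only [cols, mem_image, mem_filter, mem_range, fix_natCast, colStep, Prod.smul_mk,
    nsmul_eq_mul, mul_zero, and_assoc]

lemma mem_window {m : ℕ} {fixS : Bool} {F : Finset (Fin 6)} {x : Z2} :
    x ∈ window K m fixS F ↔ ∃ r ∈ rows K m, ∃ c ∈ cols K fixS F, r + c = x := by
  simp only [window, mem_image, mem_product]
  exact ⟨fun ⟨⟨r, c⟩, ⟨hr, hc⟩, e⟩ => ⟨r, hr, c, hc, e⟩,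
    fun ⟨r, hr, c, hc, e⟩ => ⟨(r, c), ⟨hr, hc⟩, e⟩⟩

lemma rows_snd {m : ℕ} {r : Z2} (h : r ∈ rows K m) : r.2 = 0 := by
  obtain ⟨t, -, rfl⟩ := mem_image.mp h
  rfl

lemma cols_fst {fixS : Bool} {F : Finset (Fin 6)} {c : Z2} (h : c ∈ cols K fixS F) : c.1 = 0 := by
  obtain ⟨k, -, rfl⟩ := mem_image.mp h
  rfl

lemma zero_mem_rows {m : ℕ} (hm : 0 < m) : (0 : Z2) ∈ rows K m :=
  mem_image.mpr ⟨0, mem_range.mpr hm, by simp⟩

/-! ### The view of a set -/

namespace View

variable {A : Set (G K)} (V : View A)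

lemma pos_nsmul (y : Z2) (g : Tag K) (k : ℕ) :
    V.pos (y + k • colStep K, g) = V.pos (y, g) - tagEquiv K (k : ZMod (Q K)) := by
  induction k with
  | zero => simp
  | succ k ih =>
    have e : ((y + (k + 1) • colStep K, g) : D K) = (y + k • colStep K, g) + perJ K := by
      refine Prod.ext ?_ (add_zero g).symm
      rw [succ_nsmul, ← add_assoc]; rfl
    rw [e, V.pos_shift, ih, Nat.cast_succ, map_add, tagEquiv_one, sub_add_eq_sub_sub]

lemma mu_nsmul (y : Z2) (g : Tag K) (k : ℕ) :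
    V.mu (y + k • colStep K, g) = V.mu (y, g) := by
  induction k with
  | zero => simp
  | succ k ih =>
    have e : ((y + (k + 1) • colStep K, g) : D K) = (y + k • colStep K, g) + perJ K := by
      refine Prod.ext ?_ (add_zero g).symm
      rw [succ_nsmul, ← add_assoc]; rfl
    rw [e, V.mu_shift, ih]

/-- The number of steps from a site to the point of the given tag in its column. -/
def height (z : D K) : ℕ := ((tagEquiv K).symm (V.pos z)).val

/-- The colour of the point of the given tag in the column of a site. -/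
def pick (z : D K) : Col K := V.col (z.1 + V.height z • colStep K, z.2)

lemma tag_height (z : D K) : tagEquiv K ((V.height z : ℕ) : ZMod (Q K)) = V.pos z := by
  rw [height, ZMod.natCast_zmod_val, AddEquiv.apply_symm_apply]

lemma pos_top (z : D K) : V.pos (z.1 + V.height z • colStep K, z.2) = 0 := by
  rw [V.pos_nsmul, tag_height, sub_self]

lemma pick_fst (z : D K) : (V.pick z).1 = z.2 := V.col_tag _ (V.pos_top z)

lemma pick_mu (z : D K) : (V.pick z).2.1 = V.mu z :=
  (V.col_mu _ (V.pos_top z)).trans (V.mu_nsmul _ _ _)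

lemma colX_pick (x : XI) (z : D K) : colX K x (V.pick z) = (V.mu z).2 x := by
  simp [colX, pick_mu]

lemma pick_mem (z : D K) : (z.1 + V.height z • colStep K, V.pick z) ∈ A :=
  (V.mem _ _).mpr ⟨by rw [V.pick_fst]; exact V.pos_top z, by rw [V.pick_fst]; rfl⟩

lemma pick_of_pos_zero {z : D K} (h : V.pos z = 0) : V.pick z = V.col z := by
  simp [pick, height, h]

lemma eq_pick {p : G K} (hp : p ∈ A) {y : Z2} {k : ℕ} (hk : k < Q K)
    (e : p.1 = y + k • colStep K) :
    V.pos (y, p.2.1) = tagEquiv K (k : ZMod (Q K)) ∧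
      p = (y + V.height (y, p.2.1) • colStep K, V.pick (y, p.2.1)) := by
  obtain ⟨h1, h2⟩ := (V.mem p.1 p.2).mp hp
  have hpos : V.pos (y, p.2.1) = tagEquiv K (k : ZMod (Q K)) := by
    rw [e, V.pos_nsmul, sub_eq_zero] at h1
    exact h1
  have hh : V.height (y, p.2.1) = k := by
    rw [height, hpos, AddEquiv.symm_apply_apply, ZMod.val_natCast_of_lt hk]
  refine ⟨hpos, Prod.ext (by rw [hh, e]) ?_⟩
  simp only [pick, hh, ← e, h2]

include V in
theorem keyWin_chain : KeyWin A (chain (colStep K) (Q K)) (keyTag K) := by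
  intro z g
  refine ⟨_, ⟨V.pick_mem (z, g), ?_, V.pick_fst (z, g)⟩, ?_⟩
  · exact mem_chain.mpr ⟨_, ZMod.val_lt _, (add_sub_cancel_left _ _).symm⟩
  · rintro p ⟨hp, hc, ht⟩
    obtain ⟨k, hk, e⟩ := mem_chain.mp hc
    obtain ⟨-, h⟩ := V.eq_pick hp hk (y := z) (by rw [e]; exact (add_sub_cancel z p.1).symm)
    change p.2.1 = g at ht
    rwa [ht] at h

lemma tile_pos (hw : KeyWin A (chain (colStep K) (Q K)) (keyTag K)) (z : D K) :
    Z3.pos hw z = (tagEquiv K).symm (V.pos z) :=
  (Z3.pos_eq hw colStep_inj (k := V.height z) (ZMod.val_lt _)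
    ⟨_, V.pick_mem z, rfl, V.pick_fst z⟩).trans (ZMod.natCast_zmod_val _)

lemma tile_pt (hw : KeyWin A (chain (colStep K) (Q K)) (keyTag K)) (z : D K) :
    (z.1 + V.height z • colStep K, V.pick z) = pt hw z :=
  pt_eq hw (V.pick_mem z) (ZMod.val_lt _) rfl (V.pick_fst z)

lemma tile_mark (hw : KeyWin A (chain (colStep K) (Q K)) (keyTag K)) (z : D K) :
    mark hw (colMu K) z = V.mu z := by
  rw [mark, ← V.tile_pt hw]
  exact V.pick_mu z

/-! ### Window tiles -/

variable {B : Type*} [AddCommGroup B]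

/-- A point of key `c` in the column of `y`, among the fixed positions. -/
def Cell (fixS : Bool) (F : Finset (Fin 6)) (key : Col K →+ B) (y : Z2) (c : B) : Prop :=
  ∃ g, Fix fixS F (V.pos (y, g)) ∧ key (V.pick (y, g)) = c

/-- Each translate of the rows holds each key exactly once. -/
def WinCond (m : ℕ) (fixS : Bool) (F : Finset (Fin 6)) (key : Col K →+ B) : Prop :=
  ∀ (z : Z2) (c : B), ∃! q : Z2 × Tag K, q.1 ∈ rows K m ∧ Fix fixS F (V.pos (z + q.1, q.2)) ∧
    key (V.pick (z + q.1, q.2)) = c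

/-- The points of a window, as row and tag. -/
lemma window_point {m : ℕ} {fixS : Bool} {F : Finset (Fin 6)} {p : G K} {z : Z2} :
    (p ∈ A ∧ p.1 - z ∈ window K m fixS F) ↔ ∃ r ∈ rows K m, ∃ g,
      Fix fixS F (V.pos (z + r, g)) ∧
        p = (z + r + V.height (z + r, g) • colStep K, V.pick (z + r, g)) := by
  constructor
  · rintro ⟨hp, hw⟩
    obtain ⟨r, hr, c, hc, e⟩ := mem_window.mp hw
    obtain ⟨k, hk, hf, rfl⟩ := mem_cols.mp hc
    obtain ⟨h1, h2⟩ := V.eq_pick hp hk (y := z + r)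
      (by rw [add_assoc, e]; exact (add_sub_cancel z p.1).symm)
    exact ⟨r, hr, p.2.1, h1 ▸ hf, h2⟩
  · rintro ⟨r, hr, g, hf, rfl⟩
    refine ⟨V.pick_mem (z + r, g), mem_window.mpr
      ⟨r, hr, V.height (z + r, g) • colStep K, mem_cols.mpr ⟨V.height (z + r, g), ZMod.val_lt _, ?_, rfl⟩, ?_⟩⟩
    · rwa [V.tag_height]
    · show r + V.height (z + r, g) • colStep K = z + r + V.height (z + r, g) • colStep K - z
      abel

lemma window_point_inj {m : ℕ} {z r r' : Z2} {g g' : Tag K} (hr : r ∈ rows K m)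
    (hr' : r' ∈ rows K m)
    (e : ((z + r + V.height (z + r, g) • colStep K, V.pick (z + r, g)) : G K) =
      (z + r' + V.height (z + r', g') • colStep K, V.pick (z + r', g'))) : (r, g) = (r', g') := by
  have hg : g = g' := by
    have := congrArg (fun p : G K => p.2.1) e
    simpa only [V.pick_fst] using this
  have h1 := congrArg (fun p : G K => p.1.1) e
  simp only [colStep, Prod.fst_add, Prod.smul_fst, nsmul_zero, add_zero, add_right_inj] at h1
  exact Prod.ext (Prod.ext h1 (by rw [rows_snd hr, rows_snd hr'])) hg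

theorem keyWin_window_iff (m : ℕ) (fixS : Bool) (F : Finset (Fin 6)) (key : Col K →+ B) :
    KeyWin A (window K m fixS F) key ↔ V.WinCond m fixS F key := by
  refine forall_congr' fun z => forall_congr' fun c => ?_
  constructor
  · rintro ⟨p, ⟨hp, hw, hk⟩, hu⟩
    obtain ⟨r, hr, g, hf, rfl⟩ := V.window_point.mp ⟨hp, hw⟩
    refine ⟨(r, g), ⟨hr, hf, hk⟩, ?_⟩
    rintro ⟨r', g'⟩ ⟨hr', hf', hk'⟩
    obtain ⟨a, b⟩ := V.window_point.mpr ⟨r', hr', g', hf', rfl⟩
    exact (V.window_point_inj hr hr' (hu _ ⟨a, b, hk'⟩).symm).symm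
  · rintro ⟨⟨r, g⟩, ⟨hr, hf, hk⟩, hu⟩
    obtain ⟨a, b⟩ := V.window_point.mpr ⟨r, hr, g, hf, rfl⟩
    refine ⟨_, ⟨a, b, hk⟩, ?_⟩
    rintro p ⟨hp, hw, hk'⟩
    obtain ⟨r', hr', g', hf', rfl⟩ := V.window_point.mp ⟨hp, hw⟩
    obtain ⟨rfl, rfl⟩ : r' = r ∧ g' = g := Prod.ext_iff.mp (hu (r', g') ⟨hr', hf', hk'⟩)
    rfl

/-- The key sets of each readout value move by `k` along `v`. -/
def SplitCond (m : ℕ) (fixS : Bool) (F : Finset (Fin 6)) (key : Col K →+ B) (x : XI) (v : Z2)
    (k : B) : Prop :=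
  ∀ (z : Z2) (t : ZMod (pX K x)) (c : B),
    (∃ r ∈ rows K m, ∃ g, Fix fixS F (V.pos (z + v + r, g)) ∧
      key (V.pick (z + v + r, g)) = c ∧ (V.mu (z + v + r, g)).2 x = t) ↔
    ∃ r ∈ rows K m, ∃ g, Fix fixS F (V.pos (z + r, g)) ∧
      key (V.pick (z + r, g)) = c + k ∧ (V.mu (z + r, g)).2 x = t

theorem splitRule_window_iff (m : ℕ) (fixS : Bool) (F : Finset (Fin 6)) (key : Col K →+ B)
    (x : XI) (v : Z2) (k : B) :
    SplitRule A (window K m fixS F) key (colX K x) v k ↔ V.SplitCond m fixS F key x v k := by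
  have conv : ∀ z c t, (∃ p, p ∈ A ∧ p.1 - z ∈ window K m fixS F ∧ key p.2 = c ∧
      colX K x p.2 = t) ↔ ∃ r ∈ rows K m, ∃ g, Fix fixS F (V.pos (z + r, g)) ∧
        key (V.pick (z + r, g)) = c ∧ (V.mu (z + r, g)).2 x = t := by
    intro z c t
    constructor
    · rintro ⟨p, hp, hw, hk, hx⟩
      obtain ⟨r, hr, g, hf, rfl⟩ := V.window_point.mp ⟨hp, hw⟩
      exact ⟨r, hr, g, hf, hk, by rw [← V.colX_pick]; exact hx⟩
    · rintro ⟨r, hr, g, hf, hk, hx⟩
      obtain ⟨a, b⟩ := V.window_point.mpr ⟨r, hr, g, hf, rfl⟩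
      exact ⟨_, a, b, hk, by rw [V.colX_pick]; exact hx⟩
  refine forall_congr' fun z => forall_congr' fun t => forall_congr' fun c => ?_
  rw [conv, conv]

/-- Moving the row of zero along `v` preserves the keys iff the cells have equal key sets. -/
theorem keyWin_moved_iff' {m : ℕ} (hm : 0 < m) {fixS : Bool} {F : Finset (Fin 6)}
    {key : Col K →+ B} {v : Z2}
    (hd : ∀ r ∈ cols K fixS F, r + v ∈ window K m fixS F → r + v ∈ cols K fixS F)
    (hw : KeyWin A (window K m fixS F) key) :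
    KeyWin A (moved (window K m fixS F) (cols K fixS F) v) key ↔
      ∀ z c, V.Cell fixS F key z c ↔ V.Cell fixS F key (z + v) c := by
  have hR : cols K fixS F ⊆ window K m fixS F := fun c hc =>
    mem_window.mpr ⟨0, zero_mem_rows hm, c, hc, zero_add c⟩
  rw [keyWin_moved_iff hR hd hw]
  have conv : ∀ z c, (∃ p, p ∈ A ∧ p.1 - z ∈ cols K fixS F ∧ key p.2 = c) ↔
      V.Cell fixS F key z c := by
    intro z c
    constructor
    · rintro ⟨p, hp, hc, hk⟩
      obtain ⟨k, hk', hf, e⟩ := mem_cols.mp hc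
      obtain ⟨h1, h2⟩ := V.eq_pick hp hk' (y := z) (by rw [e]; exact (add_sub_cancel z p.1).symm)
      exact ⟨p.2.1, h1 ▸ hf, (congrArg (fun q : G K => key q.2) h2).symm.trans hk⟩
    · rintro ⟨g, hf, hk⟩
      refine ⟨_, V.pick_mem (z, g), mem_cols.mpr
        ⟨V.height (z, g), ZMod.val_lt _, ?_, (add_sub_cancel_left _ _).symm⟩, hk⟩
      rwa [V.tag_height]
  refine forall_congr' fun z => forall_congr' fun c => ?_
  rw [conv, conv]

end View

/-! ### Good sets -/

theorem exists_view {A : Set (G K)} (hA : Good K A) : Nonempty (View A) := by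
  have hw : KeyWin A (chain (colStep K) (Q K)) (keyTag K) :=
    (tiles_keyTile_iff keyTag_surj).mp (hA _ IsTile.tag)
  have hμ : ∀ z g, mark hw (colMu K) (z + colStep K, g) = mark hw (colMu K) (z, g) :=
    (splitRule_chain_iff hw (colMu K)).mp
      ((tiles_splitTile_iff keyTag_colMu_surj hw _ _).mp (hA _ IsTile.mu))
  have step : ∀ z : D K, z + perJ K = ((z.1 + colStep K, z.2) : D K) := fun z =>
    Prod.ext rfl (add_zero _)
  refine ⟨⟨fun z => tagEquiv K (pos hw z), mark hw (colMu K), fun z => (pt hw z).2, ?_, ?_, ?_, ?_,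
    ?_, ?_⟩⟩
  · intro y c
    constructor
    · intro h
      have hp : pos hw (y, c.1) = 0 := (hasPt_iff hw colStep_inj _).mp ⟨_, h, rfl, rfl⟩
      refine ⟨by simp [hp], ?_⟩
      have e := pt_eq hw (y := (y, c.1)) h (NeZero.pos (Q K)) (by simp) rfl
      exact (congrArg Prod.snd e).symm
    · rintro ⟨h1, h2⟩
      obtain ⟨p1, p2, -⟩ := pt_spec hw (y, c.1)
      have h0 : pos hw (y, c.1) = 0 := by simpa using h1
      rw [h0, ZMod.val_zero, zero_nsmul, add_zero] at p2
      convert p1 using 1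
      exact Prod.ext p2.symm h2.symm
  · exact fun z _ => (pt_spec hw z).2.2
  · exact fun z _ => rfl
  · intro z
    simp only [step, pos_step hw colStep_inj, map_sub, tagEquiv_one]
  · intro z
    simp only [step, hμ]
  · intro L hL
    exact (holds_toRes_iff L _ _).mp
      ((tiles_listTile_iff colStep_inj keyTag_colMu_surj hw hμ (toRes K L)).mp
        (hA _ (IsTile.eqn hL)))

/-- The window tiles, in terms of a view. -/
structure Wins {A : Set (G K)} (V : View A) : Prop where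
  seedH : V.WinCond 16 false FH (keyH K)
  seedC : V.WinCond K.q0 true FC (keyC K)
  win : ∀ n, V.WinCond (mn K n) true FN (keyN K n)
  move1 : ∀ n z c, V.Cell true FN (keyN K n) z c ↔ V.Cell true FN (keyN K n) (z + step1 K) c
  move2 : ∀ n z c, V.Cell true FN (keyN K n) z c ↔ V.Cell true FN (keyN K n) (z + step2 K) c
  lab : ∀ n j, V.SplitCond (mn K n) true FN (keyN K n) (.inr (n, j)) (labV K n j) (labShift K n j)
  read : ∀ n, ∀ x ∈ rdDir n, V.SplitCond (mn K n) true FN (keyN K n) (.inl n) (macroV K x) 0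

lemma mn_pos' (n : Att) : 0 < mn K n :=
  Nat.mul_pos K.E_prime.pos (K.L_prime n).pos

lemma step2_out {m : ℕ} {fixS : Bool} {F : Finset (Fin 6)} :
    ∀ r ∈ cols K fixS F, r + step2 K ∈ window K m fixS F → r + step2 K ∈ cols K fixS F := by
  intro r hr h
  exfalso
  obtain ⟨k, hk, -, rfl⟩ := mem_cols.mp hr
  obtain ⟨a, ha, c, hc, e⟩ := mem_window.mp h
  obtain ⟨l, hl, -, rfl⟩ := mem_cols.mp hc
  have := congrArg Prod.snd e
  simp only [step2, colStep, Prod.snd_add, Prod.smul_snd, rows_snd ha, zero_add,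
    Nat.cast_mul] at this
  simp only [nsmul_eq_mul] at this
  have h3 : (l : ℤ) = k + Q K :=
    mul_right_cancel₀ (b := (S K : ℤ)) S_ne_zero (by rw [this]; ring)
  omega

lemma S_half_eq : S K / 2 = 8 * K.q0 * K.E * (∏ n, K.L n) * big K := by
  rw [S_eq, M_eq, show 16 * K.q0 * K.E * (∏ n, K.L n) * big K =
    (8 * K.q0 * K.E * (∏ n, K.L n) * big K) * 2 by ring, Nat.mul_div_cancel _ two_pos]

lemma step1_out {n : Att} {fixS : Bool} {F : Finset (Fin 6)} :
    ∀ r ∈ cols K fixS F, r + step1 K ∈ window K (mn K n) fixS F →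
      r + step1 K ∈ cols K fixS F := by
  intro r hr h
  exfalso
  obtain ⟨a, ha, c, hc, e⟩ := mem_window.mp h
  obtain ⟨t, ht, rfl⟩ := mem_image.mp ha
  rw [mem_range] at ht
  have e1 := congrArg Prod.fst e
  simp only [step1, Prod.fst_add, cols_fst hr, cols_fst hc, add_zero, zero_add] at e1
  have hdvd : mn K n ∣ S K / 2 := by
    rw [S_half_eq, mn]
    exact dvd_mul_of_dvd_left (mul_dvd_mul (dvd_mul_left _ _)
      (dvd_prod_of_mem K.L (mem_univ n))) _
  have hne : S K / 2 ≠ 0 := by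
    intro h0
    have h2 : S K = S K / 2 * 2 := by
      rw [S_half_eq, S_eq, M_eq]; ring
    exact S_ne_zero (K := K) (by rw [h2, h0]; rfl)
  have ht0 : t = 0 := by
    by_cases hco : Nat.Coprime (mn K n) (S K / mn K n)
    · rw [idem, dif_pos hco] at e1
      have e2 : t * (Nat.chineseRemainder hco 1 0 : ℕ) = S K / 2 := by exact_mod_cast e1
      have hm : t * (Nat.chineseRemainder hco 1 0 : ℕ) ≡ t * 1 [MOD mn K n] :=
        Nat.ModEq.mul_left _ (Nat.chineseRemainder hco 1 0).2.1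
      rw [e2, mul_one] at hm
      exact Nat.eq_zero_of_dvd_of_lt ((Nat.ModEq.dvd_iff hm dvd_rfl).mp hdvd) ht
    · rw [idem, dif_neg hco, mul_zero] at e1
      exact absurd (by exact_mod_cast e1.symm) hne
  rw [ht0, Nat.cast_zero, zero_mul] at e1
  exact hne (by exact_mod_cast e1.symm)

theorem Good.wins {A : Set (G K)} (hA : Good K A) (V : View A) : Wins V where
  seedH := (V.keyWin_window_iff _ _ _ _).mp ((tiles_keyTile_iff keyH_surj).mp (hA _ IsTile.seedH))
  seedC := (V.keyWin_window_iff _ _ _ _).mp ((tiles_keyTile_iff keyC_surj).mp (hA _ IsTile.seedC))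
  win n :=
    (V.keyWin_window_iff _ _ _ _).mp ((tiles_keyTile_iff (keyN_surj n)).mp (hA _ (IsTile.win n)))
  move1 n := (V.keyWin_moved_iff' (mn_pos' n) step1_out
      ((tiles_keyTile_iff (keyN_surj n)).mp (hA _ (IsTile.win n)))).mp
    ((tiles_keyTile_iff (keyN_surj n)).mp (hA _ (IsTile.move1 n)))
  move2 n := (V.keyWin_moved_iff' (mn_pos' n) step2_out
      ((tiles_keyTile_iff (keyN_surj n)).mp (hA _ (IsTile.win n)))).mp
    ((tiles_keyTile_iff (keyN_surj n)).mp (hA _ (IsTile.move2 n)))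
  lab n j := (V.splitRule_window_iff _ _ _ _ _ _ _).mp
    ((tiles_splitTile_iff (keyN_colX_surj n _) ((tiles_keyTile_iff (keyN_surj n)).mp
      (hA _ (IsTile.win n))) _ _).mp (hA _ (IsTile.lab n j)))
  read n _ hx := (V.splitRule_window_iff _ _ _ _ _ _ _).mp
    ((tiles_splitTile_iff (keyN_colX_surj n _) ((tiles_keyTile_iff (keyN_surj n)).mp
      (hA _ (IsTile.win n))) _ _).mp (hA _ (IsTile.read n hx)))

theorem good_of {A : Set (G K)} (V : View A) (W : Wins V) : Good K A := by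
  have hw := V.keyWin_chain
  have hμ : ∀ z g, mark hw (colMu K) (z + colStep K, g) = mark hw (colMu K) (z, g) := by
    intro z g
    rw [V.tile_mark, V.tile_mark, ← one_nsmul (colStep K), V.mu_nsmul]
  have win : ∀ n, KeyWin A (window K (mn K n) true FN) (keyN K n) := fun n =>
    (V.keyWin_window_iff _ _ _ _).mpr (W.win n)
  intro F hF
  cases hF with
  | tag => exact (tiles_keyTile_iff keyTag_surj).mpr hw
  | mu =>
    exact (tiles_splitTile_iff keyTag_colMu_surj hw _ _).mpr
      ((splitRule_chain_iff hw (colMu K)).mpr hμ)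
  | @eqn L hL =>
    refine (tiles_listTile_iff colStep_inj keyTag_colMu_surj hw hμ (toRes K L)).mpr
      ((holds_toRes_iff L _ _).mpr ?_)
    have e : (fun z => (mark hw (colMu K) z, tagEquiv K (pos hw z))) =
        fun z => (V.mu z, V.pos z) := by
      funext z
      rw [V.tile_mark, V.tile_pos, AddEquiv.apply_symm_apply]
    rw [e]
    exact V.holds L hL
  | seedH => exact (tiles_keyTile_iff keyH_surj).mpr ((V.keyWin_window_iff _ _ _ _).mpr W.seedH)
  | seedC =>
    exact (tiles_keyTile_iff keyC_surj).mpr ((V.keyWin_window_iff _ _ _ _).mpr W.seedC)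
  | win n => exact (tiles_keyTile_iff (keyN_surj n)).mpr (win n)
  | move1 n =>
    exact (tiles_keyTile_iff (keyN_surj n)).mpr
      ((V.keyWin_moved_iff' (mn_pos' n) step1_out (win n)).mpr (W.move1 n))
  | move2 n =>
    exact (tiles_keyTile_iff (keyN_surj n)).mpr
      ((V.keyWin_moved_iff' (mn_pos' n) step2_out (win n)).mpr (W.move2 n))
  | lab n j =>
    exact (tiles_splitTile_iff (keyN_colX_surj n _) (win n) _ _).mpr
      ((V.splitRule_window_iff _ _ _ _ _ _ _).mpr (W.lab n j))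
  | read n hx =>
    exact (tiles_splitTile_iff (keyN_colX_surj n _) (win n) _ _).mpr
      ((V.splitRule_window_iff _ _ _ _ _ _ _).mpr (W.read n _ hx))

/-- The view of the point set of a position function and a colour function. -/
def View.ofFun (ps : D K → Tag K) (cl : D K → Col K) (htag : ∀ z, (cl z).1 = z.2)
    (hps : ∀ z, ps (z + perJ K) = ps z - 1)
    (hmu : ∀ z, (cl (z + perJ K)).2.1 = (cl z).2.1)
    (heq : ∀ L, IsEqn K L → Holds L fun z => ((cl z).2.1, ps z)) :
    View {p : G K | ps (p.1, p.2.1) = 0 ∧ cl (p.1, p.2.1) = p.2} where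
  pos := ps
  mu z := (cl z).2.1
  col := cl
  mem _ _ := Iff.rfl
  col_tag z _ := htag z
  col_mu _ _ := rfl
  pos_shift := hps
  mu_shift := hmu
  holds := heq

/-- A solution in terms of functions gives a tiled set. -/
theorem exists_good_of (ps : D K → Tag K) (cl : D K → Col K) (htag : ∀ z, (cl z).1 = z.2)
    (hps : ∀ z, ps (z + perJ K) = ps z - 1)
    (hmu : ∀ z, (cl (z + perJ K)).2.1 = (cl z).2.1)
    (heq : ∀ L, IsEqn K L → Holds L fun z => ((cl z).2.1, ps z))
    (W : Wins (View.ofFun ps cl htag hps hmu heq)) : ∃ A, Good K A :=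
  ⟨_, good_of _ W⟩

end

end Vale.Agent.P043.Z3
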