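/-
P043, dimension three: windows of the explicit tiled set as bijections of rows and tags.
-/
import Vale.Agent.P043.Z3.SolDefs
import Vale.Agent.P043.Z3.View

namespace Vale.Agent.P043.Z3

open Function Finset

noncomputable section

variable (K : Par)

/-- The base position of a point. -/
def basePos (s : St K) (g : Tag K) : Tag K := (baseS K s g, baseT K s g)

lemma solPos_eq (y : D K) : solPos K y = basePos K (proj K y) y.2 - colIdx K y.1 := rfl

lemma S_cast : (((S K : ℕ) : ℤ) : ZMod (M K)) = 0 := by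
  rw [Int.cast_natCast, S_eq, Nat.cast_mul, ZMod.natCast_self, zero_mul]

lemma proj_col (z : Z2) (k : ℤ) (g : Tag K) :
    proj K (z + ((0, k * (S K : ℤ)) : Z2), g) = proj K (z, g) := by
  simp [proj, S_cast K, Int.cast_add, Int.cast_mul, -Int.cast_natCast]

lemma colIdx_col (z : Z2) (k : ℤ) :
    colIdx K (z + ((0, k * (S K : ℤ)) : Z2)) = colIdx K z + k • (1 : Tag K) := by
  simp only [colIdx, Prod.snd_add]
  rw [Int.add_mul_ediv_right _ _ S_ne_zero, add_smul]

lemma solPos_col (z : Z2) (k : ℤ) (g : Tag K) :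
    solPos K (z + ((0, k * (S K : ℤ)) : Z2), g) = solPos K (z, g) - k • (1 : Tag K) := by
  simp only [solPos_eq, proj_col, colIdx_col]
  abel

lemma tagEquiv_nsmul (k : ℕ) : tagEquiv K (k : ZMod (Q K)) = k • (1 : Tag K) := by
  rw [tagEquiv_natCast]
  refine Prod.ext ?_ (funext fun i => ?_) <;> simp

/-- The position on residues, as used in `solSet`, drops by one along a column step. -/
lemma solPos_step (z : Z2) (g : Tag K) :
    (tagEquiv K).symm (solPos K (z + colStep K, g)) =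
      (tagEquiv K).symm (solPos K (z, g)) - 1 := by
  have h := solPos_col K z 1 g
  rw [one_mul, one_smul] at h
  rw [colStep, h, map_sub]
  congr 1
  rw [AddEquiv.symm_apply_eq, tagEquiv_one]

lemma mem_solSet {p : G K} :
    p ∈ solSet K ↔ solPos K (p.1, p.2.1) = 0 ∧ p.2 = solCol K (p.1, p.2.1) := by
  simp [solSet, pointSet, keyTag]

/-- The state of the point of tag `g` in row `t` of a window. -/
def rowSt (m : ℕ) (z : Z2) (t : ℕ) (g : Tag K) : St K :=
  proj K (z + (((t : ℤ) * idem K m, 0) : Z2), g)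

/-- The column multiple at which the point of tag `g` in row `t` sits. -/
def kOf (m : ℕ) (z : Z2) (t : ℕ) (g : Tag K) : ℕ :=
  ((tagEquiv K).symm (basePos K (rowSt K m z t g) g - colIdx K z)).val

/-- The site of the point of tag `g` in row `t`. -/
def wpt (m : ℕ) (z : Z2) (t : ℕ) (g : Tag K) : Z2 :=
  z + (((t : ℤ) * idem K m, (kOf K m z t g : ℤ) * (S K : ℤ)) : Z2)

/-- The fixed components of a tag vanish. -/
def FixZero (fixS : Bool) (F : Finset (Fin 6)) (a : Tag K) : Prop :=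
  (fixS = true → a.1 = 0) ∧ ∀ i ∈ F, a.2 i = 0

lemma proj_wpt (m : ℕ) (z : Z2) (t : ℕ) (g : Tag K) :
    proj K (wpt K m z t g, g) = rowSt K m z t g := by
  have e : wpt K m z t g =
      (z + (((t : ℤ) * idem K m, 0) : Z2)) + ((0, (kOf K m z t g : ℤ) * (S K : ℤ)) : Z2) := by
    simp [wpt, add_assoc]
  rw [e, proj_col, rowSt]

lemma colIdx_wpt (m : ℕ) (z : Z2) (t : ℕ) (g : Tag K) :
    colIdx K (wpt K m z t g) = basePos K (rowSt K m z t g) g := by
  have e : wpt K m z t g =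
      (z + (((t : ℤ) * idem K m, 0) : Z2)) + ((0, (kOf K m z t g : ℤ) * (S K : ℤ)) : Z2) := by
    simp [wpt, add_assoc]
  rw [e, colIdx_col, natCast_zsmul, ← tagEquiv_nsmul, kOf, ZMod.natCast_zmod_val,
    AddEquiv.apply_symm_apply]
  simp [colIdx]

/-- The point of tag `g` in row `t` of a window. -/
def wpoint (m : ℕ) (z : Z2) (t : ℕ) (g : Tag K) : G K :=
  (wpt K m z t g, solCol K (wpt K m z t g, g))

lemma mem_window_iff (m : ℕ) (fixS : Bool) (F : Finset (Fin 6)) (z : Z2) (p : G K) :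
    p ∈ solSet K ∧ p.1 - z ∈ window K m fixS F ↔ ∃ t < m, ∃ g,
      FixZero K fixS F (basePos K (rowSt K m z t g) g - colIdx K z) ∧ p = wpoint K m z t g := by
  rw [mem_solSet]
  constructor
  · rintro ⟨⟨h1, h2⟩, h3⟩
    simp only [window, rows, cols, mem_image, mem_product, mem_filter, Finset.mem_range] at h3
    obtain ⟨⟨a, b⟩, ⟨⟨t, ht, rfl⟩, ⟨k, ⟨hk, hS, hF⟩, rfl⟩⟩, e⟩ := h3
    have e1 : p.1 = (z + (((t : ℤ) * idem K m, 0) : Z2)) + ((0, (k : ℤ) * (S K : ℤ)) : Z2) := by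
      rw [add_assoc, e]; abel
    rw [e1, solPos_col, natCast_zsmul, sub_eq_zero, solPos_eq] at h1
    have ec : colIdx K (z + (((t : ℤ) * idem K m, 0) : Z2)) = colIdx K z := by simp [colIdx]
    rw [ec] at h1
    change basePos K (rowSt K m z t p.2.1) p.2.1 - colIdx K z = _ at h1
    refine ⟨t, ht, p.2.1, ?_, ?_⟩
    · rw [h1]
      exact ⟨fun h => by simpa using hS h, fun i hi => by simpa using hF i hi⟩
    · have hk' : kOf K m z t p.2.1 = k := by
        rw [kOf, h1, ← tagEquiv_nsmul, AddEquiv.symm_apply_apply, ZMod.val_natCast_of_lt hk]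
      have e2 : wpt K m z t p.2.1 = p.1 := by rw [e1, wpt, hk']; simp [add_assoc]
      rw [wpoint, e2, ← h2]
  · rintro ⟨t, ht, g, hfix, rfl⟩
    refine ⟨⟨?_, rfl⟩, ?_⟩
    · show solPos K (wpt K m z t g, g) = 0
      rw [solPos_eq, proj_wpt, colIdx_wpt, sub_self]
    · simp only [window, rows, cols, mem_image, mem_product, mem_filter, Finset.mem_range, wpoint,
        wpt, add_sub_cancel_left]
      have hk : kOf K m z t g • (1 : Tag K) = basePos K (rowSt K m z t g) g - colIdx K z := by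
        rw [← tagEquiv_nsmul, kOf, ZMod.natCast_zmod_val, AddEquiv.apply_symm_apply]
      refine ⟨(_, _), ⟨⟨t, ht, rfl⟩, ⟨kOf K m z t g, ⟨ZMod.val_lt _, ?_, ?_⟩, rfl⟩⟩, by simp⟩
      · intro h
        have := hfix.1 h
        rw [← hk] at this
        simpa using this
      · intro i hi
        have := hfix.2 i hi
        rw [← hk] at this
        simpa using this

lemma wpoint_inj {m : ℕ} (hm : idem K m ≠ 0) {z : Z2} {t t' : ℕ} {g g' : Tag K}
    (e : wpoint K m z t g = wpoint K m z t' g') : t = t' ∧ g = g' := by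
  obtain ⟨e1, e2⟩ := Prod.ext_iff.mp e
  refine ⟨?_, congrArg Prod.fst e2⟩
  have := congrArg Prod.fst e1
  simp [wpoint, wpt, hm] at this
  exact_mod_cast this

/-- A window holds every key once iff the keys biject with the rows and tags allowed in it. -/
theorem keyWin_solSet_iff {V : Type*} [AddCommGroup V] (key : Col K →+ V) {m : ℕ}
    (hm : idem K m ≠ 0) (fixS : Bool) (F : Finset (Fin 6)) :
    KeyWin (solSet K) (window K m fixS F) key ↔ ∀ z c, ∃! x : Fin m × Tag K,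
      FixZero K fixS F (basePos K (rowSt K m z x.1 x.2) x.2 - colIdx K z) ∧
        key (solCol K (wpt K m z x.1 x.2, x.2)) = c := by
  refine forall₂_congr fun z c => ⟨?_, ?_⟩
  · rintro ⟨p, ⟨hA, hΔ, hc⟩, hu⟩
    obtain ⟨t, ht, g, hf, rfl⟩ := (mem_window_iff K m fixS F z p).mp ⟨hA, hΔ⟩
    refine ⟨(⟨t, ht⟩, g), ⟨hf, hc⟩, ?_⟩
    rintro ⟨t', g'⟩ ⟨hf', hc'⟩
    have h := (mem_window_iff K m fixS F z (wpoint K m z t' g')).mpr ⟨t', t'.isLt, g', hf', rfl⟩
    obtain ⟨rfl, rfl⟩ := wpoint_inj K hm (hu _ ⟨h.1, h.2, hc'⟩)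
    rfl
  · rintro ⟨⟨t, g⟩, ⟨hf, hc⟩, hu⟩
    have h := (mem_window_iff K m fixS F z (wpoint K m z t g)).mpr ⟨t, t.isLt, g, hf, rfl⟩
    refine ⟨wpoint K m z t g, ⟨h.1, h.2, hc⟩, ?_⟩
    rintro p ⟨hA, hΔ, hc'⟩
    obtain ⟨t', ht', g', hf', rfl⟩ := (mem_window_iff K m fixS F z p).mp ⟨hA, hΔ⟩
    obtain ⟨e1, e2⟩ := Prod.ext_iff.mp (hu (⟨t', ht'⟩, g') ⟨hf', hc'⟩)
    subst e1; subst e2; rfl

/-- Points of a window with a given property, through rows and tags. -/
theorem exists_window_iff (P : Col K → Prop) (m : ℕ) (fixS : Bool) (F : Finset (Fin 6))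
    (z : Z2) :
    (∃ p, p ∈ solSet K ∧ p.1 - z ∈ window K m fixS F ∧ P p.2) ↔ ∃ x : Fin m × Tag K,
      FixZero K fixS F (basePos K (rowSt K m z x.1 x.2) x.2 - colIdx K z) ∧
        P (solCol K (wpt K m z x.1 x.2, x.2)) := by
  constructor
  · rintro ⟨p, hA, hΔ, hP⟩
    obtain ⟨t, ht, g, hf, rfl⟩ := (mem_window_iff K m fixS F z p).mp ⟨hA, hΔ⟩
    exact ⟨(⟨t, ht⟩, g), hf, hP⟩
  · rintro ⟨⟨t, g⟩, hf, hP⟩
    have h := (mem_window_iff K m fixS F z (wpoint K m z t g)).mpr ⟨t, t.isLt, g, hf, rfl⟩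
    exact ⟨_, h.1, h.2, hP⟩

end

end Vale.Agent.P043.Z3
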