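/-
P043, dimension three: every list holds for the explicit solution.
-/
import Vale.Agent.P043.Z3.SolBase
import Vale.Agent.P043.Z3.Arith

namespace Vale.Agent.P043.Z3

open Function Finset

noncomputable section

variable {K : Par}

/-! ### Residues of the vectors -/

lemma cast_idemO_other {o t : Opt K} (h : t ≠ o) :
    ((idem K (pO K t) : ℤ) : ZMod (pO K o)) = 0 :=
  cast_zero_of_dvd (pO_dvd_idem_pO K h.symm)

lemma cast_idemX_other {x x' : XI} (h : x' ≠ x) :
    ((idem K (pX K x') : ℤ) : ZMod (pX K x)) = 0 :=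
  cast_zero_of_dvd (pX_dvd_idem_pX K h.symm)

lemma cast_idem_mn_X (n : Att) (x : XI) : ((idem K (mn K n) : ℤ) : ZMod (pX K x)) = 0 :=
  cast_zero_of_dvd ((Int.natCast_dvd_natCast.mpr (pX_dvd_big K x)).trans (big_dvd_idem_mn K n))

lemma cast_idem_mn_8 (n : Att) : ((idem K (mn K n) : ℤ) : ZMod 8) = 0 :=
  cast_zero_of_dvd ((show ((8 : ℕ) : ℤ) ∣ 16 by norm_num).trans (sixteen_dvd_idem_mn K n))

lemma cast_idem_16_X (x : XI) : ((idem K 16 : ℤ) : ZMod (pX K x)) = 0 :=
  cast_zero_of_dvd ((Int.natCast_dvd_natCast.mpr (pX_dvd_big K x)).trans (big_dvd_idem_16 K))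

lemma cast_idem_16_8 : ((idem K 16 : ℤ) : ZMod 8) = 1 :=
  cast_one_of_dvd (show 8 ∣ 16 by norm_num) (idem_16 K)

/-! ### Colour projections -/

lemma prO_inO_self (o : Opt K) (x : ZMod (pO K o)) : prO K o (inO K o x) = x := by
  simp [prO, inO]

lemma prO_inO_other (o t : Opt K) (h : o ≠ t) (x : ZMod (pO K t)) : prO K o (inO K t x) = 0 := by
  simp [prO, inO, h]

lemma prX_inX_self (x : XI) (a : ZMod (pX K x)) : prX K x (inX K x a) = a := by
  simp [prX, inX]

lemma prS_inS_self (a : ZMod K.q0) : prS K (inS K a) = a := by simp [prS, inS]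

lemma prT_inT_self (i : Fin 6) (a : ZMod (tm i)) : prT K i (inT K i a) = a := by
  simp [prT, inT]

lemma prO_inS (o : Opt K) (a : ZMod K.q0) : prO K o (inS K a) = 0 := by simp [prO, inS]
lemma prO_inT (o : Opt K) (i : Fin 6) (a : ZMod (tm i)) : prO K o (inT K i a) = 0 := by
  simp [prO, inT]
lemma prO_inX (o : Opt K) (x : XI) (a : ZMod (pX K x)) : prO K o (inX K x a) = 0 := by
  simp [prO, inX]

/-! ### States and their shifts -/

lemma proj_axO (o : Opt K) : proj K (axO K o) = 0 := by
  simp [proj, axO, cast_zero_of_dvd (M_dvd_idem_pO K _)]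

lemma proj_eX (x : XI) : proj K (eX K x) = 0 := by
  simp [proj, eX, cast_zero_of_dvd (M_dvd_idem_pX K _)]

lemma proj_gT (i : Fin 6) : proj K (0, gT K i) = 0 := by
  simp [proj, gT]

lemma solProj_perI : proj K (perI K) = 0 :=
  Prod.ext ((Int.cast_natCast (S K)).trans ((ZMod.natCast_eq_zero_iff _ _).mpr (M_dvd_S K))) (Prod.ext Int.cast_zero rfl)

lemma solProj_dir (k : Fin 5) : proj K (dir K k) = dirSt K k := by
  fin_cases k <;> simp [proj, dir, dirSt, gS, idem_M]

lemma dir_cast_O (k : Fin 5) (o : Opt K) : (((dir K k).1.1 : ℤ) : ZMod (pO K o)) = 0 := by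
  fin_cases k <;> simp [dir, cast_zero_of_dvd (pO_dvd_idem_M K _)]

/-- Residues of a shifted state modulo a divisor of `M`. -/
lemma val_add_mod {d : ℕ} (hd : d ∣ M K) (a : ZMod (M K)) (z : ℤ) :
    (((a + (z : ZMod (M K))).val % d : ℕ) : ZMod d) = ((a.val % d : ℕ) : ZMod d) + (z : ZMod d) := by
  have key : ∀ b : ZMod (M K), ((b.val % d : ℕ) : ZMod d) = ZMod.castHom hd (ZMod d) b :=
    fun b => by rw [ZMod.natCast_mod, ZMod.natCast_val, ZMod.castHom_apply]
  rw [key, key, map_add, map_intCast]

lemma val_add_mod_zero {d : ℕ} [NeZero d] (hd : d ∣ M K) (a : ZMod (M K)) {z : ℤ}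
    (hz : (z : ZMod d) = 0) : (a + (z : ZMod (M K))).val % d = a.val % d := by
  have h := val_add_mod hd a z
  rw [hz, add_zero, ZMod.natCast_eq_natCast_iff', Nat.mod_mod, Nat.mod_mod] at h
  exact h

lemma dvd_M_L (n : Att) : K.L n ∣ M K := by
  rw [M_eq]; exact (dvd_prod_of_mem K.L (mem_univ n)).mul_left _

lemma dvd_M_E : K.E ∣ M K := by
  rw [M_eq]; exact (dvd_mul_left _ _).mul_right _

lemma dvd_M_eight : 8 ∣ M K := by
  rw [M_eq]; exact ((Dvd.intro 2 rfl : 8 ∣ 16).mul_right _ |>.mul_right _).mul_right _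

lemma solSlopeS_congr {s t : St K} (h : s.1 = t.1) : slopeS K s = slopeS K t := by
  have : spikeS K s = spikeS K t := by
    unfold spikeS slice Omega uPart etaP
    rw [h]
  simp only [slopeS]
  by_cases ht : spikeS K t
  · rw [if_pos ht, if_pos (this ▸ ht)]
  · rw [if_neg ht, if_neg (this ▸ ht)]

/-- The label of a class does not see the label direction. -/
lemma psi_line (n : Att) (j : Fin 3) (y : D K) :
    psi K (proj K (y + site K (labV K n j))) (.inr (n, j)) = psi K (proj K y) (.inr (n, j)) := by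
  set s := proj K y
  set v := labV K n j with hv
  have hp : proj K (y + site K v) =
      (s.1 + (v.1 : ZMod (M K)), s.2.1 + (v.2 : ZMod (M K)), s.2.2) := by
    rw [map_add]; simp [s, proj, site]
  rw [hp]
  have hon : labOn K (s.1 + (v.1 : ZMod (M K)), s.2.1 + (v.2 : ZMod (M K)), s.2.2) j ↔
      labOn K s j := by
    fin_cases j
    · simp only [labOn, slice, show ¬ ((0 : Fin 3) = 2) by decide, Fin.zero_eta, if_false]
      rw [val_add_mod_zero dvd_M_eight _ (z := v.1) (by simp [hv, labV, cast_idem_mn_8])]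
    · simp [labOn, slice, hv, labV]
    · have hE : etaP K (s.1 + (v.1 : ZMod (M K)), s.2.1 + (v.2 : ZMod (M K)), s.2.2) = etaP K s :=
        val_add_mod_zero dvd_M_E _ (by simp [hv, labV, cast_zero_of_dvd (E_dvd_idem_16 K)])
      have hU : ∀ m, uPart K (s.1 + (v.1 : ZMod (M K)), s.2.1 + (v.2 : ZMod (M K)), s.2.2) m =
          uPart K s m := fun m => val_add_mod_zero (dvd_M_L m) _ (by simp [hv, labV, cast_zero_of_dvd (L_dvd_idem_16 K _)])
      have h4 : (s.1 + (v.1 : ZMod (M K))).val % 8 = (s.1.val % 8 + 4) % 8 := by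
        have h := val_add_mod (dvd_M_eight (K := K)) s.1 v.1
        have hz : ((v.1 : ℤ) : ZMod 8) = ((4 : ℕ) : ZMod 8) := by simp [hv, labV, cast_idem_16_8]
        rw [hz, ← Nat.cast_add, ZMod.natCast_eq_natCast_iff', Nat.mod_mod] at h
        exact h
      simp only [labOn, Omega, hE, hU, Fin.reduceFinMk, if_true, slice, h4]
      refine and_congr ?_ Iff.rfl
      omega
  have hmk : (QuotientAddGroup.mk (s.1 + (v.1 : ZMod (M K)), s.2.1 + (v.2 : ZMod (M K))) :
      LCls K n j) = QuotientAddGroup.mk (s.1, s.2.1) := by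
    rw [QuotientAddGroup.eq]
    refine AddSubgroup.mem_zmultiples_iff.mpr ⟨-1, ?_⟩
    simp [hv]
  by_cases ho : labOn K s j
  · simp only [psi, hmk, if_pos ho, if_pos (hon.mpr ho)]
  · simp only [psi, if_neg ho, if_neg (mt hon.mp ho)]

lemma psi_label_tag (n : Att) (j : Fin 3) (y : D K) (g : Tag K) :
    psi K (proj K (y + (0, g))) (.inr (n, j)) = psi K (proj K y) (.inr (n, j)) := by
  simp [psi, proj, labOn, slice, Omega, uPart, etaP]

/-! ### All lists -/

/-- A colouring given by states `proj`, with options and readouts linear along the first axis. -/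
structure Shape (mu : D K → Mu K) (pos : D K → Tag K) : Prop where
  st : ∀ y t, (mu y).1 (Sum.inl t) = if t = proj K y then (y.1.1 : ZMod (pO K (Sum.inl t))) else 0
  cls : ∀ y k (c : Cls K k), (mu y).1 (Opt.cls K k c) =
    if c = QuotientAddGroup.mk (proj K y) then (y.1.1 : ZMod (pO K (Opt.cls K k c))) else 0
  col : ∀ y x, (mu y).2 x = (psi K (proj K y) x : ZMod (pX K x)) * (y.1.1 : ZMod (pX K x))
  sInv : ∀ v, SInv K v → ∀ y, (pos (y + v)).1 = (pos y).1
  tInv : ∀ i v, TInv K i v → ∀ y, (pos (y + v)).2 i = (pos y).2 i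
  sSlope : ∀ y, (pos (y + (0, gS K))).1 = (pos y).1 + slopeS K (proj K y)
  tSlope : ∀ y i, (pos (y + (0, gT K i))).2 i = (pos y).2 i + slopeT K (proj K y) i

variable {mu : D K → Mu K} {pos : D K → Tag K}

lemma Shape.opt_inv (h : Shape mu pos) {o : Opt K} {v : D K} (hv : OptInv K o v) (y : D K) :
    (mu (y + v)).1 o = (mu y).1 o := by
  have main : ∀ {o : Opt K} {v : D K}, ((v.1.1 : ℤ) : ZMod (pO K o)) = 0 → proj K v = 0 →
      (mu (y + v)).1 o = (mu y).1 o := by
    intro o v hc hp
    obtain t | ⟨k, c⟩ := o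
    · rw [h.st, h.st, map_add, hp, add_zero, Prod.fst_add, Prod.fst_add, Int.cast_add, hc,
        add_zero]
    · change (mu (y + v)).1 (Opt.cls K k c) = (mu y).1 (Opt.cls K k c)
      rw [h.cls, h.cls, map_add, hp, add_zero, Prod.fst_add, Prod.fst_add, Int.cast_add,
        show ((v.1.1 : ℤ) : ZMod (pO K (Opt.cls K k c))) = 0 from hc, add_zero]
  cases hv with
  | other ht => exact main (by simp [axO, cast_idemO_other ht]) (proj_axO _)
  | period o => exact main (by simp [axO]) (by rw [map_nsmul, proj_axO, smul_zero])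
  | perI o => exact main (by simp [perI, ((ZMod.natCast_eq_zero_iff _ _).mpr (pO_dvd_S K _))]) solProj_perI
  | free o hm =>
    rcases hm with ⟨x, rfl⟩ | ⟨i, rfl⟩
    · exact main (by simp [eX, cast_zero_of_dvd (pO_dvd_idem_pX K _ _)]) (proj_eX x)
    · exact main (by simp) (proj_gT i)
  | line k c =>
    have e : (QuotientAddGroup.mk (proj K (y + dir K k)) : Cls K k) =
        QuotientAddGroup.mk (proj K y) := by
      rw [map_add, solProj_dir, QuotientAddGroup.eq]
      exact AddSubgroup.mem_zmultiples_iff.mpr ⟨-1, by simp⟩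
    rw [h.cls, h.cls, e, Prod.fst_add, Prod.fst_add, Int.cast_add, dir_cast_O, add_zero]

lemma Shape.x_inv (h : Shape mu pos) {x : XI} {v : D K} (hv : XInv K x v) (y : D K) :
    (mu (y + v)).2 x = (mu y).2 x := by
  rw [h.col, h.col, Prod.fst_add, Prod.fst_add, Int.cast_add]
  cases hv with
  | perI x => rw [map_add, solProj_perI, add_zero]; simp [perI, ((ZMod.natCast_eq_zero_iff _ _).mpr (pX_dvd_S K _))]
  | axis x o => rw [map_add, proj_axO, add_zero]; simp [axO, cast_zero_of_dvd (pX_dvd_idem_pO K _ _)]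
  | other hx => rw [map_add, proj_eX, add_zero]; simp [eX, cast_idemX_other hx]
  | tagS n j => rw [psi_label_tag]; simp
  | tagT n j i => rw [psi_label_tag]; simp
  | line n j =>
    rw [psi_line]
    have : (((site K (labV K n j)).1.1 : ℤ) : ZMod (pX K (.inr (n, j)))) = 0 := by
      fin_cases j <;> simp [site, labV, cast_idem_mn_X, cast_idem_16_X]
    rw [this, add_zero]

lemma proj_add_axO (y : D K) (o : Opt K) (m : ℕ) : proj K (y + m • axO K o) = proj K y := by
  rw [map_add, map_nsmul, proj_axO, smul_zero, add_zero]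

lemma Shape.or_holds_image (h : Shape mu pos) {G : Finset (Opt K)} {o0 : Opt K} (h0 : o0 ∈ G)
    (sel : St K → Opt K) (hsel : ∀ s, sel s ∈ G)
    (hval : ∀ y o, o ∈ G →
      (mu y).1 o = if o = sel (proj K y) then (y.1.1 : ZMod (pO K o)) else 0) :
    Holds (orEqn (pO K) (axO K) (prO K) (inO K) G o0) (fun z => (mu z, pos z)) := by
  refine or_holds prO_inO_self prO_inO_other (three_le_pO K) h0
    (fun o _ t _ ht y => h.opt_inv (OptInv.other ht) y) fun y => ?_
  refine ⟨sel (proj K y), hsel _, fun m => ?_, fun o ho hne m => ?_⟩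
  · change (mu (y + m • axO K _)).1 _ = (mu y).1 _ + _
    rw [hval _ _ (hsel _), hval _ _ (hsel _), proj_add_axO, if_pos rfl, if_pos rfl]
    simp [axO, idem_pO]
  · change (mu (y + m • axO K _)).1 _ = (mu y).1 _
    rw [hval _ _ ho, hval _ _ ho, proj_add_axO, if_neg hne, if_neg hne]

/-- Every list holds for a colouring of the standard shape. -/
theorem Shape.holds (h : Shape mu pos) {L : E3 K} (hL : IsEqn K L) :
    Holds L (fun z => (mu z, pos z)) := by
  cases hL with
  | optInv hv =>
    refine (twist_holds_iff _ _ (prO_inO_self _) _ _ _).mpr fun y => ?_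
    rw [add_zero]; exact h.opt_inv hv y
  | xInv hv =>
    refine (twist_holds_iff _ _ (prX_inX_self _) _ _ _).mpr fun y => ?_
    rw [add_zero]; exact h.x_inv hv y
  | sInv hv =>
    refine (twist_holds_iff _ _ prS_inS_self _ _ _).mpr fun y => ?_
    rw [add_zero]; exact h.sInv _ hv y
  | tInv hv =>
    refine (twist_holds_iff _ _ (prT_inT_self _) _ _ _).mpr fun y => ?_
    rw [add_zero]; exact h.tInv _ _ hv y
  | orSt =>
    refine h.or_holds_image (by simp) Sum.inl (fun s => by simp) fun y o ho => ?_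
    obtain ⟨t, -, rfl⟩ := mem_image.mp ho
    rw [h.st]; exact if_congr Sum.inl_injective.eq_iff.symm rfl rfl
  | orCls k =>
    refine h.or_holds_image (by simp) (fun s => Opt.cls K k (QuotientAddGroup.mk s))
      (fun s => by simp) fun y o ho => ?_
    obtain ⟨c, rfl⟩ := (Set.Finite.mem_toFinset _).mp ho
    rw [h.cls]; exact if_congr (by simp [Opt.cls]) rfl rfl
  | @excl s k c hne =>
    refine (cond_holds_iff _ _ _ (prO_inO_self _)
      (prO_inO_other _ _ (by simp [Opt.cls])) _ _ _ _
      (fun y => h.opt_inv (OptInv.other (by simp [Opt.cls])) y)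
      (fun y => h.opt_inv (OptInv.other (by simp [Opt.cls])) y)).mpr fun y => ?_
    simp only [add_zero]
    by_cases hs : s = proj K y
    · right
      have hc : c ≠ QuotientAddGroup.mk (proj K y) := hs ▸ hne
      have := proj_add_axO y (Opt.cls K k c) 1
      rw [one_smul] at this
      change (mu (y + _)).1 (Opt.cls K k c) = (mu y).1 (Opt.cls K k c)
      rw [h.cls, h.cls, this, if_neg hc, if_neg hc]
    · left
      have := proj_add_axO y (Sum.inl s : Opt K) 1
      rw [one_smul] at this
      change (mu (y + _)).1 (Sum.inl s) = (mu y).1 (Sum.inl s)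
      rw [h.st, h.st, this, if_neg hs, if_neg hs]
  | slopeS c =>
    refine (cond_holds_iff _ _ _ prS_inS_self (prO_inS _) _ _ _ _
      ?_ ?_).mpr fun y => ?_
    · exact fun y => h.opt_inv (OptInv.line 3 c) y
    · exact fun y => h.sInv _ (SInv.all (PosInv.axis _)) y
    by_cases hc : c = QuotientAddGroup.mk (proj K y)
    · right
      change (pos (y + (0, gS K))).1 = (pos y).1 + _
      rw [h.sSlope]
      refine congrArg _ (solSlopeS_congr ?_).symm
      have := QuotientAddGroup.eq.mp (show (QuotientAddGroup.mk (Quotient.out c) : Cls K 3) =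
        QuotientAddGroup.mk (proj K y) from (QuotientAddGroup.out_eq' c).trans hc)
      obtain ⟨m, hm⟩ := AddSubgroup.mem_zmultiples_iff.mp this
      have := congrArg Prod.fst hm
      simp [dirSt] at this
      exact neg_add_eq_zero.mp this.symm
    · left
      have := proj_add_axO y (Opt.cls K 3 c) 1
      rw [one_smul] at this
      change (mu (y + _)).1 (Opt.cls K 3 c) = (mu y).1 (Opt.cls K 3 c)
      rw [h.cls, h.cls, this, if_neg hc, if_neg hc]
  | slopeT s i =>
    refine (cond_holds_iff _ _ _ (prT_inT_self _) (prO_inT _ _) _ _ _ _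
      (fun y => h.opt_inv (OptInv.free _ (Or.inr ⟨i, rfl⟩)) y)
      (fun y => h.tInv _ _ (TInv.all i (PosInv.axis _)) y)).mpr fun y => ?_
    by_cases hs : s = proj K y
    · right
      subst hs
      exact h.tSlope y i
    · left
      have := proj_add_axO y (Sum.inl s : Opt K) 1
      rw [one_smul] at this
      change (mu (y + _)).1 (Sum.inl s) = (mu y).1 (Sum.inl s)
      rw [h.st, h.st, this, if_neg hs, if_neg hs]
  | slopeX s x =>
    refine (cond_holds_iff _ _ _ (prX_inX_self _) (prO_inX _ _) _ _ _ _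
      (fun y => h.opt_inv (OptInv.free _ (Or.inl ⟨x, rfl⟩)) y)
      (fun y => h.x_inv (XInv.axis _ _) y)).mpr fun y => ?_
    by_cases hs : s = proj K y
    · right
      subst hs
      change (mu (y + eX K x)).2 x = (mu y).2 x + _
      rw [h.col, h.col, map_add, proj_eX, add_zero]
      simp [eX, idem_pX]
      ring
    · left
      have := proj_add_axO y (Sum.inl s : Opt K) 1
      rw [one_smul] at this
      change (mu (y + _)).1 (Sum.inl s) = (mu y).1 (Sum.inl s)
      rw [h.st, h.st, this, if_neg hs, if_neg hs]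

/-! ### The explicit solution -/


/-- Two states have the same residues modulo `8`, `q₀`, `E` and every `L`. -/
structure SameRes (s t : St K) : Prop where
  slice_eq : slice K s = slice K t
  cPart_eq : cPart K s = cPart K t
  etaP_eq : etaP K s = etaP K t
  uPart_eq : ∀ n, uPart K s n = uPart K t n

lemma SameRes.of_fst {s t : St K} (h : s.1 = t.1) : SameRes s t :=
  ⟨by simp [slice, h], by simp [cPart, h], by simp [etaP, h], fun n => by simp [uPart, h]⟩

variable {s t : St K}

lemma SameRes.etaZ_eq (h : SameRes s t) : etaZ K s = etaZ K t :=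
  (ZMod.natCast_eq_natCast_iff' _ _ _).mpr h.etaP_eq

lemma SameRes.uVec_eq (h : SameRes s t) : uVec K s = uVec K t :=
  funext fun n => (ZMod.natCast_eq_natCast_iff' _ _ _).mpr (h.uPart_eq n)

lemma SameRes.spikeS_iff (h : SameRes s t) : spikeS K s ↔ spikeS K t := by
  simp [spikeS, Omega, h.slice_eq, h.etaP_eq, h.uPart_eq]

lemma SameRes.spikeT_iff (h : SameRes s t) (i : Fin 6) : spikeT K s i ↔ spikeT K t i := by
  have hu : uSpike K s ↔ uSpike K t := by
    change seedF (etaZ K s) (uVec K s) = true ↔ seedF (etaZ K t) (uVec K t) = true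
    rw [h.etaZ_eq, h.uVec_eq]
  fin_cases i <;> simp [spikeT, h.slice_eq, h.etaP_eq, h.cPart_eq, hu]

lemma baseS_congr (h : SameRes s t) {g g' : Tag K} (hg : g.1 = g'.1) (h4 : g.2 4 = g'.2 4)
    (h5 : g.2 5 = g'.2 5) : baseS K s g = baseS K t g' := by
  unfold baseS
  by_cases hs : spikeS K s
  · rw [if_pos hs, if_pos (h.spikeS_iff.mp hs), h.cPart_eq, funext h.uPart_eq]
  · rw [if_neg hs, if_neg (mt h.spikeS_iff.mpr hs)]
    simp only [epsC, h.slice_eq, h.cPart_eq, hg, h4, h5]

lemma baseT_congr (h : SameRes s t) {g g' : Tag K} (i : Fin 6) (hg : g.2 i = g'.2 i) :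
    baseT K s g i = baseT K t g' i := by
  unfold baseT
  by_cases hs : spikeT K s i
  · rw [if_pos hs, if_pos ((h.spikeT_iff i).mp hs)]
    fin_cases i <;> dsimp only
    · rw [h.slice_eq]
    · rw [h.slice_eq]
    · rw [h.slice_eq, h.etaP_eq, h.etaZ_eq, h.uVec_eq,
        show g7 K g = g7 K g' from Fin.ext (congrArg ZMod.val hg)]
    · rw [h.etaP_eq]
    · rw [h.cPart_eq]
    · rw [h.cPart_eq]
  · rw [if_neg hs, if_neg (mt (h.spikeT_iff i).mpr hs), hg]

lemma baseS_slope (h : SameRes s t) (g : Tag K) :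
    baseS K s (g + gS K) = baseS K t g + slopeS K t := by
  unfold baseS slopeS
  by_cases hs : spikeS K s
  · rw [if_pos hs, if_pos (h.spikeS_iff.mp hs), if_pos (h.spikeS_iff.mp hs), add_zero,
      h.cPart_eq, funext h.uPart_eq]
  · have ht := mt h.spikeS_iff.mpr hs
    rw [if_neg hs, if_neg ht, if_neg ht]
    simp only [epsC, h.slice_eq, h.cPart_eq, gS, Prod.fst_add, Prod.snd_add, add_zero]
    ring

lemma baseT_slope (s : St K) (g : Tag K) (i : Fin 6) :
    baseT K s (g + gT K i) i = baseT K s g i + slopeT K s i := by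
  unfold baseT slopeT
  by_cases hs : spikeT K s i
  · rw [if_pos hs, if_pos hs, if_pos hs, add_zero]
    fin_cases i <;> dsimp only
    by_cases h1 : slice K s = 1
    · rw [if_pos h1, if_pos h1]
    · have hu : uSpike K s := by
        rcases (show (slice K s = 1 ∧ etaP K s < 7) ∨ (slice K s = 2 ∧ uSpike K s) from hs)
          with a | a
        · exact absurd a.1 h1
        · exact a.2
      rw [if_neg h1, if_neg h1, seed_col_of_spike (η := etaZ K s) (u := uVec K s) hu _ (g7 K g)]
  · rw [if_neg hs, if_neg hs, if_neg hs]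
    simp only [gT, Prod.snd_add, Pi.add_apply, Pi.single_eq_same]

lemma colIdx_add {z v : Z2} (hv : v.2 = 0) : colIdx K (z + v) = colIdx K z := by
  simp [colIdx, hv]

lemma sameRes_add_int (s : St K) {v : ℤ} {u : ZMod (M K)} {g : ZMod K.q0}
    (h8 : (v : ZMod 8) = 0) (hq : (v : ZMod K.q0) = 0) (hE : (v : ZMod K.E) = 0)
    (hL : ∀ n, (v : ZMod (K.L n)) = 0) :
    SameRes (s.1 + (v : ZMod (M K)), u, g) s := by
  refine ⟨val_add_mod_zero dvd_M_eight _ h8, val_add_mod_zero ?_ _ hq,
    val_add_mod_zero dvd_M_E _ hE, fun n => val_add_mod_zero (dvd_M_L n) _ (hL n)⟩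
  rw [M_eq]; exact ((dvd_mul_left _ _).mul_right _).mul_right _

lemma posInv_res {v : D K} (hv : PosInv K v) (y : D K) :
    SameRes (proj K (y + v)) (proj K y) ∧ v.2 = 0 ∧ v.1.2 = 0 := by
  cases hv with
  | perI => exact ⟨.of_fst (by rw [map_add, solProj_perI, add_zero]), rfl, rfl⟩
  | half =>
    refine ⟨?_, rfl, rfl⟩
    have h : proj K (y + site K (step1 K)) = ((proj K y).1 + (((S K / 2 : ℕ) : ℤ) : ZMod (M K)),
        (proj K y).2.1, (proj K y).2.2) := by
      rw [map_add]; simp [proj, site, step1]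
    rw [h]
    refine sameRes_add_int _ ?_ ?_ ?_ fun n => ?_ <;>
      rw [Int.cast_natCast, ZMod.natCast_eq_zero_iff]
    · rw [Nat.dvd_iff_mod_eq_zero]; have := half_mod_16 K; omega
    · exact q0_dvd_half K
    · exact E_dvd_half K
    · exact L_dvd_half K n
  | axis o => exact ⟨.of_fst (by rw [map_add, proj_axO, add_zero]), rfl, rfl⟩
  | ex x => exact ⟨.of_fst (by rw [map_add, proj_eX, add_zero]), rfl, rfl⟩

lemma solPos_fst_congr {y y' : D K} (h : baseS K (proj K y) y.2 = baseS K (proj K y') y'.2)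
    (hc : y.1.2 = y'.1.2) : (solPos K y).1 = (solPos K y').1 := by
  simp [solPos, colIdx, h, hc]

lemma solPos_snd_congr {y y' : D K} (i : Fin 6)
    (h : baseT K (proj K y) y.2 i = baseT K (proj K y') y'.2 i)
    (hc : y.1.2 = y'.1.2) : (solPos K y).2 i = (solPos K y').2 i := by
  simp [solPos, colIdx, h, hc]

theorem shape_sol : Shape (solMu K) (solPos K) where
  st y t := by
    classical
    exact if_congr Iff.rfl rfl rfl |>.trans (by simp only [Sel, eq_comm])
  cls y k c := by
    classical
    exact if_congr Iff.rfl rfl rfl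
  col y x := mul_comm _ _
  sInv v hv y := by
    cases hv with
    | all hp =>
      obtain ⟨hr, h2, h12⟩ := posInv_res hp y
      exact solPos_fst_congr (baseS_congr hr (by simp [h2]) (by simp [h2]) (by simp [h2]))
        (by simp [h12])
    | @tag i hi =>
      refine solPos_fst_congr (baseS_congr (.of_fst (by rw [map_add, proj_gT, add_zero])) ?_ ?_ ?_)
        (by simp)
      · simp [gT]
      · simp [gT, Pi.single_eq_of_ne (show (4 : Fin 6) ≠ i by rintro rfl; omega)]
      · simp [gT, Pi.single_eq_of_ne (show (5 : Fin 6) ≠ i by rintro rfl; omega)]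
  tInv i v hv y := by
    cases hv with
    | all i hp =>
      obtain ⟨hr, h2, h12⟩ := posInv_res hp y
      exact solPos_snd_congr i (baseT_congr hr i (by simp [h2])) (by simp [h12])
    | tagS i =>
      exact solPos_snd_congr i (baseT_congr (.of_fst (by simp [proj])) i (by simp [gS])) (by simp)
    | @tag _ i' hne =>
      exact solPos_snd_congr i (baseT_congr (.of_fst (by rw [map_add, proj_gT, add_zero])) i
        (by simp [gT, Pi.single_eq_of_ne hne.symm])) (by simp)
  sSlope y := by
    have h := baseS_slope (SameRes.of_fst (s := proj K (y + (0, gS K))) (t := proj K y)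
      (by simp [proj])) y.2
    simp only [solPos, Prod.fst_sub, Prod.snd_add, Prod.fst_add, h, add_zero]
    abel
  tSlope y i := by
    have h := baseT_slope (proj K y) y.2 i
    simp only [solPos, map_add, proj_gT, add_zero, Prod.snd_add, Prod.fst_add, Prod.snd_sub,
      Pi.sub_apply, h]
    abel

/-- Every list holds for the explicit solution. -/
theorem sol_eqns {L : E3 K} (hL : IsEqn K L) :
    Holds L (fun z => (solMu K z, solPos K z)) :=
  shape_sol.holds hL

lemma solMu_perJ (z : D K) : solMu K (z + perJ K) = solMu K z := by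
  have h : proj K (perJ K) = 0 :=
    Prod.ext Int.cast_zero (Prod.ext (S_cast K) rfl)
  unfold solMu
  rw [map_add, h, add_zero]
  simp [perJ]

lemma solCol_tag (y : D K) : keyTag K (solCol K y) = y.2 := rfl

/-- The chain holds every tag once. -/
theorem sol_keyWin : KeyWin (solSet K) (chain (colStep K) (Q K)) (keyTag K) :=
  pointSet_keyWin solCol_tag (solPos_step K)

theorem solSet_tag : Tiles (solSet K) (winT0 K) :=
  (tiles_keyTile_iff keyTag_surj).mpr sol_keyWin

lemma solMu_colStep (z : Z2) (g : Tag K) :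
    colMu K (solCol K (z + colStep K, g)) = colMu K (solCol K (z, g)) := by
  change solMu K (z + colStep K, g) = solMu K (z, g)
  rw [show ((z + colStep K, g) : D K) = (z, g) + perJ K from Prod.ext rfl (add_zero g).symm]
  exact solMu_perJ _

lemma sol_mark_colStep (z : Z2) (g : Tag K) :
    mark sol_keyWin (colMu K) (z + colStep K, g) = mark sol_keyWin (colMu K) (z, g) :=
  ((pointSet_mark solCol_tag (solPos_step K) solMu_colStep _).trans (solMu_colStep z g)).trans
    (pointSet_mark solCol_tag (solPos_step K) solMu_colStep _).symm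

theorem solSet_mu : Tiles (solSet K)
    (splitTile (chain (colStep K) (Q K)) (keyTag K) (colMu K) (colStep K) 0) :=
  (tiles_splitTile_iff keyTag_colMu_surj sol_keyWin _ _).mpr
    ((splitRule_chain_iff sol_keyWin (colMu K)).mpr sol_mark_colStep)

/-- Every list tile tiles the explicit set. -/
theorem solSet_eqn {L : E3 K} (h : IsEqn K L) : Tiles (solSet K) (eqnTile K L) := by
  refine (tiles_listTile_iff colStep_inj keyTag_colMu_surj sol_keyWin sol_mark_colStep
    (toRes K L)).mpr ?_
  have hr : reading sol_keyWin (colMu K) =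
      fun y => (solMu K y, (tagEquiv K).symm (solPos K y)) :=
    funext fun y => Prod.ext (pointSet_mark solCol_tag (solPos_step K) solMu_colStep y)
      (pointSet_pos solCol_tag (solPos_step K) colStep_inj y)
  rw [hr]
  refine (holds_toRes_iff L _ _).mpr ?_
  simp only [AddEquiv.apply_symm_apply]
  exact sol_eqns h

end

end Vale.Agent.P043.Z3
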