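/-
P043, dimension three: the labels of a spike and the selected tags of the explicit solution.
-/
import Vale.Agent.P043.Z3.SolDefs

namespace Vale.Agent.P043.Z3

open Function Finset

noncomputable section

variable (K : Par)

lemma table_selTag (z : Z2) : K.table (selTag K z) = P043.genuine (macroOf K z) :=
  (K.table_surj (P043.genuine (macroOf K z))).choose_spec.1

lemma selTag_ne (z : Z2) (i : Fin 2) : selTag K z ≠ K.d i :=
  (K.table_surj (P043.genuine (macroOf K z))).choose_spec.2 i

lemma selTag_congr {z z' : Z2} (h : macroOf K z = macroOf K z') : selTag K z = selTag K z' := by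
  simp only [selTag, h]

lemma rdVal_eq_tagVal (s : St K) (n : Att) : rdVal K s n = tagVal K s n s.2.2 := rfl

/-- Values near a state depend on the first residue only, through the top bit modulo `16`. -/
lemma tagVal_par (s : St K) (i : Fin 2) (g : ZMod K.q0) :
    tagVal K s (.inr (.inr i)) g = if g = K.d i then 3
      else (par0 (K.table g) + if h16 K s < 8 then 0 else 1).val + 1 := rfl

lemma refVal_par (i : Fin 2) (g : ZMod K.q0) :
    refVal K (.inr (.inr i)) g = if g = K.d i then 3 else (par0 (K.table g)).val + 1 := by
  have h : h16 K (0 : St K) < 8 := by simp [h16]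
  rw [refVal, tagVal_par, if_pos h, add_zero]

open Classical in
/-- The two nontrivial fibres of a parity readout have the same size. -/
lemma card_fib (i : Fin 2) (b : ZMod 2) :
    2 * (univ.filter fun g => refVal K (.inr (.inr i)) g = b.val + 1).card + 1 = K.q0 := by
  have hb : b.val < 2 := ZMod.val_lt b
  have e : (univ.filter fun g => refVal K (.inr (.inr i)) g = b.val + 1) =
      univ.filter fun g => g ≠ K.d i ∧ par0 (K.table g) = b := by
    refine Finset.filter_congr fun g _ => ?_
    rw [refVal_par]
    by_cases hg : g = K.d i
    · simp only [hg, if_true, not_true, false_and, ne_eq, iff_false]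
      omega
    · simp only [hg, if_false, not_false_iff, true_and, ne_eq, Nat.add_right_cancel_iff]
      exact ⟨fun h => ZMod.val_injective 2 h, fun h => congrArg ZMod.val h⟩
  rw [e, ← Fintype.card_subtype, ← Nat.card_eq_fintype_card]
  exact K.balanced i b

open Classical in
/-- Values near any state are taken as often as the values of reference. -/
lemma card_tagVal_eq (s : St K) (n : Att) (v : ℕ) :
    (univ.filter fun g => tagVal K s n g = v).card =
      (univ.filter fun g => refVal K n g = v).card := by
  rcases n with k | w | i
  · exact congrArg Finset.card (Finset.filter_congr fun g _ => Iff.rfl)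
  · exact congrArg Finset.card (Finset.filter_congr fun g _ => Iff.rfl)
  by_cases hs : h16 K s < 8
  · refine congrArg Finset.card (Finset.filter_congr fun g _ => ?_)
    rw [tagVal_par, refVal_par, if_pos hs, add_zero]
  · have htau : ∀ g, tagVal K s (.inr (.inr i)) g =
        Equiv.swap 1 2 (refVal K (.inr (.inr i)) g) := by
      intro g
      rw [tagVal_par, refVal_par, if_neg hs]
      by_cases hg : g = K.d i
      · simp only [hg, if_true]
        decide
      · simp only [hg, if_false]
        generalize par0 (K.table g) = b
        revert b
        decide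
    have e : (univ.filter fun g => tagVal K s (.inr (.inr i)) g = v) =
        univ.filter fun g => refVal K (.inr (.inr i)) g = Equiv.swap 1 2 v :=
      Finset.filter_congr fun g _ => by rw [htau g, ← Equiv.eq_symm_apply, Equiv.symm_swap]
    have h0 := card_fib K i 0
    have h1 := card_fib K i 1
    have v0 : (0 : ZMod 2).val + 1 = 1 := rfl
    have v1 : (1 : ZMod 2).val + 1 = 2 := rfl
    rw [v0] at h0
    rw [v1] at h1
    rw [e]
    by_cases ha : v = 1
    · subst ha
      rw [Equiv.swap_apply_left]
      omega
    by_cases hb : v = 2
    · subst hb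
      rw [Equiv.swap_apply_right]
      omega
    rw [Equiv.swap_apply_of_ne_of_ne ha hb]

/-- Some bijection carries the values near a state to the values of reference. -/
lemma exists_refEquiv (s : St K) (n : Att) :
    ∃ σ : ZMod K.q0 ≃ ZMod K.q0, ∀ g, refVal K n (σ g) = tagVal K s n g := by
  classical
  exact exists_equiv_of_fibres _ _ fun v => card_tagVal_eq K s n v

/-- The labels of a spike exist. -/
lemma exists_role (s : St K) (n : Att) (sel : ZMod K.q0) :
    ∃ p : ZMod K.q0 ≃ ZMod K.q0, p sel = selLab K s n ∧
      ∀ g, canVal K n (selLab K s n) (tagVal K s n sel) (p g) = tagVal K s n g := by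
  classical
  obtain ⟨σ, hσ⟩ := exists_refEquiv K s n
  set a := tagVal K s n sel with ha
  set ρ := Classical.epsilon fun g => refVal K n g = a with hρ
  have hra : refVal K n ρ = a :=
    Classical.epsilon_spec (p := fun g => refVal K n g = a) ⟨σ sel, hσ sel⟩
  refine ⟨(σ.trans (Equiv.swap (σ sel) ρ)).trans (Equiv.swap ρ (selLab K s n)), ?_, fun g => ?_⟩
  · simp
  · simp only [canVal, ← hρ, Equiv.trans_apply, Equiv.swap_apply_self]
    rw [← hσ g]
    by_cases h1 : σ g = σ sel
    · rw [h1, Equiv.swap_apply_left, hσ, hra]
    by_cases h2 : σ g = ρ
    · rw [h2, Equiv.swap_apply_right, hσ, hra]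
    rw [Equiv.swap_apply_of_ne_of_ne h1 h2]

/-- The labels of a spike: the selected tag gets the selected label, and the value is read
from the label and the value at the selected tag alone. -/
theorem role_spec (s : St K) (n : Att) (sel : ZMod K.q0) :
    role K s n sel sel = selLab K s n ∧
      ∀ g, canVal K n (selLab K s n) (tagVal K s n sel) (role K s n sel g) = tagVal K s n g :=
  Classical.epsilon_spec (exists_role K s n sel)

lemma role_sel (s : St K) (n : Att) (sel : ZMod K.q0) : role K s n sel sel = selLab K s n :=
  (role_spec K s n sel).1

lemma canVal_role (s : St K) (n : Att) (sel g : ZMod K.q0) :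
    canVal K n (selLab K s n) (tagVal K s n sel) (role K s n sel g) = tagVal K s n g :=
  (role_spec K s n sel).2 g

/-- A value is never zero. -/
lemma rdVal_pos (s : St K) (n : Att) : 0 < rdVal K s n := by
  rcases n with k | w | i
  · exact Nat.succ_pos _
  · exact Nat.succ_pos _
  · simp only [rdVal]
    split_ifs <;> omega

end

end Vale.Agent.P043.Z3
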