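/-
P043, dimension three (helper18): residues and labels at one point of the explicit set.
-/
import Vale.Agent.P043.Z3.SolBase
import Vale.Agent.P043.Z3.SolRole
import Vale.Agent.P043.Z3.Arith

namespace Vale.Agent.P043.Z3

open Function Finset

noncomputable section

variable (K : Par)

/-! ### Residues of a state -/

/-- The residue of the first component modulo a divisor of `M`. -/
lemma val_cast_eq {d : ℕ} (hd : d ∣ M K) (i : ℤ) :
    (((i : ZMod (M K)).val : ℕ) : ZMod d) = (i : ZMod d) := by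
  rw [← map_natCast (ZMod.castHom hd (ZMod d)), ZMod.natCast_zmod_val, map_intCast]

lemma val_mod_eq {d : ℕ} (hd : d ∣ M K) (i : ℤ) :
    (i : ZMod (M K)).val % d = (i : ZMod d).val := by
  rw [← val_cast_eq K hd i, ZMod.val_natCast]

lemma eight_dvd_M : 8 ∣ M K := (show 8 ∣ 16 by norm_num).trans (sixteen_dvd_M K)

lemma slice_proj (z : Z2) (g : Tag K) : slice K (proj K (z, g)) = (z.1 : ZMod 8).val :=
  val_mod_eq K (eight_dvd_M K) z.1

lemma h16_proj (z : Z2) (g : Tag K) : h16 K (proj K (z, g)) = (z.1 : ZMod 16).val :=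
  val_mod_eq K (sixteen_dvd_M K) z.1

lemma cPart_proj (z : Z2) (g : Tag K) : cPart K (proj K (z, g)) = (z.1 : ZMod K.q0).val :=
  val_mod_eq K (q0_dvd_M K) z.1

lemma etaZ_proj (z : Z2) (g : Tag K) : etaZ K (proj K (z, g)) = (z.1 : ZMod K.E) :=
  val_cast_eq K (E_dvd_M K) z.1

lemma uVec_proj (z : Z2) (g : Tag K) :
    uVec K (proj K (z, g)) = fun m => (z.1 : ZMod (K.L m)) :=
  funext fun m => val_cast_eq K (L_dvd_M K m) z.1

lemma etaP_eq (s : St K) : etaP K s = (etaZ K s).val := by rw [etaP, etaZ, ZMod.val_natCast]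

lemma uPart_eq (s : St K) (m : Att) : uPart K s m = (uVec K s m).val := by
  rw [uPart, uVec, ZMod.val_natCast]

/-- Two states that differ at most in the top bit of the sixteen. -/
structure Sim (s s' : St K) : Prop where
  slice : slice K s = slice K s'
  cPart : cPart K s = cPart K s'
  eta : etaZ K s = etaZ K s'
  u : uVec K s = uVec K s'

variable {K}

namespace Sim

variable {s s' : St K} (h : Sim K s s')
include h

lemma symm : Sim K s' s := ⟨h.slice.symm, h.cPart.symm, h.eta.symm, h.u.symm⟩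

lemma etaP : Z3.etaP K s = Z3.etaP K s' := by rw [etaP_eq, etaP_eq, h.eta]

lemma uPart (m : Att) : Z3.uPart K s m = Z3.uPart K s' m := by rw [uPart_eq, uPart_eq, h.u]

lemma omega : Omega K s ↔ Omega K s' := by simp only [Omega, h.etaP, h.uPart]

lemma spikeS : Z3.spikeS K s ↔ Z3.spikeS K s' := by rw [Z3.spikeS, Z3.spikeS, h.slice, h.omega]

lemma uSpike : Z3.uSpike K s ↔ Z3.uSpike K s' := by
  show seedF (etaZ K s) (uVec K s) = true ↔ seedF (etaZ K s') (uVec K s') = true
  rw [h.eta, h.u]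

lemma spikeT (i : Fin 6) : Z3.spikeT K s i ↔ Z3.spikeT K s' i := by
  fin_cases i <;> simp [Z3.spikeT, h.slice, h.etaP, h.cPart, h.uSpike]

lemma epsC (g : Tag K) : Z3.epsC K s g = Z3.epsC K s' g := by rw [Z3.epsC, Z3.epsC, h.cPart]

lemma selLab (n : Att) : Z3.selLab K s n = Z3.selLab K s' n := by
  simp only [Z3.selLab, h.uPart]

lemma baseT (g : Tag K) : Z3.baseT K s g = Z3.baseT K s' g := by
  funext i
  simp only [Z3.baseT]
  by_cases hh : Z3.spikeT K s' i
  · rw [if_pos ((h.spikeT i).2 hh), if_pos hh]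
    simp only [h.slice, h.etaP, h.cPart, h.eta, h.u]
  · rw [if_neg fun e => hh ((h.spikeT i).1 e), if_neg hh]

lemma baseS (g : Tag K) : Z3.baseS K s g = Z3.baseS K s' g := by
  classical
  simp only [Z3.baseS]
  exact if_congr h.spikeS (by simp only [h.cPart, h.uPart]) (by simp only [h.slice, h.cPart, h.epsC])

lemma basePos (g : Tag K) : Z3.basePos K s g = Z3.basePos K s' g := by
  rw [Z3.basePos, Z3.basePos, h.baseS, h.baseT]

end Sim

variable (K)

lemma role_eq_selLab {s : St K} {n : Att} {sel g : ZMod K.q0} :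
    role K s n sel g = selLab K s n ↔ g = sel := by
  constructor
  · intro h; exact (role K s n sel).injective (h.trans (role_sel K s n sel).symm)
  · rintro rfl; exact role_sel K s n _

/-- The labels of the second seed slice. -/
lemma lab2_spec (n : Att) (u : ∀ m, ZMod (K.L m)) (a : Fin 7) :
    Set.BijOn (fun p : ZMod K.E × ZMod (K.L n) × Fin 7 =>
        (seedLab p.1 (update u n p.2.1) p.2.2, lab2 K n u a p))
      {p | seedCol p.1 (update u n p.2.1) p.2.2 = a} Set.univ := by
  unfold lab2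
  generalize hP : (fun f : ZMod K.E × ZMod (K.L n) × Fin 7 → ZMod (K.L n) =>
    Set.BijOn (fun p => (seedLab p.1 (update u n p.2.1) p.2.2, f p))
      {p | seedCol p.1 (update u n p.2.1) p.2.2 = a} Set.univ) = P
  suffices hex : ∃ f, P f by
    have := Classical.epsilon_spec hex
    subst hP
    beta_reduce at this
    exact this
  rw [← hP]
  clear hP P
  have hE : 8 * nTerm Att ≤ K.E := by
    have := K.E_big
    simp only [nTerm, Fintype.card_fun, Fintype.card_bool] at *
    omega
  have hodd : K.L n % 2 = 1 := (K.L_prime n).eq_two_or_odd.resolve_left (by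
    have := two_lt_L K n; omega)
  let X := {p : ZMod K.E × ZMod (K.L n) × Fin 7 // seedCol p.1 (update u n p.2.1) p.2.2 = a}
  obtain ⟨l, hl⟩ := exists_second (n := K.L n)
    (fun p : X => seedLab p.1.1 (update u n p.1.2.1) p.1.2.2) (fun e => by
      refine Eq.trans ?_ (seed_line (E := K.E) hE (i := n) (two_lt_L K n) hodd u a e)
      rw [← card_sigma]
      refine card_bij (fun p _ => ⟨p.1.2.1, (p.1.1, p.1.2.2)⟩) (fun p hp => ?_) ?_ ?_
      · simp only [mem_filter, mem_univ, true_and] at hp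
        simp [p.2, hp]
      · rintro ⟨⟨η, x, g⟩, _⟩ _ ⟨⟨η', x', g'⟩, _⟩ _ h
        simp only [Sigma.mk.injEq, heq_eq_eq, Prod.mk.injEq] at h
        obtain ⟨rfl, rfl, rfl⟩ := h
        rfl
      · rintro ⟨x, η, g⟩ h
        simp only [mem_sigma, mem_univ, true_and, mem_filter] at h
        exact ⟨⟨(η, x, g), h.1⟩, by simpa using h.2, rfl⟩)
  refine ⟨fun p => if h : seedCol p.1 (update u n p.2.1) p.2.2 = a then l ⟨p, h⟩ else 0,
    fun _ _ => trivial, ?_, ?_⟩
  · intro p hp q hq h
    simp only [Set.mem_setOf_eq] at hp hq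
    simp only [dif_pos hp, dif_pos hq] at h
    exact congrArg Subtype.val (hl.1 (a₁ := ⟨p, hp⟩) (a₂ := ⟨q, hq⟩) h)
  · intro y _
    obtain ⟨⟨p, hp⟩, hy⟩ := hl.2 y
    exact ⟨p, hp, by simp only [dif_pos hp]; exact hy⟩

end

end Vale.Agent.P043.Z3
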