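/-
P043, dimension three (helper18): the key windows of the explicit set.
-/
import Vale.Agent.P043.Z3.SolPoint
import Vale.Agent.P043.Z3.Blocks

namespace Vale.Agent.P043.Z3

open Function Finset

noncomputable section

variable (K : Par)

open Classical in
/-- The label `e` at a state when `sel` is selected. -/
def eN (s : St K) (g : Tag K) (sel : ZMod K.q0) : ZMod K.E :=
  if slice K s = 1 then
    ((if etaP K s < 7 then (g.2 2).val
      else 7 + 11 * ((etaP K s - 7) / 11) + (g.2 3).val : ℕ) : ZMod K.E)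
  else if slice K s = 2 then seedLab (etaZ K s) (uVec K s) (g7 K g)
  else if spikeS K s then (if g.1 = sel then 1 else 0)
  else etaZ K s

open Classical in
/-- The label `l` at a state when `sel` is selected. -/
def lN (s : St K) (g : Tag K) (n : Att) (sel : ZMod K.q0) : ZMod (K.L n) :=
  if slice K s = 2 then
    lab2 K n (update (uVec K s) n 0) (seedCol (etaZ K s) (uVec K s) (g7 K g))
      (etaZ K s, uVec K s n, g7 K g)
  else if spikeS K s then ((role K s n sel g.1).val : ZMod (K.L n))
  else uVec K s n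

lemma keyN_solCol (n : Att) (y : D K) :
    keyN K n (solCol K y) =
      ((eN K (proj K y) y.2 (selTag K y.1), lN K (proj K y) y.2 n (selTag K y.1)),
        keyT K FN y.2) := rfl

/-- Fixed components in a window of an attribute. -/
lemma fixN_iff (s : St K) (g a : Tag K) :
    FixZero K true FN (basePos K s g - a) ↔
      baseS K s g = a.1 ∧ baseT K s g 2 = a.2 2 ∧ baseT K s g 3 = a.2 3 := by
  simp [FixZero, FN, basePos, sub_eq_zero]

lemma keyT_FN_ext {g g' : Tag K} (h : keyT K FN g = keyT K FN g') (i : Fin 6)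
    (h2 : i ≠ 2) (h3 : i ≠ 3) : g.2 i = g'.2 i :=
  congrFun h ⟨i, by simp [FN, h2, h3]⟩

/-- A tag is given by its key part and the three fixed components. -/
lemma tagN_ext {g g' : Tag K} (h : keyT K FN g = keyT K FN g') (h1 : g.1 = g'.1)
    (h2 : g.2 2 = g'.2 2) (h3 : g.2 3 = g'.2 3) : g = g' := by
  refine Prod.ext h1 (funext fun i => ?_)
  by_cases e2 : i = 2
  · subst e2; exact h2
  by_cases e3 : i = 3
  · subst e3; exact h3
  exact keyT_FN_ext K h i e2 e3

/-- A key part with prescribed fixed components. -/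
def mkTag (k : KeyT FN) (x : ZMod K.q0) (y : ZMod (tm 2)) (w : ZMod (tm 3)) : Tag K :=
  (x, fun i => if h : i ∉ FN then k ⟨i, h⟩ else if h2 : i = 2 then h2 ▸ y else
    if h3 : i = 3 then h3 ▸ w else 0)

lemma mkTag_two (k : KeyT FN) (x : ZMod K.q0) (y : ZMod (tm 2)) (w : ZMod (tm 3)) :
    (mkTag K k x y w).2 2 = y := by
  simp [mkTag, FN]

lemma mkTag_three (k : KeyT FN) (x : ZMod K.q0) (y : ZMod (tm 2)) (w : ZMod (tm 3)) :
    (mkTag K k x y w).2 3 = w := by
  simp [mkTag, FN]

lemma keyT_mkTag (k : KeyT FN) (x : ZMod K.q0) (y : ZMod (tm 2)) (w : ZMod (tm 3)) :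
    keyT K FN (mkTag K k x y w) = k := by
  funext i
  show (mkTag K k x y w).2 i.1 = k i
  rw [mkTag]
  simp [i.2]

/-! ### The rows of a window -/

/-- The residues of the rows. -/
def rowRes (n : Att) (z : Z2) (t : Fin (mn K n)) : ZMod K.E × ZMod (K.L n) :=
  ((z.1 : ZMod K.E) + ((t.val : ℕ) : ZMod K.E),
    (z.1 : ZMod (K.L n)) + ((t.val : ℕ) : ZMod (K.L n)))

lemma rowRes_bijective (n : Att) (z : Z2) : Bijective (rowRes K n z) := by
  refine (Fintype.bijective_iff_injective_and_card _).mpr ⟨fun t t' h => ?_, by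
    rw [Fintype.card_fin, Fintype.card_prod, ZMod.card, ZMod.card]; rfl⟩
  simp only [rowRes, Prod.mk.injEq, add_right_inj] at h
  apply Fin.ext
  have := (Nat.modEq_and_modEq_iff_modEq_mul (a := t.val) (b := t'.val) (coprime_E_L K n)).mp
    ⟨(ZMod.natCast_eq_natCast_iff _ _ _).mp h.1, (ZMod.natCast_eq_natCast_iff _ _ _).mp h.2⟩
  exact this.eq_of_lt_of_lt t.isLt t'.isLt

/-- The row with given residues. -/
def rowOf (n : Att) (z : Z2) : ZMod K.E × ZMod (K.L n) ≃ Fin (mn K n) :=
  (Equiv.ofBijective _ (rowRes_bijective K n z)).symm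

lemma rowRes_rowOf (n : Att) (z : Z2) (p : ZMod K.E × ZMod (K.L n)) :
    rowRes K n z (rowOf K n z p) = p :=
  Equiv.ofBijective_apply_symm_apply _ (rowRes_bijective K n z) p

/-- The state of a row. -/
def rst (n : Att) (z : Z2) (t : Fin (mn K n)) (g : Tag K) : St K := rowSt K (mn K n) z t g

variable {K} {n : Att} {z : Z2}

lemma row_fst (t : Fin (mn K n)) (g : Tag K) :
    (rst K n z t g).1 = ((z.1 + (t.val : ℤ) * idem K (mn K n) : ℤ) : ZMod (M K)) := rfl

lemma rst_eta (t : Fin (mn K n)) (g : Tag K) : etaZ K (rst K n z t g) = (rowRes K n z t).1 := by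
  rw [rst, rowSt, etaZ_proj]
  simp [rowRes, idem_mn_E]

lemma rst_u (t : Fin (mn K n)) (g : Tag K) :
    uVec K (rst K n z t g) = update (uVec K (proj K (z, g))) n (rowRes K n z t).2 := by
  rw [rst, rowSt, uVec_proj, uVec_proj]
  funext m
  by_cases h : m = n
  · subst h; simp [rowRes, idem_mn_L]
  · simp [update_of_ne h, cast_zero_of_dvd (L_dvd_idem_mn K h)]

lemma rst_slice (t : Fin (mn K n)) (g : Tag K) :
    slice K (rst K n z t g) = (z.1 : ZMod 8).val := by
  have h : (8 : ℤ) ∣ idem K (mn K n) := (show (8 : ℤ) ∣ 16 by norm_num).trans (sixteen_dvd_idem_mn K n)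
  rw [rst, rowSt, slice_proj]
  simp [cast_zero_of_dvd (d := 8) h]

lemma rst_h16 (t : Fin (mn K n)) (g : Tag K) :
    h16 K (rst K n z t g) = (z.1 : ZMod 16).val := by
  rw [rst, rowSt, h16_proj]
  simp [cast_zero_of_dvd (d := 16) (sixteen_dvd_idem_mn K n)]

lemma rst_cPart (t : Fin (mn K n)) (g : Tag K) :
    cPart K (rst K n z t g) = (z.1 : ZMod K.q0).val := by
  rw [rst, rowSt, cPart_proj]
  simp [cast_zero_of_dvd (q0_dvd_idem_mn K n)]

lemma rst_uPart (t : Fin (mn K n)) (g : Tag K) :
    uPart K (rst K n z t g) n = (rowRes K n z t).2.val := by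
  rw [uPart_eq, rst_u, update_self]

lemma rst_uPart_ne (t : Fin (mn K n)) (g : Tag K) {m : Att} (h : m ≠ n) :
    uPart K (rst K n z t g) m = (z.1 : ZMod (K.L m)).val := by
  rw [uPart_eq, rst_u, update_of_ne h, uVec_proj]

variable (K n z)

/-- The other residues allow selection rows. -/
def OthOK : Prop := ∀ m, m ≠ n → (z.1 : ZMod (K.L m)).val < K.q0

/-- The sum of the other residues. -/
def othSum : ℕ := ∑ m ∈ univ.erase n, (z.1 : ZMod (K.L m)).val

/-- A key is that of a selection row. -/
def OmegaAt (p : ZMod K.E × ZMod (K.L n)) : Prop :=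
  OthOK K n z ∧ p.2.val < K.q0 ∧
    p.1 = if (othSum K n z + p.2.val) % K.q0 = 0 then 1 else 0

variable {K n z}

lemma val_ite_one (c : Prop) [Decidable c] :
    ((if c then 1 else 0 : ZMod K.E)).val = if c then 1 else 0 := by
  have : Fact (1 < K.E) := ⟨by have := two_lt_E K; omega⟩
  split_ifs <;> simp [ZMod.val_one]

lemma sum_split {α : Type} [Fintype α] [DecidableEq α] (f : α → ℕ) (i : α) :
    ∑ j, f j = ∑ j ∈ univ.erase i, f j + f i :=
  (sum_erase_add _ _ (mem_univ i)).symm

lemma rst_sum (t : Fin (mn K n)) (g : Tag K) :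
    ∑ m, uPart K (rst K n z t g) m = othSum K n z + (rowRes K n z t).2.val :=
  (sum_split _ n).trans (congrArg₂ (· + ·)
    (sum_congr rfl fun m hm => rst_uPart_ne t g (mem_erase.mp hm).1) (rst_uPart t g))

lemma rst_omega (t : Fin (mn K n)) (g : Tag K) :
    Omega K (rst K n z t g) ↔ OmegaAt K n z (rowRes K n z t) := by
  rw [Omega, rst_sum, etaP_eq, rst_eta, OmegaAt]
  constructor
  · rintro ⟨h1, h2⟩
    refine ⟨fun m hm => rst_uPart_ne t g hm ▸ h1 m, rst_uPart (z := z) t g ▸ h1 n, ?_⟩
    apply ZMod.val_injective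
    rw [val_ite_one]; exact h2
  · rintro ⟨h1, h2, h3⟩
    refine ⟨fun m => ?_, by rw [h3, val_ite_one]⟩
    by_cases hm : m = n
    · subst hm; rw [rst_uPart]; exact h2
    · rw [rst_uPart_ne t g hm]; exact h1 m hm

lemma rst_spikeS (t : Fin (mn K n)) (g : Tag K) :
    spikeS K (rst K n z t g) ↔ (z.1 : ZMod 8).val = 0 ∧ OmegaAt K n z (rowRes K n z t) := by
  rw [spikeS, rst_slice, rst_omega]

lemma rst_selLab (t : Fin (mn K n)) (g : Tag K) :
    selLab K (rst K n z t g) n = -(othSum K n z : ZMod K.q0) := by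
  rw [selLab, othSum, sum_congr rfl fun m hm => rst_uPart_ne t g (mem_erase.mp hm).1]

/-! ### Points of a window -/

variable (K n z)

/-- The point `g` of row `t` is in the window and has key `c`. -/
def InN (x : Fin (mn K n) × Tag K) (c : (ZMod K.E × ZMod (K.L n)) × KeyT FN) : Prop :=
  FixZero K true FN (basePos K (rst K n z x.1 x.2) x.2 - colIdx K z) ∧
    keyN K n (solCol K (wpt K (mn K n) z x.1 x.2, x.2)) = c

/-- The selected tag seen by a point of a window. -/
def selN (x : Fin (mn K n) × Tag K) : ZMod K.q0 := selTag K (wpt K (mn K n) z x.1 x.2)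

variable {K n z}

lemma inN_iff (x : Fin (mn K n) × Tag K) (c : (ZMod K.E × ZMod (K.L n)) × KeyT FN) :
    InN K n z x c ↔
      (baseS K (rst K n z x.1 x.2) x.2 = (colIdx K z).1 ∧
        baseT K (rst K n z x.1 x.2) x.2 2 = (colIdx K z).2 2 ∧
        baseT K (rst K n z x.1 x.2) x.2 3 = (colIdx K z).2 3) ∧
      eN K (rst K n z x.1 x.2) x.2 (selN K n z x) = c.1.1 ∧
      lN K (rst K n z x.1 x.2) x.2 n (selN K n z x) = c.1.2 ∧ keyT K FN x.2 = c.2 := by
  rw [InN, fixN_iff, keyN_solCol, proj_wpt]
  simp only [Prod.ext_iff, and_assoc]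
  rfl

/-- Outside the two seed slices a plain row keeps its residues. -/
lemma plain_row {x : Fin (mn K n) × Tag K} (h1 : (z.1 : ZMod 8).val ≠ 1)
    (h2 : (z.1 : ZMod 8).val ≠ 2) (hs : ¬ spikeS K (rst K n z x.1 x.2)) (sel : ZMod K.q0) :
    (eN K (rst K n z x.1 x.2) x.2 sel, lN K (rst K n z x.1 x.2) x.2 n sel) =
      rowRes K n z x.1 := by
  simp [eN, lN, rst_slice, h1, h2, hs, rst_eta, rst_u]

/-- The label of a tag of a spike is below `q0`. -/
lemma spike_row {x : Fin (mn K n) × Tag K} (hs : spikeS K (rst K n z x.1 x.2))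
    (sel : ZMod K.q0) :
    eN K (rst K n z x.1 x.2) x.2 sel = (if x.2.1 = sel then 1 else 0) ∧
      lN K (rst K n z x.1 x.2) x.2 n sel =
        ((role K (rst K n z x.1 x.2) n sel x.2.1).val : ZMod (K.L n)) := by
  have h0 : slice K (rst K n z x.1 x.2) = 0 := hs.1
  simp [eN, lN, h0, hs]

/-- A spike carries the keys of selection rows. -/
lemma spike_key_omega {x : Fin (mn K n) × Tag K} (hs : spikeS K (rst K n z x.1 x.2))
    (sel : ZMod K.q0) :
    OmegaAt K n z (eN K (rst K n z x.1 x.2) x.2 sel, lN K (rst K n z x.1 x.2) x.2 n sel) := by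
  obtain ⟨he, hl⟩ := spike_row hs sel
  have hv : ∀ y : ZMod K.q0, ((y.val : ℕ) : ZMod (K.L n)).val = y.val := fun y =>
    ZMod.val_cast_of_lt (lt_trans y.val_lt (K.L_big n))
  refine ⟨((rst_spikeS x.1 x.2).mp hs).2.1, by rw [hl, hv]; exact ZMod.val_lt _, ?_⟩
  rw [he, hl, hv]
  refine if_congr ?_ rfl rfl
  rw [← role_eq_selLab (s := rst K n z x.1 x.2) (n := n) (sel := sel), rst_selLab,
    ← ZMod.val_natCast, ZMod.val_eq_zero, Nat.cast_add, ZMod.natCast_zmod_val,
    eq_neg_iff_add_eq_zero, add_comm]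

/-- In a window the selection keys are exactly those of selection rows. -/
lemma omega_key_iff {x : Fin (mn K n) × Tag K} (h1 : (z.1 : ZMod 8).val ≠ 1)
    (h2 : (z.1 : ZMod 8).val ≠ 2) (sel : ZMod K.q0) :
    OmegaAt K n z (eN K (rst K n z x.1 x.2) x.2 sel, lN K (rst K n z x.1 x.2) x.2 n sel) ↔
      OmegaAt K n z (rowRes K n z x.1) := by
  by_cases hs : spikeS K (rst K n z x.1 x.2)
  · exact ⟨fun _ => ((rst_spikeS x.1 x.2).mp hs).2, fun _ => spike_key_omega hs sel⟩
  · rw [plain_row h1 h2 hs]

lemma baseT_plain {s : St K} {g : Tag K} {i : Fin 6} (h : ¬ spikeT K s i) :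
    baseT K s g i = g.2 i := by
  classical
  exact if_neg h

lemma baseS_plain {s : St K} {g : Tag K} (h : ¬ spikeS K s) :
    baseS K s g =
      g.1 + ((if slice K s = 3 then epsC K s g else cPart K s : ℕ) : ZMod K.q0) := by
  classical
  exact if_neg h

lemma baseS_spike {s : St K} {g : Tag K} (h : spikeS K s) :
    baseS K s g = ((∑ m, uPart K s m + cPart K s : ℕ) : ZMod K.q0) := by
  classical
  exact if_pos h

lemma not_spikeT_two {s : St K} (h1 : slice K s ≠ 1) (h2 : slice K s ≠ 2) : ¬ spikeT K s 2 := by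
  simp [spikeT, h1, h2]

lemma not_spikeT_three {s : St K} (h1 : slice K s ≠ 1) : ¬ spikeT K s 3 := by
  simp [spikeT, h1]

lemma epsC_congr {g g' : Tag K} (h : keyT K FN g = keyT K FN g') (s : St K) :
    epsC K s g = epsC K s g' := by
  rw [epsC, epsC, keyT_FN_ext K h 4 (by decide) (by decide),
    keyT_FN_ext K h 5 (by decide) (by decide)]

/-- The position of a spike does not depend on the big tag. -/
lemma basePos_spike {s : St K} {g g' : Tag K} (h : spikeS K s) (e : g.2 = g'.2) :
    basePos K s g = basePos K s g' := by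
  rw [basePos, basePos, baseS_spike h, baseS_spike h]
  refine congrArg (Prod.mk _) (funext fun i => ?_)
  simp only [baseT, e, g7]

lemma wpt_spike {t : Fin (mn K n)} {g g' : Tag K} (h : spikeS K (rst K n z t g))
    (e : g.2 = g'.2) : wpt K (mn K n) z t g = wpt K (mn K n) z t g' := by
  have hk : basePos K (rowSt K (mn K n) z t g) g = basePos K (rowSt K (mn K n) z t g') g' :=
    (basePos_spike h e).trans rfl
  rw [wpt, wpt, kOf, kOf, hk]

/-- Every key lies once in every window. -/
theorem inN_existsUnique (n : Att) (z : Z2) (c : (ZMod K.E × ZMod (K.L n)) × KeyT FN) :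
    ∃! x, InN K n z x c := by
  classical
  obtain ⟨⟨e, l⟩, k⟩ := c
  set a := colIdx K z with ha
  set σ := (z.1 : ZMod 8).val with hσ
  simp only [inN_iff, ← ha]
  by_cases h1 : σ = 1
  · -- the slice of the second seed
    have h11 : 11 ∣ K.E - 7 := by have := K.E_mod; omega
    have h7 : 7 ≤ K.E := by have := K.E_mod; omega
    obtain ⟨⟨η, y, w⟩, hp, hpu⟩ :=
      (blk_bijective (n := K.E) (a := 7) (b := 11) h7 h11).existsUnique ((a.2 2, a.2 3, e) :
        ZMod 7 × ZMod 11 × ZMod K.E)
    set t := rowOf K n z (η, l) with ht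
    have hr : rowRes K n z t = (η, l) := rowRes_rowOf K n z _
    have hs : ∀ t g, ¬ spikeS K (rst K n z t g) := fun t g h => by
      have := h.1; rw [rst_slice, ← hσ] at this; omega
    have key : ∀ t g, baseT K (rst K n z t g) g 2 = blkA (a := 7) (rowRes K n z t).1 (g.2 2) ∧
        baseT K (rst K n z t g) g 3 = blkB (b := 11) 7 (rowRes K n z t).1 (g.2 3) ∧
        ∀ sel, eN K (rst K n z t g) g sel = blkLab (a := 7) (b := 11) (rowRes K n z t).1 (g.2 2) (g.2 3) := by
      intro t g
      have hsl : slice K (rst K n z t g) = 1 := by rw [rst_slice, ← hσ, h1]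
      have hη : etaP K (rst K n z t g) = (rowRes K n z t).1.val := by rw [etaP_eq, rst_eta]
      by_cases h : (rowRes K n z t).1.val < 7
      · have a2 : spikeT K (rst K n z t g) 2 := Or.inl ⟨hsl, hη.trans_lt h⟩
        have a3 : ¬ spikeT K (rst K n z t g) 3 := fun hh => hh.2 (hη.trans_lt h)
        refine ⟨(if_pos a2).trans ?_, (baseT_plain a3).trans (if_pos h).symm, fun sel => ?_⟩
        · show (if slice K (rst K n z t g) = 1 then _ else _) = _
          rw [if_pos hsl, hη]; exact (if_pos h).symm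
        · rw [eN, if_pos hsl, if_pos (hη.trans_lt h)]; exact (if_pos h).symm
      · have h' : ¬ etaP K (rst K n z t g) < 7 := hη ▸ h
        have a2 : ¬ spikeT K (rst K n z t g) 2 := by
          rintro (hh | hh)
          · exact h' hh.2
          · exact absurd (hsl.symm.trans hh.1) (by norm_num)
        have a3 : spikeT K (rst K n z t g) 3 := ⟨hsl, h'⟩
        refine ⟨(baseT_plain a2).trans (if_neg h).symm, (if_pos a3).trans ?_, fun sel => ?_⟩
        · show ((etaP K (rst K n z t g) - 7 : ℕ) : ZMod (tm 3)) = _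
          rw [hη]; exact (if_neg h).symm
        · rw [eN, if_pos hsl, if_neg h', hη]; exact (if_neg h).symm
    have hl : ∀ t g sel, lN K (rst K n z t g) g n sel = (rowRes K n z t).2 := by
      intro t g sel
      simp [lN, rst_slice, ← hσ, h1, hs t g, rst_u]
    have hb : ∀ t g, baseS K (rst K n z t g) g = g.1 + ((z.1 : ZMod K.q0).val : ZMod K.q0) := by
      intro t g
      rw [baseS_plain (hs t g), rst_slice, rst_cPart, ← hσ, h1]; simp
    set g : Tag K := mkTag K k (a.1 - ((z.1 : ZMod K.q0).val : ZMod K.q0)) y w with hg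
    have gy : g.2 2 = y := mkTag_two K _ _ _ _
    have gw : g.2 3 = w := mkTag_three K _ _ _ _
    refine ⟨(t, g), ⟨⟨?_, ?_, ?_⟩, ?_, ?_, keyT_mkTag K _ _ _ _⟩, ?_⟩
    · rw [hb]; exact sub_add_cancel _ _
    · rw [(key t g).1, hr, gy]; exact congrArg Prod.fst hp
    · rw [(key t g).2.1, hr, gw]; exact congrArg (fun p => p.2.1) hp
    · rw [(key t g).2.2, hr, gy, gw]; exact congrArg (fun p => p.2.2) hp
    · rw [hl, hr]
    · rintro ⟨t', g⟩ ⟨⟨e1, e2, e3⟩, e4, e5, e6⟩
      simp only [hb, key, hl] at e1 e2 e3 e4 e5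
      have := hpu ((rowRes K n z t').1, g.2 2, g.2 3)
        (show (_, _, _) = _ from Prod.ext e2 (Prod.ext e3 e4))
      simp only [Prod.mk.injEq] at this
      refine Prod.ext ((rowRes_bijective K n z).1 (by rw [hr]; exact Prod.ext this.1 e5))
        (tagN_ext K (e6.trans (keyT_mkTag K _ _ _ _).symm) (eq_sub_of_add_eq e1) ?_ ?_)
      · exact (congrArg Prod.fst this.2).trans gy.symm
      · exact (congrArg Prod.snd this.2).trans gw.symm
  by_cases h2 : σ = 2
  · -- the slice of the third seed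
    set u0 := update (uVec K (proj K (z, (0 : Tag K)))) n 0 with hu0
    set c7 : Fin 7 := ⟨(a.2 2).val, ZMod.val_lt (n := 7) (a.2 2)⟩ with hc7
    have B := lab2_spec K n u0 c7
    obtain ⟨⟨η, u, w⟩, hp, hpl⟩ := B.surjOn (Set.mem_univ (e, l))
    have hs : ∀ t g, ¬ spikeS K (rst K n z t g) := fun t g h => by
      have := h.1; rw [rst_slice, ← hσ] at this; omega
    have hu : ∀ t g, uVec K (rst K n z t g) = update u0 n (rowRes K n z t).2 := by
      intro t g
      rw [rst_u, hu0, update_idem]
      rfl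
    have hcol : ∀ t g, baseT K (rst K n z t g) g 2 =
        ((seedCol (rowRes K n z t).1 (update u0 n (rowRes K n z t).2) (g7 K g)).val : ZMod (tm 2)) := by
      intro t g
      have hsl : slice K (rst K n z t g) = 2 := by rw [rst_slice, ← hσ, h2]
      rw [← hu t g, ← rst_eta t g]
      by_cases hh : uSpike K (rst K n z t g)
      · exact (if_pos (show spikeT K (rst K n z t g) 2 from Or.inr ⟨hsl, hh⟩)).trans
          (if_neg (by rw [hsl]; norm_num))
      · have hF : seedF (etaZ K (rst K n z t g)) (uVec K (rst K n z t g)) = false :=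
          Bool.eq_false_iff.mpr hh
        rw [seed_col_of_spread hF, baseT_plain (by simp [spikeT, hsl, hh])]
        exact (ZMod.natCast_zmod_val _).symm
    have h3 : ∀ t g, baseT K (rst K n z t g) g 3 = g.2 3 := fun t g =>
      baseT_plain (not_spikeT_three (by rw [rst_slice, ← hσ]; exact h1))
    have hcol' : ∀ t g, baseT K (rst K n z t g) g 2 = a.2 2 ↔
        seedCol (rowRes K n z t).1 (update u0 n (rowRes K n z t).2) (g7 K g) = c7 := by
      intro t g
      rw [hcol, hc7]
      constructor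
      · intro h
        refine Fin.ext ?_
        have := congrArg ZMod.val h
        exact (ZMod.val_cast_of_lt (n := 7) (Fin.isLt _)).symm.trans this
      · intro h
        rw [h]; exact ZMod.natCast_zmod_val (a.2 2)
    have hkey : ∀ t g sel, (eN K (rst K n z t g) g sel, lN K (rst K n z t g) g n sel) =
        (seedLab (rowRes K n z t).1 (update u0 n (rowRes K n z t).2) (g7 K g),
          lab2 K n u0 (seedCol (rowRes K n z t).1 (update u0 n (rowRes K n z t).2) (g7 K g))
            ((rowRes K n z t).1, (rowRes K n z t).2, g7 K g)) := by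
      intro t g sel
      have hsl : slice K (rst K n z t g) = 2 := by rw [rst_slice, ← hσ, h2]
      have e0 : update (uVec K (rst K n z t g)) n 0 = u0 := by
        rw [hu, update_idem, hu0, update_idem]
      simp only [eN, lN, hsl, if_true, if_neg (show ¬ (2 : ℕ) = 1 by omega), e0, rst_eta]
      simp only [hu, update_self]
    have hb : ∀ t g, baseS K (rst K n z t g) g = g.1 + ((z.1 : ZMod K.q0).val : ZMod K.q0) := by
      intro t g
      rw [baseS_plain (hs t g), rst_slice, rst_cPart, ← hσ, h2]; simp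
    set t := rowOf K n z (η, u) with ht
    have hr : rowRes K n z t = (η, u) := rowRes_rowOf K n z _
    set g : Tag K := mkTag K k (a.1 - ((z.1 : ZMod K.q0).val : ZMod K.q0))
      ((w.val : ℕ) : ZMod (tm 2)) (a.2 3) with hg
    have hg7 : g7 K g = w := by
      refine Fin.ext ?_
      show ((g.2 2)).val = _
      rw [hg, mkTag_two]; exact ZMod.val_cast_of_lt w.isLt
    simp only [Set.mem_setOf_eq] at hp
    have hcond : seedCol (rowRes K n z t).1 (update u0 n (rowRes K n z t).2) (g7 K g) = c7 := by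
      rw [hr, hg7]; exact hp
    refine ⟨(t, g), ⟨⟨?_, (hcol' t g).mpr hcond, ?_⟩, ?_⟩, ?_⟩
    · rw [hb, hg]; exact sub_add_cancel _ _
    · rw [h3, hg, mkTag_three]
    · have := hkey t g (selN K n z (t, g))
      rw [hcond, hr, hg7] at this
      have := this.trans hpl
      exact ⟨congrArg Prod.fst this, congrArg Prod.snd this, by rw [hg, keyT_mkTag]⟩
    · rintro ⟨t', g'⟩ ⟨⟨e1, e2, e3⟩, e4, e5, e6⟩
      have hc' := (hcol' t' g').mp e2
      have := hkey t' g' (selN K n z (t', g'))
      rw [hc', e4, e5] at this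
      have hinj := B.injOn (x₁ := ((rowRes K n z t').1, (rowRes K n z t').2, g7 K g'))
        (x₂ := (η, u, w)) hc' hp (this.symm.trans hpl.symm)
      simp only [Prod.mk.injEq] at hinj
      refine Prod.ext ((rowRes_bijective K n z).1 (by rw [hr]; exact Prod.ext hinj.1 hinj.2.1))
        (tagN_ext K (e6.trans (keyT_mkTag K _ _ _ _).symm) ?_ ?_ ?_)
      · rw [hg]; rw [hb] at e1; exact eq_sub_of_add_eq e1
      · rw [hg, mkTag_two, ← hinj.2.2]; exact (ZMod.natCast_zmod_val _).symm
      · rw [hg, mkTag_three, ← h3 t' g']; exact e3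
  -- the other slices
  have hT2 : ∀ t g, baseT K (rst K n z t g) g 2 = g.2 2 := fun t g =>
    baseT_plain (not_spikeT_two (by rw [rst_slice]; exact h1) (by rw [rst_slice]; exact h2))
  have hT3 : ∀ t g, baseT K (rst K n z t g) g 3 = g.2 3 := fun t g =>
    baseT_plain (not_spikeT_three (by rw [rst_slice]; exact h1))
  simp only [hT2, hT3]
  by_cases hc : σ = 0 ∧ OmegaAt K n z (e, l)
  · -- a selection key
    obtain ⟨h0, hoth, hl, he⟩ := hc
    change l.val < K.q0 at hl
    change e = _ at he
    set uz : ZMod K.q0 := a.1 - (othSum K n z : ZMod K.q0) - ((z.1 : ZMod K.q0).val : ZMod K.q0)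
      with huz
    set u : ZMod (K.L n) := ((uz.val : ℕ) : ZMod (K.L n)) with hudef
    have huv : u.val = uz.val := ZMod.val_cast_of_lt (lt_trans uz.val_lt (K.L_big n))
    set η : ZMod K.E := if (othSum K n z + u.val) % K.q0 = 0 then 1 else 0 with hη
    set t := rowOf K n z (η, u) with ht
    have hr : rowRes K n z t = (η, u) := rowRes_rowOf K n z _
    have hom : OmegaAt K n z (η, u) := ⟨hoth, by rw [huv]; exact ZMod.val_lt _, hη⟩
    have hspk : ∀ g, spikeS K (rst K n z t g) := fun g =>
      (rst_spikeS t g).mpr ⟨h0, by rw [hr]; exact hom⟩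
    set g0 : Tag K := mkTag K k 0 (a.2 2) (a.2 3) with hg0
    set sel := selN K n z (t, g0) with hsel
    set P := role K (rst K n z t g0) n sel with hP
    set g : Tag K := (P.symm ((l.val : ℕ) : ZMod K.q0), g0.2) with hg
    have hPl : role K (rst K n z t g) n sel g.1 = ((l.val : ℕ) : ZMod K.q0) := by
      show P g.1 = _
      rw [hg]; exact P.apply_symm_apply _
    have hw : selN K n z (t, g) = sel := congrArg (selTag K) (wpt_spike (hspk g) rfl)
    have hk : keyT K FN g = k := (keyT_mkTag K k 0 (a.2 2) (a.2 3))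
    refine ⟨(t, g), ⟨⟨?_, ?_, ?_⟩, ?_⟩, ?_⟩
    · rw [baseS_spike (hspk g), rst_sum, rst_cPart, hr, huv]
      push_cast
      rw [ZMod.natCast_zmod_val uz, huz]; ring
    · exact mkTag_two K _ _ _ _
    · exact mkTag_three K _ _ _ _
    · obtain ⟨h1', h2'⟩ := spike_row (x := (t, g)) (hspk g) sel
      dsimp only at h1' h2'
      simp only [hw, h2', hPl]
      refine ⟨?_, by rw [ZMod.val_cast_of_lt hl, ZMod.natCast_zmod_val], hk⟩
      rw [h1', he]
      refine if_congr ?_ rfl rfl
      rw [← role_eq_selLab (s := rst K n z t g) (n := n) (sel := sel), hPl, rst_selLab,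
        ← ZMod.val_natCast, ZMod.val_eq_zero, Nat.cast_add, eq_neg_iff_add_eq_zero, add_comm]
    · rintro ⟨t', g'⟩ ⟨⟨e1, e2, e3⟩, e4, e5, e6⟩
      dsimp only at e1 e2 e3 e4 e5 e6
      have hs' : spikeS K (rst K n z t' g') := by
        rw [rst_spikeS]
        refine ⟨h0, (omega_key_iff (x := (t', g')) h1 h2 (selN K n z (t', g'))).mp ?_⟩
        rw [e4, e5]
        exact ⟨hoth, hl, he⟩
      obtain ⟨h0', hom'⟩ := (rst_spikeS t' g').mp hs'
      rw [baseS_spike hs', rst_sum, rst_cPart] at e1
      push_cast at e1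
      have hu' : (((rowRes K n z t').2.val : ℕ) : ZMod K.q0) = uz := by
        rw [huz, ← e1]; ring
      have hv' : (rowRes K n z t').2.val = uz.val := by
        rw [← hu', ZMod.val_cast_of_lt hom'.2.1]
      have hut : (rowRes K n z t').2 = u := by
        rw [hudef, ← hv', ZMod.natCast_zmod_val]
      have hηt : (rowRes K n z t').1 = η := by rw [hom'.2.2, hut]
      obtain rfl : t' = t := (rowRes_bijective K n z).1 (by rw [hr]; exact Prod.ext hηt hut)
      have hk' : keyT K FN g' = keyT K FN g := e6.trans hk.symm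
      have h22 : g'.2 = g.2 := by
        have hh : ((g.1, g'.2) : Tag K) = g := (tagN_ext K (g := (g.1, g'.2)) (g' := g) (hk') rfl
          (e2.trans (mkTag_two K _ _ _ _).symm) (e3.trans (mkTag_three K _ _ _ _).symm))
        have h5 := congrArg Prod.snd hh
        exact h5
      have hw' : selN K n z (t, g') = sel :=
        (congrArg (selTag K) (wpt_spike (hspk g') h22)).trans hw
      rw [hw'] at e5
      obtain ⟨-, h2'⟩ := spike_row (x := (t, g')) (hspk g') sel
      dsimp only at h2'
      rw [h2'] at e5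
      have hval : (role K (rst K n z t g') n sel g'.1).val = l.val := by
        rw [← e5, ZMod.val_cast_of_lt (lt_trans (ZMod.val_lt _) (K.L_big n))]
      have hP' : P g'.1 = ((l.val : ℕ) : ZMod K.q0) := by
        show role K (rst K n z t g') n sel g'.1 = _
        rw [← hval, ZMod.natCast_zmod_val]
      refine Prod.ext rfl (Prod.ext ?_ h22)
      show g'.1 = P.symm ((l.val : ℕ) : ZMod K.q0)
      rw [← hP', P.symm_apply_apply]
  · -- a plain key
    set t := rowOf K n z (e, l) with ht
    have hr : rowRes K n z t = (e, l) := rowRes_rowOf K n z _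
    have hns : ∀ g, ¬ spikeS K (rst K n z t g) := fun g h =>
      hc (by have := (rst_spikeS t g).mp h; rwa [hr] at this)
    set g0 : Tag K := mkTag K k 0 (a.2 2) (a.2 3) with hg0
    set d : ZMod K.q0 := ((if slice K (rst K n z t g0) = 3 then epsC K (rst K n z t g0) g0
      else cPart K (rst K n z t g0) : ℕ) : ZMod K.q0) with hd
    have hk0 : keyT K FN g0 = k := keyT_mkTag K _ _ _ _
    have hb : ∀ g, keyT K FN g = k → baseS K (rst K n z t g) g = g.1 + d := by
      intro g hgk
      rw [baseS_plain (hns g), hd]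
      have he : epsC K (rst K n z t g) g = epsC K (rst K n z t g0) g0 :=
        (epsC_congr (hgk.trans hk0.symm) _).trans rfl
      simp only [rst_slice, rst_cPart, he]
    refine ⟨(t, mkTag K k (a.1 - d) (a.2 2) (a.2 3)), ⟨⟨?_, ?_, ?_⟩, ?_⟩, ?_⟩
    · rw [hb _ (keyT_mkTag K _ _ _ _)]; exact sub_add_cancel _ _
    · exact mkTag_two K _ _ _ _
    · exact mkTag_three K _ _ _ _
    · have := plain_row (x := (t, mkTag K k (a.1 - d) (a.2 2) (a.2 3))) h1 h2 (hns _)
        (selN K n z (t, mkTag K k (a.1 - d) (a.2 2) (a.2 3)))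
      rw [hr] at this
      exact ⟨congrArg Prod.fst this, congrArg Prod.snd this, keyT_mkTag K _ _ _ _⟩
    · rintro ⟨t', g'⟩ ⟨⟨e1, e2, e3⟩, e4, e5, e6⟩
      dsimp only at e1 e2 e3 e4 e5 e6
      have hns' : ¬ spikeS K (rst K n z t' g') := fun h => hc ⟨((rst_spikeS t' g').mp h).1, by
        have := spike_key_omega (x := (t', g')) h (selN K n z (t', g'))
        rwa [e4, e5] at this⟩
      have := plain_row (x := (t', g')) h1 h2 hns' (selN K n z (t', g'))
      rw [e4, e5] at this
      obtain rfl : t' = t := (rowRes_bijective K n z).1 (by rw [hr, this])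
      rw [hb g' e6] at e1
      exact Prod.ext rfl (tagN_ext K (e6.trans (keyT_mkTag K _ _ _ _).symm) (eq_sub_of_add_eq e1)
        (e2.trans (mkTag_two K _ _ _ _).symm) (e3.trans (mkTag_three K _ _ _ _).symm))

lemma idem_mn_ne_zero (n : Att) : idem K (mn K n) ≠ 0 := by
  intro h
  have := idem_mn_E K n
  rw [h, Int.cast_zero] at this
  have : Fact (1 < K.E) := ⟨by have := two_lt_E K; omega⟩
  exact zero_ne_one ‹(0 : ZMod K.E) = 1›

theorem keyWin_winN (n : Att) :
    KeyWin (solSet K) (window K (mn K n) true FN) (keyN K n) :=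
  (keyWin_solSet_iff K (keyN K n) (idem_mn_ne_zero n) true FN).mpr fun z c =>
    inN_existsUnique n z c

theorem solSet_winN (n : Att) : Tiles (solSet K) (winN K n) :=
  (tiles_keyTile_iff (keyN_surj n)).mpr (keyWin_winN n)

end

end Vale.Agent.P043.Z3
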