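/-
P043, dimension three: the explicit solution satisfies the three label rules of every attribute.
-/
import Vale.Agent.P043.Z3.SolEqs
import Vale.Agent.P043.Z3.SolRole

namespace Vale.Agent.P043.Z3

open Function Finset

noncomputable section

variable {K : Par}

/-- The row of a window with prescribed residues modulo `E` and `L n`. -/
def labRow (K : Par) (n : Att) (z : Z2) (c : ZMod K.E × ZMod (K.L n)) : ℕ :=
  Nat.chineseRemainder (coprime_E_L K n) (c.1 - (z.1 : ZMod K.E)).val
    (c.2 - (z.1 : ZMod (K.L n))).val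

lemma labRow_E (n : Att) (z : Z2) (c : ZMod K.E × ZMod (K.L n)) :
    (labRow K n z c : ZMod K.E) = c.1 - (z.1 : ZMod K.E) := by
  conv_rhs => rw [← ZMod.natCast_zmod_val (c.1 - (z.1 : ZMod K.E))]
  exact (ZMod.natCast_eq_natCast_iff _ _ _).mpr
    (Nat.chineseRemainder (coprime_E_L K n) _ _).2.1

lemma labRow_L (n : Att) (z : Z2) (c : ZMod K.E × ZMod (K.L n)) :
    (labRow K n z c : ZMod (K.L n)) = c.2 - (z.1 : ZMod (K.L n)) := by
  conv_rhs => rw [← ZMod.natCast_zmod_val (c.2 - (z.1 : ZMod (K.L n)))]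
  exact (ZMod.natCast_eq_natCast_iff _ _ _).mpr
    (Nat.chineseRemainder (coprime_E_L K n) _ _).2.2

/-- Rows with equal residues modulo `E` and `L n` are equal. -/
lemma row_unique (n : Att) {a b : ℕ} (ha : a < mn K n) (hb : b < mn K n)
    (hE : (a : ZMod K.E) = b) (hL : (a : ZMod (K.L n)) = b) : a = b := by
  have h := (Nat.modEq_and_modEq_iff_modEq_mul (coprime_E_L K n)).mp
    ⟨(ZMod.natCast_eq_natCast_iff _ _ _).mp hE, (ZMod.natCast_eq_natCast_iff _ _ _).mp hL⟩
  exact Nat.ModEq.eq_of_lt_of_lt h ha hb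

/-- The first residue of a state in a window. -/
lemma rowSt_fst (n : Att) (z : Z2) (t : ℕ) (g : Tag K) :
    (rowSt K (mn K n) z t g).1 =
      (z.1 : ZMod (M K)) + (((t : ℤ) * idem K (mn K n) : ℤ) : ZMod (M K)) := by
  simp [rowSt, proj]

lemma rowSt_snd (n : Att) (z : Z2) (t : ℕ) (g : Tag K) :
    (rowSt K (mn K n) z t g).2.1 = (z.2 : ZMod (M K)) := by
  simp [rowSt, proj]

lemma row_cast {d : ℕ} (hd : d ∣ M K) (n : Att) (z : Z2) (t : ℕ) (g : Tag K) :
    (((rowSt K (mn K n) z t g).1.val : ℕ) : ZMod d) =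
      (z.1 : ZMod d) + t * (idem K (mn K n) : ZMod d) := by
  rw [rowSt_fst, ← Int.cast_add, ZMod.natCast_val, ZMod.cast_intCast hd]
  push_cast
  ring

lemma row_slice (n : Att) (z : Z2) (t : ℕ) (g : Tag K) :
    slice K (rowSt K (mn K n) z t g) = (z.1 : ZMod (M K)).val % 8 := by
  rw [slice, rowSt_fst]
  exact val_add_mod_zero dvd_M_eight _ (by push_cast; rw [cast_idem_mn_8, mul_zero])

lemma row_uPart_ne (n m : Att) (h : m ≠ n) (z : Z2) (t : ℕ) (g : Tag K) :
    uPart K (rowSt K (mn K n) z t g) m = (z.1 : ZMod (M K)).val % K.L m := by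
  rw [uPart, rowSt_fst]
  exact val_add_mod_zero (dvd_M_L m) _
    (by push_cast; rw [cast_zero_of_dvd (L_dvd_idem_mn K h), mul_zero])

lemma row_etaZ (n : Att) (z : Z2) (t : ℕ) (g : Tag K) :
    etaZ K (rowSt K (mn K n) z t g) = (z.1 : ZMod K.E) + t := by
  rw [etaZ, row_cast (E_dvd_M K), idem_mn_E, mul_one]

lemma row_uVec (n : Att) (z : Z2) (t : ℕ) (g : Tag K) :
    uVec K (rowSt K (mn K n) z t g) n = (z.1 : ZMod (K.L n)) + t := by
  rw [uVec, row_cast (L_dvd_M K n), idem_mn_L, mul_one]

lemma psi_off {s : St K} {n : Att} {j : Fin 3} (h : ¬ labOn K s j) :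
    psi K s (.inr (n, j)) = 0 := if_neg h

/-- A label is read from the key alone. -/
lemma psi_row (n : Att) (j : Fin 3) (z : Z2) {t : ℕ} (ht : t < mn K n) (g : Tag K) :
    psi K (rowSt K (mn K n) z t g) (.inr (n, j)) =
      psi K (rowSt K (mn K n) z (labRow K n z (solE K (wpt K (mn K n) z t g, g),
        solL K (wpt K (mn K n) z t g, g) n)) 0) (.inr (n, j)) := by
  set s := rowSt K (mn K n) z t g with hs
  set y : D K := (wpt K (mn K n) z t g, g) with hy
  have hp : proj K y = s := proj_wpt K (mn K n) z t g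
  set t0 := labRow K n z (solE K y, solL K y n) with ht0
  set s0 := rowSt K (mn K n) z t0 0 with hs0
  have hsl : slice K s0 = slice K s := by rw [hs, hs0, row_slice, row_slice]
  by_cases hon : slice K s = 0 ∨ slice K s = 4
  swap
  · push Not at hon
    have off : ∀ r : St K, slice K r = slice K s → ¬ labOn K r j := by
      intro r hr
      unfold labOn
      split_ifs <;> rw [hr] <;> tauto
    rw [psi_off (off s rfl), psi_off (off s0 hsl)]
  by_cases hk : spikeS K s
  · have hE : solE K y = if g.1 = selTag K y.1 then 1 else 0 := by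
      unfold solE
      rw [if_neg (by rw [hp, hk.1]; decide), if_neg (by rw [hp, hk.1]; decide),
        if_pos (by rw [hp]; exact hk)]
    have hL : solL K y n =
        ((role K s n (selTag K y.1) g.1).val : ZMod (K.L n)) := by
      unfold solL
      rw [if_neg (by rw [hp, hk.1]; decide), if_pos (by rw [hp]; exact hk), hp]
    set r := role K s n (selTag K y.1) g.1 with hr
    have hlt : r.val < K.L n := (ZMod.val_lt r).trans (K.L_big n)
    have hu : uPart K s0 n = r.val := by
      have h1 : uVec K s0 n = (r.val : ZMod (K.L n)) := by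
        rw [hs0, row_uVec, ht0, labRow_L, hL]; abel
      rw [uVec, ZMod.natCast_eq_natCast_iff', Nat.mod_eq_of_lt hlt] at h1
      exact h1
    have hu' : ∀ m, m ≠ n → uPart K s0 m = uPart K s m := fun m hm => by
      rw [hs, hs0, row_uPart_ne n m hm, row_uPart_ne n m hm]
    have hsum : (∑ m, uPart K s0 m) % K.q0 = 0 ↔ g.1 = selTag K y.1 := by
      rw [← Nat.dvd_iff_mod_eq_zero, ← ZMod.natCast_eq_zero_iff,
        ← add_sum_erase _ _ (mem_univ n), hu, sum_congr rfl fun m hm => hu' m (mem_erase.mp hm).1,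
        Nat.cast_add, ZMod.natCast_zmod_val, add_eq_zero_iff_eq_neg]
      rw [← (role K s n (selTag K y.1)).injective.eq_iff (a := g.1), role_sel]
      exact Iff.rfl
    have hOm : Omega K s0 := by
      refine ⟨fun m => ?_, ?_⟩
      · by_cases hm : m = n
        · subst hm; rw [hu]; exact ZMod.val_lt r
        · rw [hu' m hm]; exact hk.2.1 m
      · have h1 : etaZ K s0 = solE K y := by rw [hs0, row_etaZ, ht0, labRow_E]; abel
        rw [hE] at h1
        simp only [hsum]
        have he := K.E_prime.one_lt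
        by_cases hg : g.1 = selTag K y.1
        · rw [if_pos hg] at h1 ⊢
          rw [etaZ, ← Nat.cast_one, ZMod.natCast_eq_natCast_iff', Nat.mod_eq_of_lt he] at h1
          exact h1
        · rw [if_neg hg] at h1 ⊢
          rw [etaZ, ← Nat.cast_zero, ZMod.natCast_eq_natCast_iff', Nat.zero_mod] at h1
          exact h1
    have off : ∀ r : St K, slice K r = 0 → Omega K r → ¬ labOn K r j := by
      intro r hr0 hrO
      unfold labOn
      split_ifs
      · exact fun h => h.2 hrO
      · rw [hr0]; decide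
    rw [psi_off (off s hk.1 hk.2), psi_off (off s0 (hsl.trans hk.1) hOm)]
  · have h1 : ¬ slice K s = 1 := by omega
    have h2 : ¬ slice K s = 2 := by omega
    have hE : solE K y = etaZ K s := by
      unfold solE
      rw [if_neg (by rw [hp]; exact h1), if_neg (by rw [hp]; exact h2),
        if_neg (by rw [hp]; exact hk), hp]
    have hL : solL K y n = uVec K s n := by
      unfold solL
      rw [if_neg (by rw [hp]; exact h2), if_neg (by rw [hp]; exact hk), hp]
    have e : t0 = t := by
      refine row_unique n (Nat.chineseRemainder_lt_mul _ _ _ K.E_prime.ne_zero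
        (K.L_prime n).ne_zero) ht ?_ ?_
      · rw [ht0, labRow_E, hE, hs, row_etaZ]; ring
      · rw [ht0, labRow_L, hL, hs, row_uVec]; ring
    have e1 : s0.1 = s.1 := by rw [hs, hs0, e, rowSt_fst, rowSt_fst]
    have e2 : s0.2.1 = s.2.1 := by rw [hs, hs0, rowSt_snd, rowSt_snd]
    have hlab : labOn K s j ↔ labOn K s0 j := by
      unfold labOn slice Omega etaP uPart
      rw [e1]
    by_cases ho : labOn K s j
    · simp only [psi, if_pos ho, if_pos (hlab.mp ho), e1, e2]
    · rw [psi_off ho, psi_off (mt hlab.mpr ho)]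

/-- The shifts of the keys undo the steps of the rows. -/
lemma labShift_spec (n : Att) (j : Fin 3) :
    ((labV K n j).1 : ZMod K.E) + (labShift K n j).1.1 = 0 ∧
      ((labV K n j).1 : ZMod (K.L n)) + (labShift K n j).1.2 = 0 := by
  fin_cases j <;>
    simp [labV, labShift, idem_mn_E, idem_mn_L, cast_zero_of_dvd (E_dvd_idem_16 K),
      cast_zero_of_dvd (L_dvd_idem_16 K n)]

lemma colX_wpoint (n : Att) (j : Fin 3) (z : Z2) (t : ℕ) (g : Tag K) :
    colX K (.inr (n, j)) (solCol K (wpt K (mn K n) z t g, g)) =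
      (z.1 : ZMod (pX K (.inr (n, j)))) *
        (psi K (rowSt K (mn K n) z t g) (.inr (n, j)) : ZMod (pX K (.inr (n, j)))) := by
  show (solMu K (wpt K (mn K n) z t g, g)).2 (.inr (n, j)) = _
  simp only [solMu, proj_wpt]
  congr 1
  simp [wpt, cast_idem_mn_X]

/-- Points of opposite windows with keys differing by the shift have equal label colours. -/
lemma lab_agree (n : Att) (j : Fin 3) (z : Z2) {t t' : ℕ} (ht : t < mn K n) (ht' : t' < mn K n)
    (g g' : Tag K)
    (hkey : keyN K n (solCol K (wpt K (mn K n) z t' g', g')) =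
      keyN K n (solCol K (wpt K (mn K n) (z + labV K n j) t g, g)) + labShift K n j) :
    colX K (.inr (n, j)) (solCol K (wpt K (mn K n) (z + labV K n j) t g, g)) =
      colX K (.inr (n, j)) (solCol K (wpt K (mn K n) z t' g', g')) := by
  have hc : ((z + labV K n j).1 : ZMod (pX K (.inr (n, j)))) = z.1 := by
    fin_cases j <;> simp [labV, cast_idem_mn_X, cast_idem_16_X]
  rw [colX_wpoint, colX_wpoint, hc, psi_row n j _ ht g, psi_row n j z ht' g']
  set c : ZMod K.E × ZMod (K.L n) := (solE K (wpt K (mn K n) (z + labV K n j) t g, g),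
    solL K (wpt K (mn K n) (z + labV K n j) t g, g) n)
  have hc' : (solE K (wpt K (mn K n) z t' g', g'), solL K (wpt K (mn K n) z t' g', g') n) =
      c + (labShift K n j).1 := congrArg Prod.fst hkey
  rw [hc']
  obtain ⟨hE, hL⟩ := labShift_spec (K := K) n j
  have e : labRow K n (z + labV K n j) c = labRow K n z (c + (labShift K n j).1) := by
    refine row_unique n (Nat.chineseRemainder_lt_mul _ _ _ K.E_prime.ne_zero
      (K.L_prime n).ne_zero) (Nat.chineseRemainder_lt_mul _ _ _ K.E_prime.ne_zero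
      (K.L_prime n).ne_zero) ?_ ?_
    · rw [labRow_E, labRow_E, Prod.fst_add, Prod.fst_add, Int.cast_add]
      linear_combination -hE
    · rw [labRow_L, labRow_L, Prod.snd_add, Prod.fst_add, Int.cast_add]
      linear_combination -hL
  rw [e]
  congr 2
  have h := psi_line n j ((z + (((labRow K n z (c + (labShift K n j).1) : ℤ) *
    idem K (mn K n), 0) : Z2), 0) : D K)
  have hsite : ∀ x : Z2, ((x, 0) : D K) + site K (labV K n j) = (x + labV K n j, 0) :=
    fun x => Prod.ext rfl (add_zero 0)
  rw [hsite, add_right_comm] at h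
  exact h

variable (K)

/-- The label rules hold for the explicit set. -/
theorem solSet_lab (n : Att) (j : Fin 3)
    (hw : KeyWin (solSet K) (window K (mn K n) true FN) (keyN K n)) :
    Tiles (solSet K)
      (splitTile (window K (mn K n) true FN) (keyN K n) (colX K (.inr (n, j))) (labV K n j)
        (labShift K n j)) := by
  refine (tiles_splitTile_iff (keyN_colX_surj n _) hw _ _).mpr fun z t c => ?_
  -- points of the two windows with corresponding keys have equal colours
  have agree : ∀ p q : G K, p ∈ solSet K → p.1 - (z + labV K n j) ∈ window K (mn K n) true FN →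
      keyN K n p.2 = c → q ∈ solSet K → q.1 - z ∈ window K (mn K n) true FN →
      keyN K n q.2 = c + labShift K n j →
      colX K (.inr (n, j)) p.2 = colX K (.inr (n, j)) q.2 := by
    intro p q hp hpw hpk hq hqw hqk
    obtain ⟨t, ht, g, -, rfl⟩ := (mem_window_iff K _ _ _ _ p).mp ⟨hp, hpw⟩
    obtain ⟨t', ht', g', -, rfl⟩ := (mem_window_iff K _ _ _ _ q).mp ⟨hq, hqw⟩
    exact lab_agree n j z ht ht' g g' (by rw [← hpk] at hqk; exact hqk)
  constructor
  · rintro ⟨p, hp, hpw, hpk, hpX⟩
    obtain ⟨q, ⟨hq, hqw, hqk⟩, -⟩ := hw z (c + labShift K n j)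
    exact ⟨q, hq, hqw, hqk, by rw [← agree p q hp hpw hpk hq hqw hqk, hpX]⟩
  · rintro ⟨q, hq, hqw, hqk, hqX⟩
    obtain ⟨p, ⟨hp, hpw, hpk⟩, -⟩ := hw (z + labV K n j) c
    exact ⟨p, hp, hpw, hpk, by rw [agree p q hp hpw hpk hq hqw hqk, hqX]⟩

end

end Vale.Agent.P043.Z3
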