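/-
P043, dimension three: macro steps map the explicit solution to itself, key by key; the move and
readout tiles follow.
-/
import Vale.Agent.P043.Z3.SolBase
import Vale.Agent.P043.Z3.SolRole
import Vale.Agent.P043.Z3.Arith

namespace Vale.Agent.P043.Z3

open Function Finset

noncomputable section

variable (K : Par)

/-! ### States with the same row data -/

/-- Two states with the same slice and the same residues. -/
structure RowEq (s s' : St K) : Prop where
  slice_eq : slice K s' = slice K s
  c_eq : cPart K s' = cPart K s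
  eta_eq : etaP K s' = etaP K s
  u_eq : ∀ n, uPart K s' n = uPart K s n

namespace RowEq

variable {K} {s s' : St K} (h : RowEq K s s')
include h

lemma etaZ_eq : etaZ K s' = etaZ K s :=
  (ZMod.natCast_eq_natCast_iff' _ _ _).mpr h.eta_eq

lemma uVec_eq : uVec K s' = uVec K s :=
  funext fun n => (ZMod.natCast_eq_natCast_iff' _ _ _).mpr (h.u_eq n)

lemma omega_iff : Omega K s' ↔ Omega K s := by
  simp only [Omega, h.u_eq, h.eta_eq]

lemma spikeS_iff : spikeS K s' ↔ spikeS K s := by
  simp only [spikeS, h.slice_eq, h.omega_iff]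

lemma uSpike_iff : uSpike K s' ↔ uSpike K s := by
  have e1 : (s'.1.val : ZMod K.E) = (s.1.val : ZMod K.E) := h.etaZ_eq
  have e2 : (fun n => (s'.1.val : ZMod (K.L n))) = fun n => (s.1.val : ZMod (K.L n)) := h.uVec_eq
  simp only [uSpike, e1, e2]

lemma spikeT_eq (i : Fin 6) : spikeT K s' i = spikeT K s i := by
  simp only [spikeT, h.slice_eq, h.eta_eq, h.c_eq, propext h.uSpike_iff]

lemma selLab_eq (n : Att) : selLab K s' n = selLab K s n := by
  simp only [selLab, h.u_eq]

lemma baseT_eq (g : Tag K) : baseT K s' g = baseT K s g := by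
  funext i
  by_cases hs : spikeT K s i
  · have hs' : spikeT K s' i := h.spikeT_eq i ▸ hs
    simp only [baseT, hs, hs', if_true, h.slice_eq, h.eta_eq, h.c_eq, h.etaZ_eq, h.uVec_eq]
  · have hs' : ¬ spikeT K s' i := h.spikeT_eq i ▸ hs
    simp only [baseT, hs, hs', if_false]

lemma baseS_eq (g : Tag K) : baseS K s' g = baseS K s g := by
  by_cases hs : spikeS K s
  · have hs' : spikeS K s' := h.spikeS_iff.mpr hs
    simp only [baseS, hs, hs', if_true, h.c_eq, h.u_eq]
  · have hs' : ¬ spikeS K s' := fun h' => hs (h.spikeS_iff.mp h')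
    simp only [baseS, epsC, hs, hs', if_false, h.slice_eq, h.c_eq]

lemma basePos_eq (g : Tag K) : basePos K s' g = basePos K s g := by
  simp only [basePos, h.baseT_eq, h.baseS_eq]

end RowEq

/-! ### One macro step -/

lemma macroV_fst (x : Z2) : (macroV K x).1 = x.1 * ((S K / 2 : ℕ) : ℤ) := by
  simp [macroV, step1, step2]

lemma macroV_snd (x : Z2) : (macroV K x).2 = x.2 * ((Q K * S K : ℕ) : ℤ) := by
  simp [macroV, step1, step2]

lemma macroV_neg (x : Z2) : macroV K (-x) = -macroV K x := by
  refine Prod.ext ?_ ?_ <;> simp [macroV_fst, macroV_snd]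

lemma half_pos : 0 < S K / 2 := by
  have := two_mul_half K
  have h : (S K : ℤ) ≠ 0 := S_ne_zero
  omega

lemma macroOf_add (y x : Z2) : macroOf K (y + macroV K x) = macroOf K y + x := by
  have h1 : ((S K / 2 : ℕ) : ℤ) ≠ 0 := by exact_mod_cast (half_pos K).ne'
  have h2 : ((Q K * S K : ℕ) : ℤ) ≠ 0 := by
    have hS : (S K : ℤ) ≠ 0 := S_ne_zero
    have hQ : (Q K : ℤ) ≠ 0 := by exact_mod_cast (Q_pos K).ne'
    rw [Nat.cast_mul]
    exact mul_ne_zero hQ hS
  refine Prod.ext ?_ ?_
  · simp only [macroOf, Prod.fst_add, macroV_fst]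
    exact Int.add_mul_ediv_right _ _ h1
  · simp only [macroOf, Prod.snd_add, macroV_snd]
    exact Int.add_mul_ediv_right _ _ h2

lemma colIdx_macro (y x : Z2) : colIdx K (y + macroV K x) = colIdx K y := by
  have e : (macroV K x).2 = x.2 * (Q K : ℤ) * (S K : ℤ) := by
    rw [macroV_snd, Nat.cast_mul, mul_assoc]
  have hQ : ((Q K : ℤ)) • (1 : Tag K) = 0 := by
    rw [natCast_zsmul, ← tagEquiv_nsmul, ZMod.natCast_self, map_zero]
  simp only [colIdx, Prod.snd_add, e]
  rw [Int.add_mul_ediv_right _ _ S_ne_zero, add_smul, mul_smul, hQ, smul_zero, add_zero]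

lemma proj_mod {d : ℕ} (hd : d ∣ M K) (y : Z2) (g : Tag K) :
    (((proj K (y, g)).1.val % d : ℕ) : ℤ) = y.1 % (d : ℤ) := by
  rw [Int.natCast_mod]
  show (((y.1 : ZMod (M K)).val : ℤ)) % (d : ℤ) = _
  rw [ZMod.val_intCast]
  exact Int.emod_emod_of_dvd _ (by exact_mod_cast hd)

lemma mod_macro {d : ℕ} (hd : d ∣ M K) (hh : d ∣ S K / 2) (y x : Z2) (g g' : Tag K) :
    (proj K (y + macroV K x, g')).1.val % d = (proj K (y, g)).1.val % d := by
  have h1 := proj_mod K hd (y + macroV K x) g'
  have h2 := proj_mod K hd y g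
  obtain ⟨t, ht⟩ := hh
  have e : (y + macroV K x).1 % (d : ℤ) = y.1 % (d : ℤ) := by
    rw [Prod.fst_add, macroV_fst, ht, Nat.cast_mul,
      show x.1 * ((d : ℤ) * (t : ℤ)) = (d : ℤ) * (x.1 * (t : ℤ)) by ring, Int.add_mul_emod_self_left]
  rw [e, ← h2] at h1
  exact_mod_cast h1

lemma rowEq_macro (y x : Z2) (g g' : Tag K) :
    RowEq K (proj K (y, g)) (proj K (y + macroV K x, g')) where
  slice_eq := mod_macro K ((show 8 ∣ 16 by norm_num).trans (sixteen_dvd_M K))
    (by have := half_mod_16 K; omega) y x g g'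
  c_eq := mod_macro K (q0_dvd_M K) (q0_dvd_half K) y x g g'
  eta_eq := mod_macro K (E_dvd_M K) (E_dvd_half K) y x g g'
  u_eq n := mod_macro K (L_dvd_M K n) (L_dvd_half K n) y x g g'

/-- The top bit of the residue modulo sixteen flips with the parity of the first macro step. -/
lemma bit_macro (y x : Z2) (g g' : Tag K) :
    (if h16 K (proj K (y + macroV K x, g')) < 8 then (0 : ZMod 2) else 1) =
      (if h16 K (proj K (y, g)) < 8 then (0 : ZMod 2) else 1) + (x.1 : ZMod 2) := by
  have h1 := proj_mod K (sixteen_dvd_M K) (y + macroV K x) g'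
  have h2 := proj_mod K (sixteen_dvd_M K) y g
  change ((h16 K (proj K (y + macroV K x, g')) : ℕ) : ℤ) = _ at h1
  change ((h16 K (proj K (y, g)) : ℕ) : ℤ) = _ at h2
  rw [Prod.fst_add, macroV_fst] at h1
  obtain ⟨j, hj⟩ : ∃ j, S K / 2 = 16 * j + 8 := ⟨S K / 2 / 16, by have := half_mod_16 K; omega⟩
  rw [hj] at h1
  push_cast at h1
  rw [show x.1 * (16 * (j : ℤ) + 8) = 16 * (x.1 * (j : ℤ)) + 8 * x.1 by ring] at h1
  generalize x.1 * (j : ℤ) = w at h1
  have two : ((2 : ℤ) : ZMod 2) = 0 := by decide
  rcases Int.emod_two_eq_zero_or_one x.1 with hp | hp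
  · obtain ⟨i, hi⟩ : ∃ i, x.1 = 2 * i := ⟨x.1 / 2, by omega⟩
    have ex : (x.1 : ZMod 2) = 0 := by rw [hi, Int.cast_mul, two, zero_mul]
    have eh : h16 K (proj K (y + macroV K x, g')) = h16 K (proj K (y, g)) := by omega
    rw [ex, eh, add_zero]
  · obtain ⟨i, hi⟩ : ∃ i, x.1 = 2 * i + 1 := ⟨x.1 / 2, by omega⟩
    have ex : (x.1 : ZMod 2) = 1 := by
      rw [hi, Int.cast_add, Int.cast_mul, two, zero_mul, zero_add, Int.cast_one]
    have eh : h16 K (proj K (y + macroV K x, g')) < 8 ↔ ¬ h16 K (proj K (y, g)) < 8 := by omega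
    rw [ex]
    by_cases hb : h16 K (proj K (y, g)) < 8
    · rw [if_pos hb, if_neg (fun h => eh.mp h hb), zero_add]
    · rw [if_neg hb, if_pos (eh.mpr hb)]
      decide

/-! ### The readouts along their directions -/

/-- The value at the selected tag does not change along the macro step `x`. -/
def ReadInv (n : Att) (x : Z2) : Prop :=
  ∀ (y : Z2) (g g' : Tag K),
    tagVal K (proj K (y + macroV K x, g')) n (selTag K (y + macroV K x)) =
      tagVal K (proj K (y, g)) n (selTag K y)

lemma par0_genuine (m : ℤ × ℤ) : par0 (P043.genuine m) = (m.1 : ZMod 2) := by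
  show P043.par2 ((m.1 : ℤ) : P043.R64) = _
  simp [P043.par2]

lemma readInv_of_dir (n : Att) {x : Z2} (hx : x ∈ rdDir n ∨ -x ∈ rdDir n) : ReadInv K n x := by
  intro y g g'
  have hm := macroOf_add K y x
  set m := macroOf K y with hm0
  have t1 : K.table (selTag K (y + macroV K x)) = P043.genuine (m + x) := by
    rw [table_selTag, hm]
  have t0 : K.table (selTag K y) = P043.genuine m := table_selTag K y
  rcases n with k | w | i
  · have hx2 : x.1 = -(k.val : ℤ) * x.2 := by
      simp only [rdDir, Finset.mem_singleton] at hx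
      rcases hx with h | h
      · rw [h]; simp
      · rw [← neg_neg x, h]; simp
    have e : (m + x).1 + (k.val : ℤ) * (m + x).2 = m.1 + (k.val : ℤ) * m.2 := by
      simp only [Prod.fst_add, Prod.snd_add, hx2]; ring
    simp only [tagVal, rdVal, t1, t0]
    show (P043.dig ((m + x).1 + (k.val : ℤ) * (m + x).2)).val + 1 = _
    rw [e]
    rfl
  · simp only [tagVal, rdVal, t1, t0]
    have e : P043.kval (P043.genuine (m + x)) w = P043.kval (P043.genuine m) w := by
      simp only [rdDir, Finset.mem_singleton] at hx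
      have hx' : x = P043.kdir w ∨ x = -P043.kdir w := by
        rcases hx with h | h
        · exact Or.inl h
        · exact Or.inr (by rw [← h, neg_neg])
      rcases hx' with rfl | rfl <;> fin_cases w <;>
        simp [P043.kval, P043.genuine, P043.kdir] <;> abel
    rw [e]
  · rw [tagVal_par, tagVal_par, if_neg (selTag_ne K _ i), if_neg (selTag_ne K _ i), t1, t0,
      par0_genuine, par0_genuine, bit_macro K y x g g', Prod.fst_add, Int.cast_add]
    congr 2
    have two : ∀ a b c : ZMod 2, a + b + (c + b) = a + c := by decide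
    exact two _ _ _

/-! ### The shifted point -/

lemma psi_readout (s : St K) (n : Att) [Decidable (spikeS K s)] :
    psi K s (.inl n) = if spikeS K s then rdVal K s n else 0 := by
  by_cases h : spikeS K s <;> simp [psi, h]

lemma colX_solCol (y : D K) (x : XI) :
    colX K x (solCol K y) = (y.1.1 : ZMod (pX K x)) * (psi K (proj K y) x : ZMod (pX K x)) := rfl

/-- Every point has a point of the same key one macro step away, with the same readout if the
readout of the selected tag stays. -/
theorem exists_shift (n : Att) (x : Z2) {p : G K} (hp : p ∈ solSet K) :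
    ∃ q, q ∈ solSet K ∧ q.1 = p.1 + macroV K x ∧ keyN K n q.2 = keyN K n p.2 ∧
      (ReadInv K n x → colX K (.inl n) q.2 = colX K (.inl n) p.2) := by
  classical
  obtain ⟨y, col⟩ := p
  rw [mem_solSet] at hp
  obtain ⟨hpos, hcol⟩ := hp
  set g := col.1 with hg
  change solPos K (y, g) = 0 at hpos
  change col = solCol K (y, g) at hcol
  have hmulX : ((y + macroV K x).1 : ZMod (pX K (.inl n))) = (y.1 : ZMod (pX K (.inl n))) := by
    rw [Prod.fst_add, Int.cast_add, macroV_fst, Int.cast_mul, Int.cast_natCast,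
      (ZMod.natCast_eq_zero_iff _ _).mpr (pX_dvd_half K _), mul_zero, add_zero]
  set y' := y + macroV K x with hy'
  set s := proj K (y, g) with hs
  -- the tag of the shifted point
  set g' : Tag K := if spikeS K s then
    ((role K (proj K (y', g)) n (selTag K y')).symm (role K s n (selTag K y) g.1), g.2) else g
    with hg'
  have h2 : g'.2 = g.2 := by
    rw [hg']
    split_ifs <;> rfl
  set s' := proj K (y', g') with hs'
  have R : RowEq K s s' := rowEq_macro K y x g g'
  have hbase : basePos K s' g' = basePos K s g := by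
    rw [R.basePos_eq]
    refine Prod.ext ?_ ?_
    · show baseS K s g' = baseS K s g
      by_cases h : spikeS K s
      · simp only [baseS, if_pos h]
      · rw [hg', if_neg h]
    · show baseT K s g' = baseT K s g
      funext i
      simp only [baseT, g7, h2]
  have hpos' : solPos K (y', g') = 0 := by
    rw [solPos_eq, hy', colIdx_macro, ← hy', ← hs', hbase]
    exact hpos
  refine ⟨(y', solCol K (y', g')), (mem_solSet K).mpr ⟨hpos', rfl⟩, rfl, ?_, ?_⟩
  · show keyN K n (solCol K (y', g')) = keyN K n col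
    rw [hcol]
    show ((solE K (y', g'), solL K (y', g') n), keyT K FN g') =
      ((solE K (y, g), solL K (y, g) n), keyT K FN g)
    have hT : keyT K FN g' = keyT K FN g := funext fun i => congrFun h2 i.1
    rw [hT]
    by_cases h : spikeS K s
    · have h' : spikeS K s' := R.spikeS_iff.mpr h
      have hsl : slice K s = 0 := h.1
      have hg1 : g'.1 = (role K s' n (selTag K y')).symm (role K s n (selTag K y) g.1) := by
        rw [hg', if_pos h]
        rfl
      have hrole : role K s' n (selTag K y') g'.1 = role K s n (selTag K y) g.1 := by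
        rw [hg1, Equiv.apply_symm_apply]
      have hiff : g'.1 = selTag K y' ↔ g.1 = selTag K y := by
        rw [← (role K s' n (selTag K y')).injective.eq_iff, hrole, role_sel, R.selLab_eq n,
          ← role_sel K s n (selTag K y), (role K s n (selTag K y)).injective.eq_iff]
      simp only [solE, solL, ← hs, ← hs', hsl, R.slice_eq, h, h', if_true, hrole, hiff,
        show ¬ (0 : ℕ) = 1 by decide, show ¬ (0 : ℕ) = 2 by decide, if_false]
    · have h' : ¬ spikeS K s' := fun h' => h (R.spikeS_iff.mp h')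
      simp only [solE, solL, ← hs, ← hs', R.slice_eq, h, h', if_false, R.eta_eq, R.etaZ_eq,
        R.uVec_eq, g7, h2]
  · intro hinv
    show colX K (.inl n) (solCol K (y', g')) = colX K (.inl n) col
    rw [hcol, colX_solCol, colX_solCol, ← hs, ← hs', psi_readout, psi_readout]
    show (y'.1 : ZMod (pX K (.inl n))) * _ = (y.1 : ZMod (pX K (.inl n))) * _
    rw [hmulX]
    congr 2
    by_cases h : spikeS K s
    · have h' : spikeS K s' := R.spikeS_iff.mpr h
      rw [if_pos h, if_pos h', rdVal_eq_tagVal, rdVal_eq_tagVal]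
      show tagVal K s' n g'.1 = tagVal K s n g.1
      have hg1 : g'.1 = (role K s' n (selTag K y')).symm (role K s n (selTag K y) g.1) := by
        rw [hg', if_pos h]
        rfl
      rw [← canVal_role K s' n (selTag K y') g'.1, ← canVal_role K s n (selTag K y) g.1,
        R.selLab_eq n, hg1, Equiv.apply_symm_apply, hy', hinv y g g']
    · have h' : ¬ spikeS K s' := fun h' => h (R.spikeS_iff.mp h')
      rw [if_neg h, if_neg h']

/-! ### The tiles -/

/-- Points of a translated set of sites move with a macro step, keys kept. -/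
lemma key_shift_iff (n : Att) (x : Z2) (Δ : Finset Z2) (z : Z2)
    (c : (ZMod K.E × ZMod (K.L n)) × KeyT FN) :
    (∃ p, p ∈ solSet K ∧ p.1 - z ∈ Δ ∧ keyN K n p.2 = c) ↔
      ∃ p, p ∈ solSet K ∧ p.1 - (z + macroV K x) ∈ Δ ∧ keyN K n p.2 = c := by
  constructor
  · rintro ⟨p, hp, hd, hk⟩
    obtain ⟨q, hq, e, hk', -⟩ := exists_shift K n x hp
    exact ⟨q, hq, by rwa [e, add_sub_add_right_eq_sub], hk'.trans hk⟩
  · rintro ⟨p, hp, hd, hk⟩
    obtain ⟨q, hq, e, hk', -⟩ := exists_shift K n (-x) hp
    refine ⟨q, hq, ?_, hk'.trans hk⟩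
    rw [e, macroV_neg]
    rwa [show p.1 + -macroV K x - z = p.1 - (z + macroV K x) by abel]

lemma cols_subset_window (n : Att) :
    cols K true FN ⊆ window K (mn K n) true FN := fun c hc =>
  mem_window.mpr ⟨0, zero_mem_rows (Nat.mul_pos K.E_prime.pos (K.L_prime n).pos), c, hc,
    zero_add c⟩

theorem solSet_move1 (n : Att)
    (hw : KeyWin (solSet K) (window K (mn K n) true FN) (keyN K n)) :
    Tiles (solSet K)
      (keyTile (moved (window K (mn K n) true FN) (cols K true FN) (step1 K)) (keyN K n)) := by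
  refine (tiles_keyTile_iff (keyN_surj n)).mpr
    ((keyWin_moved_iff (cols_subset_window K n) step1_out hw).mpr fun z c => ?_)
  have e : macroV K (1, 0) = step1 K := by simp [macroV]
  rw [← e]
  exact key_shift_iff K n (1, 0) _ z c

theorem solSet_move2 (n : Att)
    (hw : KeyWin (solSet K) (window K (mn K n) true FN) (keyN K n)) :
    Tiles (solSet K)
      (keyTile (moved (window K (mn K n) true FN) (cols K true FN) (step2 K)) (keyN K n)) := by
  refine (tiles_keyTile_iff (keyN_surj n)).mpr
    ((keyWin_moved_iff (cols_subset_window K n) step2_out hw).mpr fun z c => ?_)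
  have e : macroV K (0, 1) = step2 K := by simp [macroV]
  rw [← e]
  exact key_shift_iff K n (0, 1) _ z c

theorem solSet_read (n : Att) {x : Z2} (hx : x ∈ rdDir n)
    (hw : KeyWin (solSet K) (window K (mn K n) true FN) (keyN K n)) :
    Tiles (solSet K)
      (splitTile (window K (mn K n) true FN) (keyN K n) (colX K (.inl n)) (macroV K x) 0) := by
  refine (tiles_splitTile_iff (keyN_colX_surj n _) hw _ _).mpr fun z t c => ?_
  rw [add_zero]
  constructor
  · rintro ⟨p, hp, hd, hk, ht⟩
    obtain ⟨q, hq, e, hk', hX⟩ := exists_shift K n (-x) hp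
    refine ⟨q, hq, ?_, hk'.trans hk,
      (hX (readInv_of_dir K n (Or.inr (by rwa [neg_neg])))).trans ht⟩
    rw [e, macroV_neg]
    rwa [show p.1 + -macroV K x - z = p.1 - (z + macroV K x) by abel]
  · rintro ⟨p, hp, hd, hk, ht⟩
    obtain ⟨q, hq, e, hk', hX⟩ := exists_shift K n x hp
    exact ⟨q, hq, by rwa [e, add_sub_add_right_eq_sub], hk'.trans hk,
      (hX (readInv_of_dir K n (Or.inl hx))).trans ht⟩

end

end Vale.Agent.P043.Z3
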