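/-
P043, dimension three: the explicit set tiles with the first and last seed windows.
-/
import Vale.Agent.P043.Z3.SolBase
import Vale.Agent.P043.Z3.Arith
import Vale.Agent.P043.Z3.Blocks

namespace Vale.Agent.P043.Z3

open Function Finset

noncomputable section

/-- Small positions and label of a row of the first seed. -/
def phiH (p : ZMod 16 × ZMod 3 × ZMod 5) : ZMod 3 × ZMod 5 × ZMod 16 :=
  if p.1.val % 8 < 3 then
    (((p.1.val % 8 : ℕ) : ZMod 3), p.2.2, ((3 * (p.1.val / 8) + p.2.1.val : ℕ) : ZMod 16))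
  else
    (p.2.1, ((p.1.val % 8 - 3 : ℕ) : ZMod 5), ((6 + 5 * (p.1.val / 8) + p.2.2.val : ℕ) : ZMod 16))

/-- Its inverse. -/
def psiH (q : ZMod 3 × ZMod 5 × ZMod 16) : ZMod 16 × ZMod 3 × ZMod 5 :=
  if q.2.2.val < 6 then
    (((q.1.val + 8 * (q.2.2.val / 3) : ℕ) : ZMod 16), ((q.2.2.val % 3 : ℕ) : ZMod 3), q.2.1)
  else
    (((q.2.1.val + 3 + 8 * ((q.2.2.val - 6) / 5) : ℕ) : ZMod 16), q.1,
      (((q.2.2.val - 6) % 5 : ℕ) : ZMod 5))

lemma psiH_phiH : ∀ p, psiH (phiH p) = p := by decide +kernel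

lemma phiH_psiH : ∀ q, phiH (psiH q) = q := by decide +kernel

variable (K : Par)

/-- A residue of a site read through its value modulo `M`. -/
lemma val_cast_of_dvd {d : ℕ} (hd : d ∣ M K) (a : ℤ) :
    (((a : ZMod (M K)).val : ℕ) : ZMod d) = (a : ZMod d) := by
  rw [ZMod.natCast_val, ZMod.cast_intCast hd]

lemma rowSt_eq (m : ℕ) (z : Z2) (t : ℕ) (g : Tag K) :
    rowSt K m z t g =
      (((z.1 + t * idem K m : ℤ) : ZMod (M K)), ((z.2 : ℤ) : ZMod (M K)), g.1) := by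
  simp [rowSt, proj]

lemma rowSt_val {d : ℕ} (hd : d ∣ M K) (m : ℕ) (z : Z2) (t : ℕ) (g : Tag K) :
    (((rowSt K m z t g).1.val : ℕ) : ZMod d) = (z.1 : ZMod d) + t * (idem K m : ZMod d) := by
  rw [rowSt_eq, val_cast_of_dvd K hd]
  push_cast
  ring

lemma h16_row (z : Z2) (t : ℕ) (g : Tag K) :
    h16 K (rowSt K 16 z t g) = ((z.1 : ZMod 16) + (t : ZMod 16)).val := by
  have h := congrArg ZMod.val (rowSt_val K (sixteen_dvd_M K) 16 z t g)
  rwa [ZMod.val_natCast, idem_16, mul_one] at h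

lemma slice_eq_h16 (s : St K) : slice K s = h16 K s % 8 := by
  simp only [slice, h16]
  omega

lemma idem_16_ne : idem K 16 ≠ 0 := fun h => by
  have := idem_16 K; rw [h] at this; exact absurd this (by decide)

lemma idem_q0_ne : idem K K.q0 ≠ 0 := fun h => by
  have := idem_q0 K
  have hF : Fact (1 < K.q0) := ⟨K.q0_prime.one_lt⟩
  rw [h, Int.cast_zero] at this
  exact zero_ne_one this

/-- A tag with prescribed small components outside `F`. -/
def extT (F : Finset (Fin 6)) (c : KeyT F) (i : Fin 6) : ZMod (tm i) :=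
  if h : i ∉ F then c ⟨i, h⟩ else 0

lemma keyT_extT {F : Finset (Fin 6)} (c : KeyT F) (a : ZMod K.q0) :
    keyT K F (a, extT F c) = c := by
  funext i
  show extT F c i.1 = _
  rw [extT, dif_pos i.2]

/-- A tag with prescribed components. -/
lemma exists_tag {F : Finset (Fin 6)} {i j : Fin 6} (hij : i ≠ j) (hi : i ∈ F) (hj : j ∈ F)
    (c : KeyT F) (a : ZMod K.q0) (x : ZMod (tm i)) (y : ZMod (tm j)) :
    ∃ g : Tag K, g.1 = a ∧ g.2 i = x ∧ g.2 j = y ∧ keyT K F g = c := by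
  refine ⟨(a, update (update (extT F c) i x) j y), rfl, ?_, update_self _ _ _, ?_⟩
  · show update (update (extT F c) i x) j y i = x
    rw [update_of_ne hij, update_self]
  · funext k
    show update (update (extT F c) i x) j y k.1 = c k
    rw [update_of_ne (fun e => k.2 (by rw [e]; exact hj)),
      update_of_ne (fun e => k.2 (by rw [e]; exact hi)), extT, dif_pos k.2]

/-- A tag is determined by its components. -/
lemma tag_ext {F : Finset (Fin 6)} {i j : Fin 6} (hF : ∀ k ∈ F, k = i ∨ k = j) {g g' : Tag K}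
    (h1 : g.1 = g'.1) (h2 : g.2 i = g'.2 i) (h3 : g.2 j = g'.2 j)
    (h4 : keyT K F g = keyT K F g') : g = g' := by
  refine Prod.ext h1 (funext fun k => ?_)
  by_cases hk : k ∈ F
  · rcases hF k hk with rfl | rfl
    exacts [h2, h3]
  · exact congrFun h4 ⟨k, hk⟩

/-- Positions and label of a row of the first seed window. -/
lemma rowH_spec (z : Z2) (t : ℕ) (g : Tag K) :
    (baseT K (rowSt K 16 z t g) g 0, baseT K (rowSt K 16 z t g) g 1,
      solH K (wpt K 16 z t g, g)) = phiH ((z.1 : ZMod 16) + t, g.2 0, g.2 1) := by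
  have hs := slice_eq_h16 K (rowSt K 16 z t g)
  rw [h16_row] at hs
  unfold phiH
  simp only [solH, proj_wpt, hs, h16_row]
  by_cases h : ((z.1 : ZMod 16) + (t : ZMod 16)).val % 8 < 3
  · simp [h, baseT, spikeT, hs, tm]; rfl
  · simp [h, baseT, spikeT, hs, tm]; rfl

theorem solSet_winH : Tiles (solSet K) (winH K) := by
  rw [winH, tiles_keyTile_iff keyH_surj, keyWin_solSet_iff K (keyH K) (idem_16_ne K)]
  rintro z ⟨ch, cS, cT⟩
  set a := colIdx K z with ha
  have hcond : ∀ x : Fin 16 × Tag K,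
      (FixZero K false FH (basePos K (rowSt K 16 z x.1 x.2) x.2 - a) ∧
        keyH K (solCol K (wpt K 16 z x.1 x.2, x.2)) = (ch, cS, cT)) ↔
      (phiH ((z.1 : ZMod 16) + ((x.1 : ℕ) : ZMod 16), x.2.2 0, x.2.2 1) = (a.2 0, a.2 1, ch) ∧
        x.2.1 = cS ∧ keyT K FH x.2 = cT) := by
    intro x
    rw [← rowH_spec]
    have hk : keyH K (solCol K (wpt K 16 z x.1 x.2, x.2)) =
        (solH K (wpt K 16 z x.1 x.2, x.2), x.2.1, keyT K FH x.2) := rfl
    have hf : ∀ b : Tag K, FixZero K false FH (b - a) ↔ b.2 0 = a.2 0 ∧ b.2 1 = a.2 1 := by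
      intro b; simp [FixZero, FH, sub_eq_zero]
    rw [hk, hf, Prod.mk.injEq, Prod.mk.injEq]
    exact ⟨fun ⟨⟨h1, h2⟩, h3, h4, h5⟩ => ⟨Prod.ext h1 (Prod.ext h2 h3), h4, h5⟩,
      fun ⟨h, h4, h5⟩ => ⟨⟨congrArg Prod.fst h, congrArg (fun q => q.2.1) h⟩,
        congrArg (fun q => q.2.2) h, h4, h5⟩⟩
  simp only [hcond]
  obtain ⟨h, g0, g1, hp⟩ : ∃ h g0 g1, psiH (a.2 0, a.2 1, ch) = (h, g0, g1) := ⟨_, _, _, rfl⟩
  have hφ := (congrArg phiH hp.symm).trans (phiH_psiH _)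
  obtain ⟨g, hgS, hg0, hg1, hgT⟩ := exists_tag K (i := 0) (j := 1) (by decide)
    (by simp [FH] : (0 : Fin 6) ∈ FH) (by simp [FH] : (1 : Fin 6) ∈ FH) cT cS g0 g1
  refine ⟨(⟨(h - (z.1 : ZMod 16)).val, ZMod.val_lt _⟩, g), ⟨?_, hgS, hgT⟩, ?_⟩
  · dsimp only
    rw [ZMod.natCast_zmod_val, add_sub_cancel, hg0, hg1]
    exact hφ
  · rintro ⟨t, g'⟩ ⟨hx, hS, hT⟩
    dsimp only at hx hS hT
    have e := (psiH_phiH _).symm.trans ((congrArg psiH hx).trans hp)
    refine Prod.ext (Fin.ext ?_) (tag_ext K (F := FH) (i := 0) (j := 1) (by simp [FH])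
      (hS.trans hgS.symm) ((congrArg (fun q => q.2.1) e).trans hg0.symm)
      ((congrArg (fun q => q.2.2) e).trans hg1.symm) (hT.trans hgT.symm))
    show t.val = (h - (z.1 : ZMod 16)).val
    rw [← show (z.1 : ZMod 16) + ((t : ℕ) : ZMod 16) = h from congrArg Prod.fst e,
      add_sub_cancel_left, ZMod.val_cast_of_lt t.isLt]

lemma rowC_slice (z : Z2) (t : ℕ) (g : Tag K) :
    slice K (rowSt K K.q0 z t g) = (z.1 : ZMod 16).val % 8 := by
  have h := congrArg ZMod.val (rowSt_val K (sixteen_dvd_M K) K.q0 z t g)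
  rw [ZMod.val_natCast, cast_zero_of_dvd (sixteen_dvd_idem_q0 K), mul_zero, add_zero] at h
  rw [slice_eq_h16, h16, h]

lemma rowC_cPart (z : Z2) (t : ℕ) (g : Tag K) :
    cPart K (rowSt K K.q0 z t g) = ((z.1 : ZMod K.q0) + (t : ZMod K.q0)).val := by
  have h := congrArg ZMod.val (rowSt_val K (q0_dvd_M K) K.q0 z t g)
  rwa [ZMod.val_natCast, idem_q0, mul_one] at h

lemma rowC_uPart (z : Z2) (t : ℕ) (g : Tag K) (n : Att) :
    uPart K (rowSt K K.q0 z t g) n = (z.1 : ZMod (K.L n)).val := by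
  have h := congrArg ZMod.val (rowSt_val K (L_dvd_M K n) K.q0 z t g)
  rwa [ZMod.val_natCast, cast_zero_of_dvd (L_dvd_idem_q0 K n), mul_zero, add_zero] at h

lemma rowC_etaP (z : Z2) (t : ℕ) (g : Tag K) :
    etaP K (rowSt K K.q0 z t g) = (z.1 : ZMod K.E).val := by
  have h := congrArg ZMod.val (rowSt_val K (E_dvd_M K) K.q0 z t g)
  rwa [ZMod.val_natCast, cast_zero_of_dvd (E_dvd_idem_q0 K), mul_zero, add_zero] at h

lemma rowC_spikeS (z : Z2) (t : ℕ) (g : Tag K) :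
    spikeS K (rowSt K K.q0 z t g) ↔ spikeS K (rowSt K K.q0 z 0 (0 : Tag K)) := by
  simp only [spikeS, Omega, rowC_slice, rowC_etaP, rowC_uPart]

open Classical in
/-- The positions in the last seed window. -/
def rhoC (z : Z2) (cS : ZMod K.q0) (p : ZMod K.q0 × ZMod 13 × ZMod 17) :
    ZMod 13 × ZMod 17 × ZMod K.q0 :=
  if (z.1 : ZMod 16).val % 8 = 3 then
    (blkA p.1 p.2.1, blkB 13 p.1 p.2.2, cS + blkLab p.1 p.2.1 p.2.2)
  else if spikeS K (rowSt K K.q0 z 0 (0 : Tag K)) then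
    (p.2.1, p.2.2, ((∑ n, (z.1 : ZMod (K.L n)).val : ℕ) : ZMod K.q0) + p.1)
  else (p.2.1, p.2.2, cS + p.1)

lemma rowC_spec (z : Z2) (t : ℕ) (g : Tag K) :
    (baseT K (rowSt K K.q0 z t g) g 4, baseT K (rowSt K K.q0 z t g) g 5,
      baseS K (rowSt K K.q0 z t g) g) =
      rhoC K z g.1 ((z.1 : ZMod K.q0) + t, g.2 4, g.2 5) := by
  have hs := rowC_slice K z t g
  have hc := rowC_cPart K z t g
  have hu := rowC_uPart K z t g
  unfold rhoC
  by_cases h3 : (z.1 : ZMod 16).val % 8 = 3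
  · have hnS : ¬ spikeS K (rowSt K K.q0 z t g) := fun h => by
      have := h.1; rw [hs, h3] at this; exact absurd this (by norm_num)
    rw [if_pos h3]
    by_cases hlt : ((z.1 : ZMod K.q0) + (t : ZMod K.q0)).val < 13
    · simp [baseT, baseS, spikeT, epsC, blkA, blkB, blkLab, hs, hc, h3, hlt, hnS, tm,
        -Fintype.sum_sum_type]
      exact ZMod.natCast_val _
    · simp [baseT, baseS, spikeT, epsC, blkA, blkB, blkLab, hs, hc, h3, hlt, hnS, tm,
        -Fintype.sum_sum_type]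
      rfl
  · rw [if_neg h3]
    have h4 : baseT K (rowSt K K.q0 z t g) g 4 = g.2 4 := by simp [baseT, spikeT, hs, h3]
    have h5 : baseT K (rowSt K K.q0 z t g) g 5 = g.2 5 := by simp [baseT, spikeT, hs, h3]
    by_cases hS : spikeS K (rowSt K K.q0 z 0 (0 : Tag K))
    · rw [if_pos hS]
      refine Prod.ext h4 (Prod.ext h5 ?_)
      show baseS K _ g = _
      simp only [baseS, if_pos ((rowC_spikeS K z t g).mpr hS), hc, hu, Nat.cast_add,
        ZMod.natCast_zmod_val]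
    · rw [if_neg hS]
      refine Prod.ext h4 (Prod.ext h5 ?_)
      show baseS K _ g = _
      simp only [baseS, if_neg (mt (rowC_spikeS K z t g).mp hS), hs, if_neg h3, hc,
        ZMod.natCast_zmod_val]

lemma rhoC_bijective (z : Z2) (cS : ZMod K.q0) : Bijective (rhoC K z cS) := by
  unfold rhoC
  split_ifs
  · have hb := blk_bijective (n := K.q0) (a := 13) (b := 17) (by have := K.q0_big; omega)
      (Nat.dvd_of_mod_eq_zero (by have := K.q0_mod; have := K.q0_big; omega))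
    exact (((Equiv.refl (ZMod 13)).prodCongr
      ((Equiv.refl (ZMod 17)).prodCongr (Equiv.addLeft cS))).bijective).comp hb
  all_goals
    refine (Fintype.bijective_iff_injective_and_card _).mpr ⟨fun p q h => ?_, by simp; ring⟩
    simp only [Prod.mk.injEq, add_right_inj] at h
    exact Prod.ext h.2.2 (Prod.ext h.1 h.2.1)

theorem solSet_winC : Tiles (solSet K) (winC K) := by
  rw [winC, tiles_keyTile_iff keyC_surj, keyWin_solSet_iff K (keyC K) (idem_q0_ne K)]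
  rintro z ⟨cS, cT⟩
  set a := colIdx K z with ha
  have hcond : ∀ x : Fin K.q0 × Tag K,
      (FixZero K true FC (basePos K (rowSt K K.q0 z x.1 x.2) x.2 - a) ∧
        keyC K (solCol K (wpt K K.q0 z x.1 x.2, x.2)) = (cS, cT)) ↔
      (rhoC K z x.2.1 ((z.1 : ZMod K.q0) + ((x.1 : ℕ) : ZMod K.q0), x.2.2 4, x.2.2 5) =
          (a.2 4, a.2 5, a.1) ∧
        x.2.1 = cS ∧ keyT K FC x.2 = cT) := by
    intro x
    rw [← rowC_spec]
    have hk : keyC K (solCol K (wpt K K.q0 z x.1 x.2, x.2)) = (x.2.1, keyT K FC x.2) := rfl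
    have hf : ∀ b : Tag K, FixZero K true FC (b - a) ↔
        b.1 = a.1 ∧ b.2 4 = a.2 4 ∧ b.2 5 = a.2 5 := by
      intro b; simp [FixZero, FC, sub_eq_zero]
    rw [hk, hf, Prod.mk.injEq]
    exact ⟨fun ⟨⟨h1, h2, h3⟩, h4, h5⟩ => ⟨Prod.ext h2 (Prod.ext h3 h1), h4, h5⟩,
      fun ⟨h, h4, h5⟩ => ⟨⟨congrArg (fun q => q.2.2) h, congrArg Prod.fst h,
        congrArg (fun q => q.2.1) h⟩, h4, h5⟩⟩
  simp only [hcond]
  obtain ⟨⟨c, g4, g5⟩, hρ⟩ := (rhoC_bijective K z cS).surjective (a.2 4, a.2 5, a.1)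
  obtain ⟨g, hgS, hg4, hg5, hgT⟩ := exists_tag K (i := 4) (j := 5) (by decide)
    (by simp [FC] : (4 : Fin 6) ∈ FC) (by simp [FC] : (5 : Fin 6) ∈ FC) cT cS g4 g5
  refine ⟨(⟨(c - (z.1 : ZMod K.q0)).val, ZMod.val_lt _⟩, g), ⟨?_, hgS, hgT⟩, ?_⟩
  · dsimp only
    rw [ZMod.natCast_zmod_val, add_sub_cancel, hgS, hg4, hg5]
    exact hρ
  · rintro ⟨t, g'⟩ ⟨hx, hS, hT⟩
    dsimp only at hx hS hT
    rw [hS] at hx
    have e := (rhoC_bijective K z cS).injective (hx.trans hρ.symm)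
    refine Prod.ext (Fin.ext ?_) (tag_ext K (F := FC) (i := 4) (j := 5) (by simp [FC])
      (hS.trans hgS.symm) ((congrArg (fun q => q.2.1) e).trans hg4.symm)
      ((congrArg (fun q => q.2.2) e).trans hg5.symm) (hT.trans hgT.symm))
    show t.val = (c - (z.1 : ZMod K.q0)).val
    rw [← show (z.1 : ZMod K.q0) + ((t : ℕ) : ZMod K.q0) = c from congrArg Prod.fst e,
      add_sub_cancel_left, ZMod.val_cast_of_lt t.isLt]

end

end Vale.Agent.P043.Z3
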