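/-
P043, dimension three: the system on `ℤ² × cyclic` and the tile in every dimension at least three.
-/
import Vale.Agent.P043.Z3.SolEqs
import Vale.Agent.P043.Z3.SolSeeds
import Vale.Agent.P043.Z3.SolKeys
import Vale.Agent.P043.Z3.SolLab
import Vale.Agent.P043.Z3.SolRead
import Vale.Agent.P043.Z3.Engine
import Vale.Agent.P043.Z3.Seeds
import Vale.Agent.P043.Z3.Keys
import Vale.Agent.P043.Z3.Glue
import Vale.Agent.P043.Z3.Arith

namespace Vale.Agent.P043.Z3

open Function Finset

noncomputable section

variable (K : Par)

/-- The explicit set is tiled by every tile of the system. -/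
theorem good_solSet : Good K (solSet K) := by
  have hw : ∀ n, KeyWin (solSet K) (window K (mn K n) true FN) (keyN K n) := fun n =>
    (tiles_keyTile_iff (keyN_surj n)).mp (solSet_winN n)
  intro F hF
  cases hF with
  | tag => exact solSet_tag
  | mu => exact solSet_mu
  | eqn h => exact solSet_eqn h
  | seedH => exact solSet_winH K
  | seedC => exact solSet_winC K
  | win n => exact solSet_winN n
  | move1 n => exact solSet_move1 K n (hw n)
  | move2 n => exact solSet_move2 K n (hw n)
  | lab n j => exact solSet_lab K n j (hw n)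
  | read n hx => exact solSet_read K n hx (hw n)

/-- Every tiled set carries a periodically invariant Sudoku grid. -/
theorem exists_grid_of_good {A : Set (G K)} (hA : Good K A) :
    ∃ t : Z2 → P043.St, GridOK t ∧
      ∀ P : ℕ, PerBy A P → ∀ x : Z2, t (x + ((P : ℤ), 0)) = t x := by
  obtain ⟨V⟩ := exists_view hA
  obtain ⟨T⟩ := exists_states V
  obtain ⟨B⟩ := exists_base hA T
  obtain ⟨g⟩ := exists_grid hA B
  exact ⟨g.t, ⟨g.dig, g.clk, g.par⟩, g.per⟩

/-- One tile without periodic tiling in every dimension at least three. -/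
theorem oneBad_all (d : ℕ) (hd : 3 ≤ d) : OneBad (Fin d → ℤ) := by
  obtain ⟨K⟩ := exists_par
  exact oneBad_of_grid K (col_isAddCyclic K) ⟨_, good_solSet K⟩
    (fun _ hA => exists_grid_of_good K hA) d hd

end

end Vale.Agent.P043.Z3
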